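import Vale.Agent.P095.SC.Pins
import Vale.Agent.P095.SN.Positive

/-!
P095, comparison from traces, block K3: random arrays over a nuclear algebra
(notes/P095/helper9_comparison.md, C3).
-/

namespace Vale.Agent.P095.SC

open Matrix Vale.Agent.P095.SN
open scoped Matrix.Norms.L2Operator MatrixOrder Kronecker ComplexOrder

universe u

theorem norm_le_of_two_squares {F : Type*} [CStarAlgebra F] {M R R' : F} {r : ℝ} (hr : 0 ≤ r)
    (h1 : (r : ℂ) • 1 - M = star R * R) (h2 : (r : ℂ) • 1 + M = star R' * R') : ‖M‖ ≤ r := by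
  let := CStarAlgebra.spectralOrder F
  have := CStarAlgebra.spectralOrderedRing F
  rcases subsingleton_or_nontrivial F with hs | hn
  · simp [Subsingleton.elim M 0, hr]
  have hX : 0 ≤ (r : ℂ) • (1 : F) - M := h1 ▸ star_mul_self_nonneg R
  have hY : 0 ≤ (r : ℂ) • (1 : F) + M := h2 ▸ star_mul_self_nonneg R'
  have hM : IsSelfAdjoint M := by
    have h : IsSelfAdjoint ((r : ℂ) • (1 : F)) := by simp [IsSelfAdjoint]
    simpa using h.sub (IsSelfAdjoint.of_nonneg hX)
  have hcm : Commute ((r : ℂ) • (1 : F)) M := (Commute.one_left M).smul_left _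
  have hc : Commute ((r : ℂ) • (1 : F) - M) ((r : ℂ) • 1 + M) :=
    ((Commute.refl _).add_right hcm).sub_left (hcm.symm.add_right (Commute.refl M))
  have h3 := Commute.mul_nonneg hX hY hc
  have h4 : star M * M ≤ ((r * r : ℝ) : ℂ) • (1 : F) := by
    rw [hM.star_eq, ← sub_nonneg]
    refine h3.trans_eq ?_
    simp only [sub_mul, mul_add, smul_mul_assoc, mul_smul_comm, one_mul, mul_one, smul_smul,
      Complex.ofReal_mul, smul_sub]
    abel
  have h5 := CStarAlgebra.norm_le_norm_of_nonneg_of_le (star_mul_self_nonneg M) h4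
  rw [CStarRing.norm_star_mul_self, norm_smul, norm_one, mul_one, Complex.norm_real,
    Real.norm_of_nonneg (mul_self_nonneg r)] at h5
  nlinarith [norm_nonneg M]

theorem norm_le_of_square {F : Type*} [CStarAlgebra F] {M R : F} {r : ℝ} (hr : 0 ≤ r)
    (h : ((r * r : ℝ) : ℂ) • 1 - star M * M = star R * R) : ‖M‖ ≤ r := by
  let := CStarAlgebra.spectralOrder F
  have := CStarAlgebra.spectralOrderedRing F
  rcases subsingleton_or_nontrivial F with hs | hn
  · simp [Subsingleton.elim M 0, hr]
  have h4 : star M * M ≤ ((r * r : ℝ) : ℂ) • (1 : F) := sub_nonneg.1 (h ▸ star_mul_self_nonneg R)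
  have h5 := CStarAlgebra.norm_le_norm_of_nonneg_of_le (star_mul_self_nonneg M) h4
  rw [CStarRing.norm_star_mul_self, norm_smul, norm_one, mul_one, Complex.norm_real,
    Real.norm_of_nonneg (mul_self_nonneg r)] at h5
  nlinarith [norm_nonneg M]

variable {A : Type u} [CStarAlgebra A]

theorem isPos_add {a b : A} (ha : IsPos a) (hb : IsPos b) : IsPos (a + b) := by
  obtain ⟨x, rfl⟩ := ha
  obtain ⟨y, rfl⟩ := hb
  simpa using isPos_sum_star_mul_self (Finset.univ : Finset (Fin 2)) ![x, y]

theorem isPos_zero : IsPos (0 : A) := ⟨0, by simp⟩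

theorem isPos_sum {ι : Type*} (s : Finset ι) (f : ι → A) (h : ∀ i ∈ s, IsPos (f i)) :
    IsPos (∑ i ∈ s, f i) := by
  classical
  induction s using Finset.induction_on with
  | empty => simpa using isPos_zero
  | insert a s ha ih =>
    rw [Finset.sum_insert ha]
    exact isPos_add (h a (Finset.mem_insert_self a s))
      (ih fun i hi => h i (Finset.mem_insert_of_mem hi))

theorem isPos_norm_sub {a : A} (ha : IsPos a) {r : ℝ} (hr : ‖a‖ ≤ r) :
    IsPos ((r : ℂ) • 1 - a) := by
  let := CStarAlgebra.spectralOrder A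
  have := CStarAlgebra.spectralOrderedRing A
  have h0 : 0 ≤ a := by
    obtain ⟨z, rfl⟩ := ha
    exact star_mul_self_nonneg z
  obtain ⟨x, hx⟩ := CStarAlgebra.nonneg_iff_eq_star_mul_self.1 (sub_nonneg.2
    ((IsSelfAdjoint.of_nonneg h0).le_algebraMap_norm_self.trans (algebraMap_mono A hr)))
  refine ⟨x, ?_⟩
  rw [← hx, Algebra.algebraMap_eq_smul_one, Complex.coe_smul]

/-- The quadratic form of an array. -/
def form {N : ℕ} (T : Fin N → Fin N → A) (z : Fin N → A) : A :=
  ∑ p, ∑ q, star (z p) * T p q * z q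

theorem form_add {N : ℕ} (T T' : Fin N → Fin N → A) (z : Fin N → A) :
    form (fun p q => T p q + T' p q) z = form T z + form T' z := by
  simp [form, mul_add, add_mul, Finset.sum_add_distrib]

theorem form_scalar_pos {N : ℕ} {ι : Type*} [Fintype ι] (Z : ι → Fin N → ℂ) {a : A} (ha : IsPos a)
    (z : Fin N → A) : IsPos (form (fun p q => (∑ r, star (Z r p) * Z r q) • a) z) := by
  obtain ⟨d, rfl⟩ := ha
  convert isPos_sum_star_mul_self (Finset.univ : Finset ι) (fun r => ∑ p, Z r p • (d * z p)) using 1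
  simp only [form, star_sum, Finset.sum_mul, Finset.mul_sum, Finset.sum_smul]
  refine (Finset.sum_congr rfl fun p _ => Finset.sum_comm).trans ?_
  rw [Finset.sum_comm]
  refine Finset.sum_congr rfl fun r _ => ?_
  rw [Finset.sum_comm]
  refine Finset.sum_congr rfl fun q _ => Finset.sum_congr rfl fun p _ => ?_
  simp only [star_smul, star_mul, smul_mul_assoc, mul_smul_comm, smul_smul, mul_assoc]
  rw [mul_comm]

theorem form_psd_pos {N : ℕ} {X : Matrix (Fin N) (Fin N) ℂ} (hX : X.PosSemidef) {a : A}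
    (ha : IsPos a) (z : Fin N → A) : IsPos (form (fun p q => X p q • a) z) := by
  obtain ⟨Z, rfl⟩ := CStarAlgebra.nonneg_iff_eq_star_mul_self.1 (nonneg_iff_posSemidef.2 hX)
  simpa [Matrix.mul_apply, Matrix.star_apply] using form_scalar_pos (fun r p => Z r p) ha z

theorem cstar_smul_apply {N : ℕ} (r : ℂ) (M : CStarMatrix (Fin N) (Fin N) A) (p q : Fin N) :
    (r • M) p q = r • M p q := rfl

theorem cstar_sum_apply {N : ℕ} {ι : Type*} (s : Finset ι)
    (M : ι → CStarMatrix (Fin N) (Fin N) A) (p q : Fin N) :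
    (∑ i ∈ s, M i) p q = ∑ i ∈ s, M i p q := by
  classical
  induction s using Finset.induction_on with
  | empty => rfl
  | insert a s ha ih => rw [Finset.sum_insert ha, Finset.sum_insert ha, CStarMatrix.add_apply, ih]

theorem norm_le_of_forms [PartialOrder A] [StarOrderedRing A] {N : ℕ} (T : Fin N → Fin N → A) {r : ℝ} (hr : 0 ≤ r)
    (h1 : ∀ z, IsPos (form (fun p q => (if p = q then (r : ℂ) • 1 else 0) - T p q) z))
    (h2 : ∀ z, IsPos (form (fun p q => (if p = q then (r : ℂ) • 1 else 0) + T p q) z)) :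
    ‖CStarMatrix.ofMatrix (Matrix.of T)‖ ≤ r := by
  obtain ⟨R, hR⟩ := exists_squares_of_isPos_form _ h1
  obtain ⟨R', hR'⟩ := exists_squares_of_isPos_form _ h2
  refine norm_le_of_two_squares (R := CStarMatrix.ofMatrix (Matrix.of R))
    (R' := CStarMatrix.ofMatrix (Matrix.of R')) hr ?_ ?_
  · ext p q
    rw [CStarMatrix.sub_apply, cstar_smul_apply, CStarMatrix.one_apply, smul_ite, smul_zero]
    simpa [CStarMatrix.mul_apply, CStarMatrix.star_apply] using hR p q
  · ext p q
    rw [CStarMatrix.add_apply, cstar_smul_apply, CStarMatrix.one_apply, smul_ite, smul_zero]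
    simpa [CStarMatrix.mul_apply, CStarMatrix.star_apply] using hR' p q

/-- A scalar array times an element. -/
def tens {N : ℕ} (C : Matrix (Fin N) (Fin N) ℂ) (c : A) : CStarMatrix (Fin N) (Fin N) A :=
  CStarMatrix.ofMatrix (Matrix.of fun p q => C p q • c)

theorem norm_tens_le [PartialOrder A] [StarOrderedRing A] {N : ℕ} (C : Matrix (Fin N) (Fin N) ℂ)
    (c : A) {b e : ℝ} (hC : ‖C‖ ≤ b) (hc : ‖c‖ ≤ e) : ‖tens C c‖ ≤ b * e := by
  have hb : 0 ≤ b := (norm_nonneg C).trans hC
  have he : 0 ≤ e := (norm_nonneg c).trans hc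
  have hcc : IsPos (star c * c) := ⟨c, rfl⟩
  have hsub : IsPos (((e * e : ℝ) : ℂ) • 1 - star c * c) := isPos_norm_sub hcc (by
    rw [CStarRing.norm_star_mul_self]
    exact mul_self_le_mul_self (norm_nonneg c) hc)
  have hX : (((b * b : ℝ) : ℂ) • (1 : Matrix (Fin N) (Fin N) ℂ) - star C * C).PosSemidef := by
    rw [← Matrix.le_iff]
    refine (IsSelfAdjoint.star_mul_self C).le_algebraMap_norm_self.trans ?_
    rw [Complex.coe_smul, ← Algebra.algebraMap_eq_smul_one]
    refine algebraMap_mono _ ?_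
    rw [CStarRing.norm_star_mul_self]
    exact mul_self_le_mul_self (norm_nonneg C) hC
  have h : ∀ z, IsPos (form (fun p q =>
      (if p = q then ((b * e * (b * e) : ℝ) : ℂ) • (1 : A) else 0)
        - (star C * C) p q • (star c * c)) z) := by
    intro z
    have e1 : (fun p q => (if p = q then ((b * e * (b * e) : ℝ) : ℂ) • (1 : A) else 0)
        - (star C * C) p q • (star c * c)) = fun p q =>
          (if p = q then ((b * b : ℝ) : ℂ) else 0) • (((e * e : ℝ) : ℂ) • (1 : A) - star c * c)
          + (((b * b : ℝ) : ℂ) • (1 : Matrix (Fin N) (Fin N) ℂ) - star C * C) p q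
            • (star c * c) := by
      funext p q
      rcases eq_or_ne p q with rfl | hpq
      · simp only [if_true, Matrix.sub_apply, Matrix.smul_apply, Matrix.one_apply_eq, smul_eq_mul,
          mul_one, smul_sub, sub_smul, smul_smul]
        rw [show ((b * e * (b * e) : ℝ) : ℂ) = ((b * b : ℝ) : ℂ) * ((e * e : ℝ) : ℂ) by
          push_cast; ring]
        abel
      · simp [hpq]
    rw [e1, form_add]
    refine isPos_add ?_ (form_psd_pos hX hcc z)
    have h0 : (((b * b : ℝ) : ℂ) • (1 : Matrix (Fin N) (Fin N) ℂ)).PosSemidef :=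
      Matrix.PosSemidef.one.smul (by exact_mod_cast mul_self_nonneg b)
    simpa [Matrix.one_apply] using form_psd_pos h0 hsub z
  obtain ⟨R, hR⟩ := exists_squares_of_isPos_form _ h
  refine norm_le_of_square (R := CStarMatrix.ofMatrix (Matrix.of R)) (mul_nonneg hb he) ?_
  have hs : star (tens C c) * tens C c = tens (star C * C) (star c * c) := by
    ext p q
    simp [tens, CStarMatrix.mul_apply, CStarMatrix.star_apply, Matrix.mul_apply, Matrix.star_apply,
      Finset.sum_smul, smul_smul, mul_comm]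
  rw [hs]
  ext p q
  simpa [tens, CStarMatrix.mul_apply, CStarMatrix.star_apply, CStarMatrix.one_apply, smul_ite]
    using hR p q

/-- A block of a matrix over pairs. -/
def block {N n : ℕ} (X : Matrix (Fin N × Fin n) (Fin N × Fin n) ℂ) (p q : Fin N) :
    Matrix (Fin n) (Fin n) ℂ :=
  Matrix.of fun i j => X (p, i) (q, j)

theorem form_map_pos {N n : ℕ} {ψ : Matrix (Fin n) (Fin n) ℂ →ₗ[ℂ] A} (hψ : IsCPFromMatrix ψ)
    (S : Matrix (Fin n) (Fin n) ℂ) {X : Matrix (Fin N × Fin n) (Fin N × Fin n) ℂ}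
    (hX : X.PosSemidef) (z : Fin N → A) :
    IsPos (form (fun p q => ψ (S.conjTranspose * block X p q * S)) z) := by
  classical
  obtain ⟨Z, rfl⟩ := CStarAlgebra.nonneg_iff_eq_star_mul_self.1 (nonneg_iff_posSemidef.2 hX)
  let T : Fin N × Fin n → Fin N → Matrix (Fin n) (Fin n) ℂ := fun r p =>
    Matrix.of fun s i => if (s : ℕ) = 0 then Z r (p, i) else 0
  have hb : ∀ p q, block (star Z * Z) p q = ∑ r, (T r p).conjTranspose * T r q := by
    intro p q
    ext i j
    simp only [block, Matrix.of_apply, Matrix.mul_apply, Matrix.star_apply, Matrix.sum_apply,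
      Matrix.conjTranspose_apply, T]
    refine Finset.sum_congr rfl fun r _ => ?_
    rw [Finset.sum_eq_single (⟨0, i.pos⟩ : Fin n)]
    · simp
    · intro s _ hs
      have : (s : ℕ) ≠ 0 := fun h => hs (Fin.ext h)
      simp [this]
    · simp
  have e : form (fun p q => ψ (S.conjTranspose * block (star Z * Z) p q * S)) z
      = ∑ r, ∑ p, ∑ q, star (z p) * ψ ((T r p * S).conjTranspose * (T r q * S)) * z q := by
    simp only [form, hb, Matrix.mul_sum, map_sum, Finset.sum_mul,
      Matrix.conjTranspose_mul, Matrix.mul_assoc]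
    symm
    rw [Finset.sum_comm]
    refine Finset.sum_congr rfl fun p _ => ?_
    rw [Finset.sum_comm]
    simp only [Finset.mul_sum, Finset.sum_mul]
  rw [e]
  exact isPos_sum _ _ fun r _ => hψ N (fun p => T r p * S) z

/-- A completely positive map applied blockwise is bounded by the image of the unit. -/
theorem norm_map_block_le [PartialOrder A] [StarOrderedRing A] {N n : ℕ} {ψ : Matrix (Fin n) (Fin n) ℂ →ₗ[ℂ] A} (hψ : IsCPFromMatrix ψ)
    (S : Matrix (Fin n) (Fin n) ℂ) (E : Matrix (Fin N × Fin n) (Fin N × Fin n) ℂ)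
    (hE : IsSelfAdjoint E) {c c' : ℝ} (hc : ‖E‖ ≤ c) (hc' : ‖ψ (S.conjTranspose * S)‖ ≤ c') :
    ‖CStarMatrix.ofMatrix (Matrix.of fun p q => ψ (S.conjTranspose * block E p q * S))‖
      ≤ c * c' := by
  have h0 : 0 ≤ c := (norm_nonneg E).trans hc
  have h0' : 0 ≤ c' := (norm_nonneg _).trans hc'
  have hψ1 : IsPos (ψ (S.conjTranspose * S)) := by
    simpa using hψ 1 (fun _ => S) (fun _ => 1)
  have key : ∀ E' : Matrix (Fin N × Fin n) (Fin N × Fin n) ℂ, IsSelfAdjoint E' → ‖E'‖ ≤ c →
      ∀ z, IsPos (form (fun p q => (if p = q then ((c * c' : ℝ) : ℂ) • (1 : A) else 0)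
        - ψ (S.conjTranspose * block E' p q * S)) z) := by
    intro E' hE' hc2 z
    have hX : ((c : ℂ) • (1 : Matrix (Fin N × Fin n) (Fin N × Fin n) ℂ) - E').PosSemidef := by
      rw [← Matrix.le_iff]
      refine hE'.le_algebraMap_norm_self.trans ?_
      rw [Complex.coe_smul, ← Algebra.algebraMap_eq_smul_one]
      exact algebraMap_mono _ hc2
    have hd : ((c : ℂ) • (1 : Matrix (Fin N) (Fin N) ℂ)).PosSemidef :=
      Matrix.PosSemidef.one.smul (by exact_mod_cast h0)
    have hb : ∀ p q, block ((c : ℂ) • (1 : Matrix (Fin N × Fin n) (Fin N × Fin n) ℂ) - E') p q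
        = (if p = q then (c : ℂ) else 0) • 1 - block E' p q := by
      intro p q
      ext i j
      by_cases h : p = q <;> by_cases h' : i = j <;> simp [block, h, h', Matrix.one_apply]
    have e : (fun p q => (if p = q then ((c * c' : ℝ) : ℂ) • (1 : A) else 0)
        - ψ (S.conjTranspose * block E' p q * S)) = fun p q =>
          ((c : ℂ) • (1 : Matrix (Fin N) (Fin N) ℂ)) p q
            • ((c' : ℂ) • (1 : A) - ψ (S.conjTranspose * S))
          + ψ (S.conjTranspose
            * block ((c : ℂ) • (1 : Matrix (Fin N × Fin n) (Fin N × Fin n) ℂ) - E') p q * S) := by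
      funext p q
      rw [hb, Matrix.mul_sub, Matrix.sub_mul, Matrix.mul_smul, Matrix.mul_one, Matrix.smul_mul,
        map_sub, map_smul]
      rcases eq_or_ne p q with rfl | hpq
      · simp [smul_sub, smul_smul, -Complex.ofReal_mul]
      · simp [hpq]
    rw [e, form_add]
    exact isPos_add (form_psd_pos hd (isPos_norm_sub hψ1 hc') z) (form_map_pos hψ S hX z)
  refine norm_le_of_forms _ (mul_nonneg h0 h0') (key E hE hc) fun z => ?_
  have h := key (-E) hE.neg (by rwa [norm_neg]) z
  have hneg : ∀ p q, block (-E) p q = -block E p q := fun p q => rfl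
  simpa [hneg] using h

theorem amplifyPin : AmplifyPin.{u} := by
  intro hM A _ hA a b L ha hb hL k y δ hδ hbδ hf hg
  classical
  let := CStarAlgebra.spectralOrder A
  have := CStarAlgebra.spectralOrderedRing A
  obtain ⟨B₀, hB₀⟩ := hM a b L ha hb hL
  set B := max B₀ 1
  have hB1 : 1 ≤ B := le_max_right _ _
  set σ := 1 / Real.sqrt (L : ℝ) with hσdef
  have hσ : 0 < σ := by
    have : (0 : ℝ) < L := by exact_mod_cast hL
    positivity
  have hσ1 : σ ≤ 1 := by
    rw [hσdef, div_le_one (Real.sqrt_pos.2 (by exact_mod_cast hL))]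
    exact Real.one_le_sqrt.2 (by exact_mod_cast hL)
  obtain ⟨ε, hε, hε1, hεk⟩ : ∃ ε > (0 : ℝ), ε ≤ 1 / 108 ∧
      ((k : ℝ) ^ 2 * B ^ 2 + k) * ε ≤ σ := by
    refine ⟨min (1 / 108) (σ / ((k : ℝ) ^ 2 * B ^ 2 + k + 1)), lt_min (by norm_num) (by positivity),
      min_le_left _ _, ?_⟩
    refine (mul_le_mul_of_nonneg_left (min_le_right _ _) (by positivity)).trans ?_
    rw [mul_div_assoc', div_le_iff₀ (by positivity)]
    nlinarith
  obtain ⟨n, φ, ψ, hφ, hψ, happ⟩ := hA
    (insert 1 (Finset.univ.image fun ij : Fin k × Fin k => star (y ij.1) * y ij.2)) ε hε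
  have happ1 : ‖ψ (φ 1) - 1‖ ≤ ε := happ 1 (Finset.mem_insert_self _ _)
  have happ2 : ∀ i j, ‖ψ (φ (star (y i) * y j)) - star (y i) * y j‖ ≤ ε := fun i j =>
    happ _ (Finset.mem_insert_of_mem (Finset.mem_image.2 ⟨(i, j), Finset.mem_univ _, rfl⟩))
  -- positivity of the first map
  have hpsd : ∀ v : A, (φ (star v * v)).PosSemidef := fun v =>
    (hφ 1 fun _ => v).submatrix fun i => ((0 : Fin 1), i)
  set f := ∑ i, star (y i) * y i with hfdef
  have hfpos : IsPos f := isPos_sum_star_mul_self _ _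
  obtain ⟨v1, hv1⟩ := isPos_norm_sub hfpos hf
  rw [Complex.ofReal_one, one_smul] at hv1
  have hφ1 : (φ 1).PosSemidef := by simpa using hpsd 1
  -- the normalisation
  set θ := ε / (‖ψ 1‖ + 1) with hθdef
  have hθ : 0 < θ := by positivity
  set P := φ 1 + (θ : ℂ) • 1 with hP
  have hPpd : P.PosDef :=
    Matrix.PosDef.posSemidef_add hφ1 (Matrix.PosDef.one.smul (by exact_mod_cast hθ))
  set S := CFC.sqrt P with hS
  have hSS : S * S = P := CFC.sqrt_mul_sqrt_self P (nonneg_iff_posSemidef.2 hPpd.posSemidef)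
  have hSh : S.conjTranspose = S := (IsSelfAdjoint.of_nonneg (CFC.sqrt_nonneg P)).star_eq
  have hSu : IsUnit S.det := by
    have h := (Matrix.isUnit_iff_isUnit_det P).1 hPpd.isUnit
    rw [← hSS, Matrix.det_mul] at h
    exact isUnit_of_mul_isUnit_left h
  set Si := S⁻¹
  have hSih : Si.conjTranspose = Si := by rw [Matrix.conjTranspose_nonsing_inv, hSh]
  have hSi1 : S * Si = 1 := Matrix.mul_nonsing_inv S hSu
  have hSi2 : Si * S = 1 := Matrix.nonsing_inv_mul S hSu
  have hSPS : Si * P * Si = 1 := by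
    rw [← hSS, ← Matrix.mul_assoc, hSi2, Matrix.one_mul, hSi1]
  -- the matrices
  set G : Matrix (Fin k × Fin n) (Fin k × Fin n) ℂ :=
    Matrix.of fun p q => φ (star (y p.1) * y q.1) p.2 q.2 with hG
  obtain ⟨W, hW⟩ := CStarAlgebra.nonneg_iff_eq_star_mul_self.1
    (nonneg_iff_posSemidef.2 (hφ k y : G.PosSemidef))
  let er : Fin k × Fin n ≃ Fin (k * n) := finProdFinEquiv
  let Y : Fin k → Matrix (Fin (k * n)) (Fin n) ℂ := fun p =>
    (Matrix.of fun r i => W (er.symm r) (p, i)) * Si
  have hYY : ∀ p q, (Y p).conjTranspose * Y q = Si * φ (star (y p) * y q) * Si := by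
    intro p q
    have : (Matrix.of fun r i => W (er.symm r) (p, i)).conjTranspose
        * (Matrix.of fun r i => W (er.symm r) (q, i)) = φ (star (y p) * y q) := by
      ext i j
      have h := congrFun (congrFun hW (p, i)) (q, j)
      rw [Matrix.of_apply, Matrix.mul_apply] at h
      rw [h, Matrix.mul_apply, ← er.symm.sum_comp]
      rfl
    simp only [Y, Matrix.conjTranspose_mul, hSih]
    rw [Matrix.mul_assoc, ← Matrix.mul_assoc (Matrix.of fun r i => W (er.symm r) (p, i)).conjTranspose,
      this, Matrix.mul_assoc]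
  have hsumY : (∑ p, (Y p).conjTranspose * Y p) = Si * φ f * Si := by
    simp only [hYY, hfdef, map_sum, Matrix.mul_sum, Matrix.sum_mul]
  have hY1 : ‖∑ p, (Y p).conjTranspose * Y p‖ ≤ 1 := by
    have h0 : 0 ≤ ∑ p, (Y p).conjTranspose * Y p :=
      Finset.sum_nonneg fun p _ => nonneg_iff_posSemidef.2 (Matrix.posSemidef_conjTranspose_mul_self _)
    refine (CStarAlgebra.norm_le_norm_of_nonneg_of_le h0 (?_ : _ ≤ (1 : Matrix (Fin n) (Fin n) ℂ))).trans ?_
    · rw [Matrix.le_iff, hsumY, ← hSPS,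
        show Si * P * Si - Si * φ f * Si = Si.conjTranspose * (φ (star v1 * v1) + (θ : ℂ) • 1) * Si by
          rw [hv1, map_sub, hSih, ← Matrix.sub_mul, ← Matrix.mul_sub, hP]; congr 2; abel]
      exact ((hpsd v1).add (Matrix.PosSemidef.one.smul (by exact_mod_cast hθ.le))).conjTranspose_mul_mul_same Si
    · rcases subsingleton_or_nontrivial (Matrix (Fin n) (Fin n) ℂ) with h | h
      · simp [Subsingleton.elim (1 : Matrix (Fin n) (Fin n) ℂ) 0]
      · exact le_of_eq norm_one
  have hY2 : ‖∑ p, Y p * (Y p).conjTranspose‖ ≤ δ := by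
    set W' : Matrix (Fin (k * n)) (Fin k × Fin n) ℂ := Matrix.of fun r pi => Y pi.1 r pi.2
    have e1 : (∑ p, Y p * (Y p).conjTranspose) = W' * W'.conjTranspose := by
      ext r s
      simp [W', Matrix.sum_apply, Matrix.mul_apply, Fintype.sum_prod_type]
    have e2 : ‖W' * W'.conjTranspose‖ = ‖W'.conjTranspose * W'‖ := by
      have h1 := Matrix.l2_opNorm_conjTranspose_mul_self W'.conjTranspose
      rw [Matrix.conjTranspose_conjTranspose, Matrix.l2_opNorm_conjTranspose] at h1
      rw [h1, Matrix.l2_opNorm_conjTranspose_mul_self]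
    -- the tuple in the algebra
    have hPA : IsPos ((δ : ℂ) • 1 - ∑ i, y i * star (y i)) := isPos_norm_sub
      (by simpa using isPos_sum_star_mul_self Finset.univ fun i => star (y i)) hg
    have hT : ∀ z : Fin k → A, IsPos (∑ p, ∑ q,
        star (z p) * ((if p = q then (δ : ℂ) • 1 else 0) - star (y p) * y q) * z q) := by
      intro z
      set u := ∑ i, y i * z i with hu
      obtain ⟨d, hd⟩ := hPA
      have e : (∑ p, ∑ q, star (z p) * ((if p = q then (δ : ℂ) • 1 else 0) - star (y p) * y q) * z q)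
          = (δ : ℂ) • (∑ p, star (z p) * z p) - star u * u := by
        simp only [mul_sub, sub_mul, Finset.sum_sub_distrib, hu, star_sum, star_mul, Finset.sum_mul,
          Finset.mul_sum, mul_ite, ite_mul, mul_smul_comm, smul_mul_assoc, mul_one, mul_zero,
          zero_mul, Finset.sum_ite_eq, Finset.mem_univ, if_true, Finset.smul_sum, mul_assoc]
        rw [Finset.sum_comm (f := fun p q => star (z p) * (star (y p) * (y q * z q)))]
      have h5 : IsPos ((δ : ℂ) • ((δ : ℂ) • (∑ p, star (z p) * z p) - star u * u)) := by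
        have h6 : (∑ p, star ((δ : ℂ) • z p - star (y p) * u) * ((δ : ℂ) • z p - star (y p) * u))
            + star (d * u) * (d * u)
            = (δ : ℂ) • ((δ : ℂ) • (∑ p, star (z p) * z p) - star u * u) := by
          simp only [star_sub, star_smul, star_mul, star_star, Complex.star_def, Complex.conj_ofReal,
            sub_mul, mul_sub, smul_mul_assoc, mul_smul_comm, Finset.sum_sub_distrib,
            ← Finset.smul_sum]
          have a1 : (∑ p, star (z p) * (star (y p) * u)) = star u * u := by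
            simp only [← mul_assoc, ← Finset.sum_mul, hu, star_sum, star_mul]
          have a2 : (∑ p, star u * y p * z p) = star u * u := by
            simp only [mul_assoc, ← Finset.mul_sum, hu]
          have a3 : (∑ p, star u * y p * (star (y p) * u))
              = star u * (∑ p, y p * star (y p)) * u := by
            simp only [Finset.mul_sum, Finset.sum_mul, mul_assoc]
          rw [a1, a2, a3, mul_assoc (star u) (star d), ← mul_assoc (star d) d u, hd, sub_mul, mul_sub,
            smul_mul_assoc, one_mul, mul_smul_comm, ← mul_assoc (star u) _ u, smul_sub, smul_smul]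
          abel
        rw [← h6]
        exact isPos_add (isPos_sum_star_mul_self _ _) ⟨_, rfl⟩
      obtain ⟨x, hx⟩ := h5
      refine ⟨((Real.sqrt δ)⁻¹ : ℂ) • x, ?_⟩
      rw [e, star_smul, smul_mul_smul_comm, hx, smul_smul]
      have hs : (δ : ℂ) = (Real.sqrt δ : ℂ) * (Real.sqrt δ : ℂ) := by
        rw [← Complex.ofReal_mul, Real.mul_self_sqrt hδ.le]
      have hs0 : (Real.sqrt δ : ℂ) ≠ 0 := by exact_mod_cast (Real.sqrt_pos.2 hδ).ne'
      rw [show star ((Real.sqrt δ : ℂ)⁻¹) * (Real.sqrt δ : ℂ)⁻¹ * (δ : ℂ) = 1 by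
        rw [star_inv₀, Complex.star_def, Complex.conj_ofReal, hs]; field_simp, one_smul]
    obtain ⟨R, hR⟩ := exists_squares_of_isPos_form _ hT
    let D : Matrix (Fin k × Fin n) (Fin k × Fin n) ℂ :=
      Matrix.of fun p q => φ ((if p.1 = q.1 then (δ : ℂ) • 1 else 0) - star (y p.1) * y q.1) p.2 q.2
    have hD : D.PosSemidef := by
      have : D = ∑ r, Matrix.of fun p q : Fin k × Fin n => φ (star (R r p.1) * R r q.1) p.2 q.2 := by
        ext p q
        simp only [D, Matrix.of_apply, Matrix.sum_apply]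
        rw [hR]
        simp [map_sum, Matrix.sum_apply]
      rw [this]
      exact Matrix.posSemidef_sum _ fun r _ => hφ k fun p => R r p
    have e3 : ∀ pi qj : Fin k × Fin n, (W'.conjTranspose * W') pi qj
        = (Si * φ (star (y pi.1) * y qj.1) * Si) pi.2 qj.2 := fun pi qj => by
      rw [← hYY]
      simp [W', Matrix.mul_apply]
    have h0 : 0 ≤ W'.conjTranspose * W' :=
      nonneg_iff_posSemidef.2 (Matrix.posSemidef_conjTranspose_mul_self _)
    rw [e1, e2]
    refine (CStarAlgebra.norm_le_norm_of_nonneg_of_le h0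
      (?_ : _ ≤ (δ : ℂ) • (1 : Matrix (Fin k × Fin n) (Fin k × Fin n) ℂ))).trans ?_
    · rw [Matrix.le_iff]
      have hU : (D + ((δ * θ : ℝ) : ℂ) • 1).PosSemidef :=
        hD.add (Matrix.PosSemidef.one.smul (by exact_mod_cast (mul_pos hδ hθ).le))
      let K : Matrix (Fin k × Fin n) (Fin k × Fin n) ℂ := (1 : Matrix (Fin k) (Fin k) ℂ) ⊗ₖ Si
      suffices hh : (δ : ℂ) • (1 : Matrix (Fin k × Fin n) (Fin k × Fin n) ℂ) - W'.conjTranspose * W'
          = K.conjTranspose * (D + ((δ * θ : ℝ) : ℂ) • 1) * K by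
        rw [hh]
        exact hU.conjTranspose_mul_mul_same K
      refine Matrix.ext fun pi qj => ?_
      obtain ⟨p, i⟩ := pi
      obtain ⟨q, j⟩ := qj
      have hK : ∀ X : Matrix (Fin k × Fin n) (Fin k × Fin n) ℂ,
          (K.conjTranspose * X * K) (p, i) (q, j) = (Si * block X p q * Si) i j := by
        intro X
        have hKc : K.conjTranspose = (1 : Matrix (Fin k) (Fin k) ℂ) ⊗ₖ Si := by
          rw [Matrix.conjTranspose_kronecker, Matrix.conjTranspose_one, hSih]
        rw [hKc]
        simp [K, block, Matrix.mul_apply, Matrix.one_apply, Fintype.sum_prod_type, ite_mul, mul_ite]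
      rw [hK, Matrix.sub_apply, e3]
      have hbl : block (D + ((δ * θ : ℝ) : ℂ) • 1) p q
          = (if p = q then (δ : ℂ) else 0) • P - φ (star (y p) * y q) := by
        ext i' j'
        rcases eq_or_ne p q with rfl | hpq
        · simp only [block, D, hP, map_sub, map_smul, Matrix.of_apply, Matrix.add_apply,
            Matrix.sub_apply, Matrix.smul_apply, if_true, smul_eq_mul, Matrix.one_apply,
            Prod.mk.injEq, true_and]
          push_cast
          ring
        · simp [block, D, hpq, map_sub]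
      rw [hbl, Matrix.mul_sub, Matrix.sub_mul, Matrix.mul_smul, Matrix.smul_mul, hSPS]
      rcases eq_or_ne p q with rfl | hpq
      · by_cases h : i = j <;> simp [h]
      · simp [hpq]
    · rw [norm_smul, Complex.norm_real, Real.norm_of_nonneg hδ.le]
      rcases subsingleton_or_nontrivial (Matrix (Fin k × Fin n) (Fin k × Fin n) ℂ) with h | h
      · simp [Subsingleton.elim (1 : Matrix (Fin k × Fin n) (Fin k × Fin n) ℂ) 0, hδ.le]
      · simp
  obtain ⟨Q, v, hQ, hv, hE⟩ := hB₀ k (k * n) n Y δ hδ hbδ.le hY1 hY2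
  refine ⟨Q, fun i => v i, hQ, ?_⟩
  set E : Matrix (Fin (b * Q) × Fin n) (Fin (b * Q) × Fin n) ℂ :=
    (∑ i, ∑ j, ((v i).conjTranspose * v j) ⊗ₖ ((Y i).conjTranspose * Y j))
      - (1 : Matrix (Fin (b * Q)) (Fin (b * Q)) ℂ) ⊗ₖ (∑ i, (Y i).conjTranspose * Y i) with hEdef
  have hEs : IsSelfAdjoint E := by
    rw [isSelfAdjoint_iff, hEdef, Matrix.star_eq_conjTranspose, Matrix.conjTranspose_sub]
    simp only [Matrix.conjTranspose_sum, Matrix.conjTranspose_kronecker, Matrix.conjTranspose_mul,
      Matrix.conjTranspose_conjTranspose, Matrix.conjTranspose_one]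
    rw [Finset.sum_comm]
  have hψP : ‖ψ (S.conjTranspose * S)‖ ≤ 1 + 2 * ε := by
    rw [hSh, hSS, hP, map_add, map_smul]
    refine (norm_add_le _ _).trans ?_
    have h1 : ‖ψ (φ 1)‖ ≤ 1 + ε := by
      have h2 : ‖(1 : A)‖ ≤ 1 := by
        rcases subsingleton_or_nontrivial A with h | h
        · simp [Subsingleton.elim (1 : A) 0]
        · exact le_of_eq norm_one
      linarith [norm_le_norm_sub_add (ψ (φ 1)) 1]
    rw [norm_smul, Complex.norm_real, Real.norm_of_nonneg hθ.le]
    have h3 : θ * ‖ψ 1‖ ≤ ε := by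
      rw [hθdef, div_mul_eq_mul_div, div_le_iff₀ (by positivity)]
      nlinarith [norm_nonneg (ψ 1)]
    linarith
  set c : Fin k → Fin k → A := fun i j => star (y i) * y j with hcdef
  set C : Fin k → Fin k → Matrix (Fin (b * Q)) (Fin (b * Q)) ℂ :=
    fun i j => (v i).conjTranspose * v j with hCdef
  have hF := norm_map_block_le hψ S E hEs hE hψP
  have hFeq : CStarMatrix.ofMatrix (Matrix.of fun p q => ψ (S.conjTranspose * block E p q * S))
      = (∑ i, ∑ j, tens (C i j) (ψ (φ (c i j)))) - ∑ i, tens 1 (ψ (φ (c i i))) := by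
    ext p q
    have hb : block E p q = (∑ i, ∑ j, C i j p q • (Si * φ (c i j) * Si))
        - ∑ i, (1 : Matrix (Fin (b * Q)) (Fin (b * Q)) ℂ) p q • (Si * φ (c i i) * Si) := by
      ext i' j'
      simp only [block, hEdef, hYY, hcdef, hCdef, Matrix.of_apply, Matrix.sub_apply, Matrix.sum_apply,
        Matrix.kroneckerMap_apply, Matrix.smul_apply, smul_eq_mul, Finset.mul_sum]
    have hSS' : ∀ X : Matrix (Fin n) (Fin n) ℂ, S.conjTranspose * (Si * X * Si) * S = X := fun X => by
      rw [hSh]
      simp only [← Matrix.mul_assoc, hSi1, Matrix.one_mul]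
      rw [Matrix.mul_assoc, hSi2, Matrix.mul_one]
    have hval : ψ (S.conjTranspose * block E p q * S) = (∑ i, ∑ j, C i j p q • ψ (φ (c i j)))
        - ∑ i, (1 : Matrix (Fin (b * Q)) (Fin (b * Q)) ℂ) p q • ψ (φ (c i i)) := by
      simp only [hb, Matrix.mul_sub, Matrix.sub_mul, Matrix.mul_sum, Matrix.sum_mul, Matrix.mul_smul,
        Matrix.smul_mul, hSS', map_sub, map_sum, map_smul]
    simpa [tens, CStarMatrix.sub_apply, cstar_sum_apply] using hval
  have hgram : gram (fun r p => ∑ i, v i r p • y i) - diagConst (b * Q) f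
      = (∑ i, ∑ j, tens (C i j) (c i j)) - ∑ i, tens 1 (c i i) := by
    ext p q
    have hval : (∑ r, star (∑ i, v i r p • y i) * (∑ j, v j r q • y j)) - (if p = q then f else 0)
        = (∑ i, ∑ j, C i j p q • c i j)
          - ∑ i, (1 : Matrix (Fin (b * Q)) (Fin (b * Q)) ℂ) p q • c i i := by
      simp only [hCdef, hcdef, star_sum, star_smul, Finset.sum_mul, Finset.mul_sum, smul_mul_smul_comm,
        Matrix.mul_apply, Matrix.conjTranspose_apply, Finset.sum_smul]
      congr 1
      · rw [Finset.sum_comm]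
        conv_lhs => arg 2; ext i; rw [Finset.sum_comm]
        rw [Finset.sum_comm]
      · rcases eq_or_ne p q with rfl | h <;> simp [*]
    simpa [gram, diagConst, tens, CStarMatrix.sub_apply, cstar_sum_apply] using hval
  have herr : ‖gram (fun r p => ∑ i, v i r p • y i) - diagConst (b * Q) f
      - CStarMatrix.ofMatrix (Matrix.of fun p q => ψ (S.conjTranspose * block E p q * S))‖
      ≤ ((k : ℝ) ^ 2 * B ^ 2 + k) * ε := by
    have ht : ∀ (X : Matrix (Fin (b * Q)) (Fin (b * Q)) ℂ) (u u' : A),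
        tens X u - tens X u' = tens X (u - u') := fun X u u' => by
      ext p q
      simp [tens, smul_sub]
    have h1 : ((∑ i, ∑ j, tens (C i j) (c i j)) - ∑ i, ∑ j, tens (C i j) (ψ (φ (c i j))))
        = ∑ i, ∑ j, tens (C i j) (c i j - ψ (φ (c i j))) := by
      simp only [← Finset.sum_sub_distrib, ht]
    have h2 : ((∑ i, tens (1 : Matrix (Fin (b * Q)) (Fin (b * Q)) ℂ) (c i i))
          - ∑ i, tens 1 (ψ (φ (c i i)))) = ∑ i, tens 1 (c i i - ψ (φ (c i i))) := by
      simp only [← Finset.sum_sub_distrib, ht]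
    rw [hgram, hFeq, sub_sub_sub_comm, h1, h2]
    have hn : ∀ i j, ‖c i j - ψ (φ (c i j))‖ ≤ ε := fun i j => by
      rw [norm_sub_rev]; exact happ2 i j
    have hCn : ∀ i j, ‖C i j‖ ≤ B ^ 2 := fun i j => by
      refine (Matrix.l2_opNorm_mul _ _).trans ?_
      rw [Matrix.l2_opNorm_conjTranspose, sq]
      exact mul_le_mul ((hv i).trans (le_max_left _ _)) ((hv j).trans (le_max_left _ _))
        (norm_nonneg _) (by linarith)
    refine (norm_sub_le _ _).trans ?_
    rw [add_mul]
    refine add_le_add ?_ ?_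
    · refine (norm_sum_le_of_le _ fun i _ => norm_sum_le_of_le _ fun j _ =>
        norm_tens_le _ _ (hCn i j) (hn i j)).trans_eq ?_
      simp [sq]
      ring
    · refine (norm_sum_le_of_le _ fun i _ => norm_tens_le _ _ (le_refl _) (hn i i)).trans ?_
      simp only [Finset.sum_const, Finset.card_univ, Fintype.card_fin, nsmul_eq_mul]
      refine mul_le_mul_of_nonneg_left (mul_le_of_le_one_left hε.le ?_) (Nat.cast_nonneg k)
      rcases subsingleton_or_nontrivial (Matrix (Fin (b * Q)) (Fin (b * Q)) ℂ) with h | h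
      · simp [Subsingleton.elim (1 : Matrix (Fin (b * Q)) (Fin (b * Q)) ℂ) 0]
      · exact le_of_eq norm_one
  refine (norm_le_norm_sub_add _ (CStarMatrix.ofMatrix (Matrix.of fun p q =>
    ψ (S.conjTranspose * block E p q * S)))).trans ((add_le_add herr hF).trans ?_)
  have e1 : 27 / Real.sqrt (L : ℝ) = 27 * σ := by rw [hσdef]; ring
  have e2 : 30 / Real.sqrt (L : ℝ) = 30 * σ := by rw [hσdef]; ring
  rw [e1, e2]
  nlinarith

end Vale.Agent.P095.SC
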