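import Vale.Agent.P095.SC.Pins

/-!
P095, comparison from traces, block K1: domination in all traces gives sums of squares
(Hahn-Banach, then the iteration of the relation `Below`).
-/

namespace Vale.Agent.P095.SC

open Tracial Vale.Agent.P095.SN
open scoped Topology

universe u

variable {A : Type*} [CStarAlgebra A]

/-- Finite families of any index type witness the relation. -/
lemma Below.of_family {a b : A}
    (h : ∀ ε : ℝ, 0 < ε → ∃ (ι : Type) (_ : Fintype ι) (y : ι → A),
      ‖(∑ i, star (y i) * y i) - a‖ ≤ ε ∧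
        IsPos (b + algebraMap ℝ A ε - ∑ i, y i * star (y i))) : Below a b := by
  intro ε hε
  obtain ⟨ι, _, y, h1, h2⟩ := h ε hε
  refine ⟨_, fun i => y ((Fintype.equivFin ι).symm i), ?_, ?_⟩
  · rwa [Equiv.sum_comp (Fintype.equivFin ι).symm (fun i => star (y i) * y i)]
  · rwa [Equiv.sum_comp (Fintype.equivFin ι).symm (fun i => y i * star (y i))]

section Order

variable [PartialOrder A] [StarOrderedRing A]

lemma isPos_iff_nonneg {a : A} : IsPos a ↔ 0 ≤ a := by
  refine ⟨?_, fun h => ⟨CFC.sqrt a, ?_⟩⟩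
  · rintro ⟨z, rfl⟩
    exact star_mul_self_nonneg z
  · rw [(IsSelfAdjoint.of_nonneg (CFC.sqrt_nonneg a)).star_eq, CFC.sqrt_mul_sqrt_self a h]

lemma le_add_of_norm_le {x y : A} (hx : IsSelfAdjoint (x - y)) {e : ℝ} (h : ‖x - y‖ ≤ e) :
    x ≤ y + algebraMap ℝ A e := by
  rw [← sub_le_iff_le_add']
  exact hx.le_algebraMap_norm_self.trans (algebraMap_mono A h)

lemma Below.of_le {a b : A} (ha : 0 ≤ a) (h : a ≤ b) : Below a b := Below.of_family fun ε hε => by
  obtain ⟨z, hz⟩ := isPos_iff_nonneg.2 ha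
  refine ⟨Unit, inferInstance, fun _ => CFC.sqrt a, ?_, ?_⟩
  · simp only [(IsSelfAdjoint.of_nonneg (CFC.sqrt_nonneg a)).star_eq]
    simp [CFC.sqrt_mul_sqrt_self a ha, hε.le]
  · simp only [(IsSelfAdjoint.of_nonneg (CFC.sqrt_nonneg a)).star_eq]
    simp only [Finset.sum_const, Finset.card_univ, Fintype.card_unit, one_smul,
      CFC.sqrt_mul_sqrt_self a ha]
    refine isPos_iff_nonneg.2 (sub_nonneg.2 (h.trans (le_add_of_nonneg_right ?_)))
    simpa using algebraMap_mono A hε.le

lemma Below.swap {ι : Type} [Fintype ι] (y : ι → A) :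
    Below (∑ i, star (y i) * y i) (∑ i, y i * star (y i)) := Below.of_family fun ε hε => by
  refine ⟨ι, inferInstance, y, by simp [hε.le], isPos_iff_nonneg.2 ?_⟩
  rw [add_sub_cancel_left]
  simpa using algebraMap_mono A hε.le

lemma Below.add {a b c d : A} (h : Below a b) (h' : Below c d) : Below (a + c) (b + d) :=
  Below.of_family fun ε hε => by
    obtain ⟨k, y, h1, h2⟩ := h (ε / 2) (by positivity)
    obtain ⟨l, z, h3, h4⟩ := h' (ε / 2) (by positivity)
    refine ⟨Fin k ⊕ Fin l, inferInstance, Sum.elim y z, ?_, ?_⟩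
    · simp only [Fintype.sum_sum_type, Sum.elim_inl, Sum.elim_inr]
      rw [add_sub_add_comm]
      linarith [norm_add_le ((∑ i, star (y i) * y i) - a) ((∑ i, star (z i) * z i) - c)]
    · simp only [Fintype.sum_sum_type, Sum.elim_inl, Sum.elim_inr]
      refine isPos_iff_nonneg.2 ?_
      have := add_nonneg (isPos_iff_nonneg.1 h2) (isPos_iff_nonneg.1 h4)
      refine le_trans this (le_of_eq ?_)
      have e : algebraMap ℝ A ε = algebraMap ℝ A (ε / 2) + algebraMap ℝ A (ε / 2) := by
        rw [← map_add, add_halves]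
      rw [e]
      abel

lemma Below.trans {a b c : A} (hb : 0 ≤ b) (h : Below a b) (h' : Below b c) : Below a c :=
  Below.of_family fun ε hε => by
    classical
    obtain ⟨e, he, hee⟩ : ∃ e : ℝ, 0 < e ∧ 4 * e ≤ ε := ⟨ε / 4, by positivity, by linarith⟩
    obtain ⟨k, y, h1, h2⟩ := h e he
    obtain ⟨l, z, h3, h4⟩ := h' e he
    rw [isPos_iff_nonneg, sub_nonneg] at h2 h4
    obtain ⟨Z, hZ⟩ : ∃ Z : A, Z = (∑ i, star (z i) * z i) + algebraMap ℝ A (3 * e) := ⟨_, rfl⟩
    have hsum0 : 0 ≤ ∑ i, star (z i) * z i := Finset.sum_nonneg fun i _ => star_mul_self_nonneg _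
    have hbz : b ≤ (∑ i, star (z i) * z i) + algebraMap ℝ A e := le_add_of_norm_le
      ((IsSelfAdjoint.of_nonneg hb).sub (IsSelfAdjoint.of_nonneg hsum0))
      (by rw [norm_sub_rev]; exact h3)
    have hyZ : ∑ i, y i * star (y i) ≤ Z := by
      refine h2.trans ?_
      rw [hZ, show 3 * e = e + e + e by ring, map_add, map_add, ← add_assoc, ← add_assoc]
      exact le_trans (add_le_add hbz le_rfl)
        (le_add_of_nonneg_right (by simpa using algebraMap_mono A he.le))
    have hZe : algebraMap ℝ A (3 * e) ≤ Z := by rw [hZ]; exact le_add_of_nonneg_left hsum0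
    have hZs : IsSelfAdjoint Z := .of_nonneg
      (le_trans (by simpa using algebraMap_mono A (by positivity : (0 : ℝ) ≤ 3 * e)) hZe)
    have hspec : ∀ t ∈ spectrum ℝ Z, 0 < t := fun t ht =>
      lt_of_lt_of_le (by positivity) ((algebraMap_le_iff_le_spectrum (ha := hZs)).1 hZe t ht)
    obtain ⟨T, hT⟩ : ∃ T : A, T = cfc (fun t : ℝ => (Real.sqrt t)⁻¹) Z := ⟨_, rfl⟩
    have hTc : ContinuousOn (fun t : ℝ => (Real.sqrt t)⁻¹) (spectrum ℝ Z) :=
      Real.continuous_sqrt.continuousOn.inv₀ fun t ht => (Real.sqrt_pos.2 (hspec t ht)).ne'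
    have hTs : star T = T := by rw [hT]; exact (cfc_predicate (p := IsSelfAdjoint) _ _).star_eq
    have hTZT : T * Z * T = 1 := by
      nth_rewrite 1 [← cfc_id' ℝ Z hZs]
      rw [hT, ← cfc_mul _ _ Z hTc,
        ← cfc_mul (fun x : ℝ => (Real.sqrt x)⁻¹ * x) (fun s : ℝ => (Real.sqrt s)⁻¹) Z
          (hTc.mul continuousOn_id) hTc,
        cfc_congr (g := fun _ => (1:ℝ)) (fun s hs => ?_), cfc_const_one ℝ Z]
      have h5 := Real.mul_self_sqrt (hspec s hs).le
      have h6 := (Real.sqrt_pos.2 (hspec s hs)).ne'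
      field_simp
      linarith
    obtain ⟨w, hw⟩ : ∃ w : Option (Fin l) → A,
        w = fun o => o.elim (algebraMap ℝ A (Real.sqrt (3 * e))) z := ⟨_, rfl⟩
    have hsq : star (algebraMap ℝ A (Real.sqrt (3 * e))) * algebraMap ℝ A (Real.sqrt (3 * e))
        = algebraMap ℝ A (3 * e) := by
      rw [← algebraMap_star_comm, star_trivial, ← map_mul, Real.mul_self_sqrt (by positivity)]
    have hwZ : ∑ o, star (w o) * w o = Z := by
      rw [Fintype.sum_option, hw, hZ]
      simp only [Option.elim, hsq]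
      exact add_comm _ _
    have hww : ∑ o, w o * star (w o) ≤ c + algebraMap ℝ A (4 * e) := by
      rw [Fintype.sum_option, hw]
      simp only [Option.elim]
      rw [← algebraMap_star_comm, star_trivial, ← map_mul, Real.mul_self_sqrt (by positivity),
        show 4 * e = e + 3 * e by ring, map_add, ← add_assoc, add_comm]
      exact add_le_add h4 le_rfl
    refine ⟨Option (Fin l) × Fin k, inferInstance, fun p => w p.1 * T * y p.2, ?_, ?_⟩
    · rw [Fintype.sum_prod_type_right]
      have e1 : ∀ j, ∑ o, star (w o * T * y j) * (w o * T * y j) = star (y j) * y j := fun j => by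
        calc ∑ o, star (w o * T * y j) * (w o * T * y j)
            = star (y j) * (T * (∑ o, star (w o) * w o) * T) * y j := by
              simp only [Finset.mul_sum, Finset.sum_mul, star_mul, hTs, mul_assoc]
          _ = _ := by rw [hwZ, hTZT, mul_one]
      simp only [e1]
      linarith
    · rw [isPos_iff_nonneg, sub_nonneg, Fintype.sum_prod_type]
      have e2 : ∀ o, ∑ j, w o * T * y j * star (w o * T * y j) ≤ w o * star (w o) := fun o => by
        calc ∑ j, w o * T * y j * star (w o * T * y j)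
            = w o * (T * (∑ j, y j * star (y j)) * star T) * star (w o) := by
              simp only [Finset.mul_sum, Finset.sum_mul, star_mul, mul_assoc]
          _ ≤ w o * (T * Z * star T) * star (w o) :=
              star_right_conjugate_le_conjugate (star_right_conjugate_le_conjugate hyZ T) _
          _ = _ := by rw [hTs, hTZT, mul_one]
      exact ((Finset.sum_le_sum fun o _ => e2 o).trans hww).trans
        (add_le_add le_rfl (algebraMap_mono A hee))

lemma Below.smul {a b : A} {r : ℝ} (hr : 0 < r) (h : Below a b) : Below (r • a) (r • b) :=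
  Below.of_family fun ε hε => by
    obtain ⟨k, y, h1, h2⟩ := h (ε / r) (by positivity)
    rw [isPos_iff_nonneg] at h2
    refine ⟨Fin k, inferInstance, fun i => Real.sqrt r • y i, ?_, ?_⟩
    · simp only [star_smul, star_trivial, smul_mul_smul_comm, Real.mul_self_sqrt hr.le]
      rw [← Finset.smul_sum, ← smul_sub, norm_smul, Real.norm_eq_abs, abs_of_pos hr]
      calc r * ‖(∑ i, star (y i) * y i) - a‖ ≤ r * (ε / r) := mul_le_mul_of_nonneg_left h1 hr.le
        _ = ε := by field_simp
    · simp only [star_smul, star_trivial, smul_mul_smul_comm, Real.mul_self_sqrt hr.le]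
      rw [← Finset.smul_sum, isPos_iff_nonneg]
      have := smul_nonneg hr.le h2
      rwa [smul_sub, smul_add, Algebra.algebraMap_eq_smul_one (ε / r), smul_smul,
        mul_div_cancel₀ ε hr.ne', ← Algebra.algebraMap_eq_smul_one] at this

lemma Below.mono_left {a a' b : A} (ha : 0 ≤ a) (h : a ≤ a') (h' : Below a' b) : Below a b :=
  Below.trans (ha.trans h) (Below.of_le ha h) h'

lemma Below.mono_right {a b b' : A} (hb : 0 ≤ b) (h : Below a b) (h' : b ≤ b') : Below a b' :=
  Below.trans hb h (Below.of_le hb h')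

lemma Below.of_margins {a b : A}
    (h : ∀ e : ℝ, 0 < e → Below a (b + algebraMap ℝ A e)) : Below a b := by
  intro ε hε
  obtain ⟨k, y, h1, h2⟩ := h (ε / 2) (by positivity) (ε / 2) (by positivity)
  refine ⟨k, y, by linarith, ?_⟩
  rwa [add_assoc, ← map_add, add_halves] at h2

/-- One inequality up to a swap gives the relation. -/
lemma below_of_le_swap {a b g h : A} (ha : 0 ≤ a) (hb : 0 ≤ b) (hg : 0 ≤ g) (hh : 0 ≤ h)
    (hle : a + g ≤ h + b) (hhg : Below h g) : Below a b := by
  have h1 : Below (a + g) (g + b) :=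
    Below.trans (add_nonneg hh hb) (Below.of_le (add_nonneg ha hg) hle)
      (hhg.add (Below.of_le hb le_rfl))
  have h2 : ∀ n : ℕ, Below (((n : ℝ) + 1) • a + g) (((n : ℝ) + 1) • b + g) := by
    intro n
    induction n with
    | zero => simpa [add_comm g b] using h1
    | succ n ih =>
      have hna : 0 ≤ ((n : ℝ) + 1) • a := smul_nonneg (by positivity) ha
      have e1 : ((((n + 1 : ℕ) : ℝ) + 1)) • a + g = ((n : ℝ) + 1) • a + (a + g) := by
        rw [← add_assoc]; push_cast; rw [add_smul _ (1 : ℝ), one_smul]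
      have e2 : ((((n + 1 : ℕ) : ℝ) + 1)) • b + g = ((n : ℝ) + 1) • b + g + b := by
        push_cast; rw [add_smul _ (1 : ℝ), one_smul]; abel
      rw [e1, e2]
      refine Below.trans (add_nonneg hna (add_nonneg hg hb))
        ((Below.of_le hna le_rfl).add h1) ?_
      rw [← add_assoc]
      exact ih.add (Below.of_le hb le_rfl)
  refine Below.of_margins fun e he => ?_
  obtain ⟨n, hn⟩ := exists_nat_gt (‖g‖ / e)
  have hn0 : (0 : ℝ) < (n : ℝ) + 1 := by positivity
  have h3 := (Below.mono_left (smul_nonneg hn0.le ha) (le_add_of_nonneg_right hg) (h2 n)).smul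
    (inv_pos.2 hn0)
  rw [smul_add, smul_smul, smul_smul, inv_mul_cancel₀ hn0.ne', one_smul, one_smul] at h3
  refine Below.mono_right (add_nonneg hb (smul_nonneg (inv_nonneg.2 hn0.le) hg)) h3
    (add_le_add le_rfl ?_)
  refine ((smul_le_smul_of_nonneg_left (IsSelfAdjoint.of_nonneg hg).le_algebraMap_norm_self
    (inv_nonneg.2 hn0.le))).trans ?_
  rw [Algebra.smul_def, ← map_mul]
  refine algebraMap_mono A ?_
  rw [inv_mul_le_iff₀ hn0]
  rw [div_lt_iff₀ he] at hn
  linarith [mul_comm (n : ℝ) e]

/-- Domination in all traces gives domination up to commutators and any margin. -/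
lemma exists_swap {a b : A} (ha : 0 ≤ a) (hb : 0 ≤ b)
    (hτ : ∀ τ, IsTraceOn (⊤ : StarSubalgebra ℂ A) τ → (τ a).re ≤ (τ b).re) {e : ℝ} (he : 0 < e) :
    ∃ (k : ℕ) (y : Fin k → A),
      a + ∑ i, y i * star (y i) ≤ (∑ i, star (y i) * y i) + (b + algebraMap ℝ A e) := by
  classical
  let M : Set A := {x | ∃ (k : ℕ) (y : Fin k → A),
    x ≤ (∑ i, star (y i) * y i) - ∑ i, y i * star (y i)}
  have hsmul : ∀ r : ℝ, 0 ≤ r → ∀ x ∈ M, r • x ∈ M := by
    rintro r hr x ⟨k, y, h⟩
    refine ⟨k, fun i => Real.sqrt r • y i, ?_⟩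
    simp only [star_smul, star_trivial, smul_mul_smul_comm, Real.mul_self_sqrt hr,
      ← Finset.smul_sum, ← smul_sub]
    exact smul_le_smul_of_nonneg_left h hr
  have hadd : ∀ x ∈ M, ∀ x' ∈ M, x + x' ∈ M := by
    rintro x ⟨k, y, h⟩ x' ⟨l, z, h'⟩
    refine ⟨k + l, Fin.append y z, ?_⟩
    simp only [Fin.sum_univ_add, Fin.append_left, Fin.append_right]
    exact (add_le_add h h').trans (le_of_eq (by abel))
  have hneg : ∀ p : A, 0 ≤ p → -p ∈ M := fun p hp => ⟨0, Fin.elim0, by simpa using hp⟩
  have hcomm : ∀ y : A, star y * y - y * star y ∈ M := fun y => ⟨1, fun _ => y, by simp⟩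
  have hconv : Convex ℝ M := fun x hx x' hx' r s hr hs _ =>
    hadd _ (hsmul r hr x hx) _ (hsmul s hs x' hx')
  by_cases hmem : a - b ∈ closure M
  · obtain ⟨x, ⟨k, y, hx⟩, hxd⟩ := Metric.mem_closure_iff.1 hmem e he
    refine ⟨k, y, ?_⟩
    rw [dist_eq_norm] at hxd
    have hxs : IsSelfAdjoint x := by
      have h1 : IsSelfAdjoint ((∑ i, star (y i) * y i) - ∑ i, y i * star (y i)) :=
        (IsSelfAdjoint.of_nonneg (Finset.sum_nonneg fun i _ => star_mul_self_nonneg _)).sub
          (IsSelfAdjoint.of_nonneg (Finset.sum_nonneg fun i _ => mul_star_self_nonneg _))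
      have h2 := h1.sub (IsSelfAdjoint.of_nonneg (sub_nonneg.2 hx))
      rwa [sub_sub_cancel] at h2
    have h1 := (le_add_of_norm_le (((IsSelfAdjoint.of_nonneg ha).sub
      (IsSelfAdjoint.of_nonneg hb)).sub hxs) hxd.le).trans (add_le_add hx le_rfl)
    rw [← sub_nonneg] at h1 ⊢
    exact h1.trans (le_of_eq (by abel))
  -- otherwise a separating functional is a trace
  exfalso
  obtain ⟨f, u, hfu, huf⟩ := geometric_hahn_banach_closed_point hconv.closure isClosed_closure hmem
  have hu : 0 < u := by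
    have := hfu 0 (subset_closure ⟨0, Fin.elim0, by simp⟩)
    simpa using this
  have hM : ∀ x ∈ M, f x ≤ 0 := by
    intro x hx
    by_contra hlt
    rw [not_le] at hlt
    have h1 := hfu _ (subset_closure (hsmul (u / f x) (by positivity) x hx))
    rw [map_smul, smul_eq_mul, div_mul_cancel₀ _ hlt.ne'] at h1
    exact lt_irrefl _ h1
  have hpos : ∀ p : A, 0 ≤ p → 0 ≤ f p := fun p hp => by
    have := hM _ (hneg p hp)
    rwa [map_neg, neg_nonpos] at this
  have htr : ∀ y : A, f (star y * y) = f (y * star y) := fun y => by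
    have h1 := hM _ (hcomm y)
    have h2 := hM _ (hcomm (star y))
    rw [star_star] at h2
    rw [map_sub] at h1 h2
    linarith
  have hsa : ∀ x : A, IsSelfAdjoint x → |f x| ≤ ‖x‖ * f 1 := fun x hx => by
    have h1 := hpos _ (sub_nonneg.2 hx.le_algebraMap_norm_self)
    have h2 := hpos _ (sub_nonneg.2 hx.neg_algebraMap_norm_le_self)
    rw [Algebra.algebraMap_eq_smul_one, map_sub, map_smul, smul_eq_mul] at h1
    rw [Algebra.algebraMap_eq_smul_one, map_sub, map_neg, map_smul, smul_eq_mul] at h2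
    exact abs_le.2 ⟨by linarith, by linarith⟩
  have habs := hsa (a - b) ((IsSelfAdjoint.of_nonneg ha).sub (IsSelfAdjoint.of_nonneg hb))
  have hf1 : 0 < f 1 := by
    refine lt_of_le_of_ne (hpos 1 zero_le_one) fun h0 => ?_
    rw [← h0, mul_zero] at habs
    linarith [le_abs_self (f (a - b))]
  obtain ⟨φ, hφ⟩ : ∃ φ : A → ℂ, φ = fun x => ((f (realPart x : A) / f 1 : ℝ) : ℂ)
      + Complex.I * ((f (imaginaryPart x : A) / f 1 : ℝ) : ℂ) := ⟨_, rfl⟩
  have hadd' : ∀ x y, φ (x + y) = φ x + φ y := fun x y => by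
    simp only [hφ, map_add, AddSubgroup.coe_add, add_div, Complex.ofReal_add]
    ring
  have hsmul' : ∀ (c : ℂ) x, φ (c • x) = c * φ x := fun c x => by
    simp only [hφ, realPart_smul, imaginaryPart_smul, AddSubgroup.coe_sub, AddSubgroup.coe_add,
      selfAdjoint.val_smul, map_add, map_sub, map_smul, smul_eq_mul]
    apply Complex.ext <;> simp <;> ring
  have hself : ∀ x : A, IsSelfAdjoint x → φ x = ((f x / f 1 : ℝ) : ℂ) := fun x hx => by
    simp [hφ, hx.coe_realPart, hx.imaginaryPart]
  have hsq : ∀ z : A, φ (star z * z) = φ (z * star z) := fun z => by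
    rw [hself _ (IsSelfAdjoint.star_mul_self z), hself _ (IsSelfAdjoint.mul_star_self z), htr]
  have htrace : IsTraceOn (⊤ : StarSubalgebra ℂ A) φ := by
    refine ⟨?_, fun x _ y _ => hadd' x y, fun c x _ => hsmul' c x, fun x _ => ?_,
      fun x _ y _ => ?_⟩
    · rw [hself 1 (IsSelfAdjoint.one A), div_self hf1.ne', Complex.ofReal_one]
    · rw [hself _ (IsSelfAdjoint.star_mul_self x)]
      exact ⟨by simpa using div_nonneg (hpos _ (star_mul_self_nonneg x)) hf1.le,
        Complex.ofReal_im _⟩
    · have hone : ∀ c : ℂ, φ ((x + starRingEnd ℂ c • star y) * (star x + c • y))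
          = φ ((star x + c • y) * (x + starRingEnd ℂ c • star y)) := fun c => by
        have := hsq (star x + c • y)
        rwa [star_add, star_star, star_smul] at this
      have h0 := hsq (star x)
      have h0' := hsq y
      rw [star_star] at h0
      have h1 := hone 1
      have h2 := hone Complex.I
      simp only [map_one, one_smul, Complex.conj_I, add_mul, mul_add, smul_mul_assoc,
        mul_smul_comm, hadd', hsmul'] at h1 h2
      linear_combination (1 / 2 : ℂ) * h1 - (Complex.I / 2) * h2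
        - (1 / 2 : ℂ) * (1 - Complex.I) * h0 - (1 / 2 : ℂ) * (1 - Complex.I) * h0'
        + ((φ (x * y) - φ (y * x)) - (φ (star y * star x) - φ (star x * star y))
          - Complex.I * (φ (star y * y) - φ (y * star y))) / 2 * Complex.I_mul_I
  have h1 := hτ φ htrace
  rw [hself a (IsSelfAdjoint.of_nonneg ha), hself b (IsSelfAdjoint.of_nonneg hb),
    Complex.ofReal_re, Complex.ofReal_re, div_le_div_iff_of_pos_right hf1] at h1
  rw [map_sub] at huf
  linarith

end Order

theorem certPin : CertPin.{u} := by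
  intro A _ a b ha hb hτ
  let := CStarAlgebra.spectralOrder A
  have := CStarAlgebra.spectralOrderedRing A
  rw [isPos_iff_nonneg] at ha hb
  refine Below.of_margins fun e he => ?_
  obtain ⟨k, y, hle⟩ := exists_swap ha hb hτ he
  exact below_of_le_swap ha (add_nonneg hb (by simpa using algebraMap_mono A he.le))
    (Finset.sum_nonneg fun i _ => mul_star_self_nonneg _)
    (Finset.sum_nonneg fun i _ => star_mul_self_nonneg _) hle (Below.swap y)

end Vale.Agent.P095.SC
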