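import Vale.Agent.P095.SC.Expect

/-!
P095, comparison K2b: a sample of the random coefficient arrays (note C2 (7)).
-/

namespace Vale.Agent.P095.SC

open Matrix MeasureTheory Filter
open scoped Matrix.Norms.L2Operator Kronecker ComplexConjugate Topology

lemma re_trace_conj_self {ι : Type*} [Fintype ι] (X : Matrix ι ι ℂ) :
    (Xᴴ * X).trace.re = ∑ i, ∑ r, ‖X r i‖ ^ 2 := by
  simp only [Matrix.trace, Matrix.diag, Matrix.mul_apply, conjTranspose_apply, Complex.re_sum,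
    Complex.star_def, Complex.conj_mul', ← Complex.ofReal_pow, Complex.ofReal_re]

lemma sq_norm_le_trace {ι : Type*} [Fintype ι] [DecidableEq ι] (X : Matrix ι ι ℂ) :
    ‖X‖ ^ 2 ≤ (Xᴴ * X).trace.re := by
  rw [re_trace_conj_self, Finset.sum_comm]
  set S := ∑ r, ∑ i, ‖X r i‖ ^ 2 with hS
  have hS0 : 0 ≤ S := by positivity
  have h : ‖X‖ ≤ Real.sqrt S := by
    rw [l2_opNorm_def]
    refine ContinuousLinearMap.opNorm_le_bound _ (Real.sqrt_nonneg _) fun x => ?_
    show ‖(WithLp.toLp 2 (X *ᵥ x.ofLp) : EuclideanSpace ℂ ι)‖ ≤ _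
    refine abs_le_of_sq_le_sq' ?_ (by positivity) |>.2
    rw [mul_pow, Real.sq_sqrt hS0, EuclideanSpace.norm_sq_eq, EuclideanSpace.norm_sq_eq, hS,
      Finset.sum_mul]
    refine Finset.sum_le_sum fun r _ => ?_
    refine le_trans ?_ (Finset.sum_mul_sq_le_sq_mul_sq Finset.univ (fun i => ‖X r i‖)
      fun i => ‖x.ofLp i‖)
    refine pow_le_pow_left₀ (norm_nonneg _) ?_ 2
    exact norm_sum_le_of_le _ fun i _ => (norm_mul _ _).le
  calc ‖X‖ ^ 2 ≤ Real.sqrt S ^ 2 := pow_le_pow_left₀ (norm_nonneg _) h 2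
    _ = S := Real.sq_sqrt hS0

lemma norm_pow_le_trace {ι : Type*} [Fintype ι] [DecidableEq ι] {O : Matrix ι ι ℂ}
    (hO : IsSelfAdjoint O) (s : ℕ) :
    ‖O‖ ^ (2 ^ (s + 1)) ≤ (O ^ (2 ^ (s + 1))).trace.re := by
  rw [pow_succ 2 s, pow_mul, pow_mul, ← hO.norm_pow_two_pow, sq (O ^ 2 ^ s)]
  have h : (O ^ 2 ^ s)ᴴ = O ^ 2 ^ s := (hO.pow _).star_eq
  nth_rw 2 [← h]
  exact sq_norm_le_trace _

variable {k M m n₁ n₂ : ℕ}

lemma defect_selfAdjoint (Y : Fin k → Matrix (Fin M) (Fin m) ℂ)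
    (g : Fin k × Fin n₁ × Fin n₂ → ℂ) : IsSelfAdjoint (defect Y g) := by
  show (defect Y g)ᴴ = defect Y g
  simp only [defect, conjTranspose_sub, conjTranspose_sum, conjTranspose_kronecker,
    conjTranspose_mul, conjTranspose_conjTranspose, conjTranspose_one]
  rw [Finset.sum_comm]

/-- The test tuple isolating one label. -/
def unitTuple (i : Fin k) : Fin k → Matrix (Fin 1) (Fin 1) ℂ := fun j => if j = i then 1 else 0

lemma kron_one_pow {ι : Type*} [Fintype ι] [DecidableEq ι] (X : Matrix ι ι ℂ) (n : ℕ) :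
    (X ⊗ₖ (1 : Matrix (Fin 1) (Fin 1) ℂ)) ^ n = (X ^ n) ⊗ₖ (1 : Matrix (Fin 1) (Fin 1) ℂ) := by
  induction n with
  | zero => simp
  | succ n ih => rw [pow_succ, pow_succ, ih, ← mul_kronecker_mul, mul_one]

lemma defect_unit (g : Fin k × Fin n₁ × Fin n₂ → ℂ) (i : Fin k) :
    defect (unitTuple i) g = ((randArr g i)ᴴ * randArr g i - 1) ⊗ₖ (1 : Matrix (Fin 1) (Fin 1) ℂ) := by
  have h1 : ∑ j, (unitTuple i j)ᴴ * unitTuple i j = 1 := by
    rw [Finset.sum_eq_single i (fun j _ hj => by simp [unitTuple, hj]) (by simp)]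
    simp [unitTuple]
  rw [defect, h1, Finset.sum_eq_single i (fun j _ hj => by simp [unitTuple, hj]) (by simp),
    Finset.sum_eq_single i (fun j _ hj => by simp [unitTuple, hj]) (by simp)]
  simp only [unitTuple, if_true, conjTranspose_one, one_mul]
  ext ⟨a, x⟩ ⟨b, y⟩
  obtain rfl : x = y := Subsingleton.elim _ _
  simp [kroneckerMap_apply, Matrix.one_apply]

lemma budget {b q m d n Q : ℕ} {β : ℝ} (hq : (1 : ℝ) ≤ q) (hb : (1 : ℝ) ≤ b) (hβ : 0 < β)
    (hn : n = b * Q) (hQ : Q = (3 * q) ^ 3) (hd : d ≤ m + 1) :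
    (d : ℝ) * n * β ^ q * ((q + 1) * 9 ^ q) / (27 * β) ^ q
      ≤ (m + 1) * (54 * b) * q ^ 4 * (1 / 3 : ℝ) ^ q := by
  subst hn hQ
  have e : (27 * β) ^ q = β ^ q * 9 ^ q * 3 ^ q := by rw [← mul_pow, ← mul_pow]; ring
  have hd' : (d : ℝ) ≤ m + 1 := by exact_mod_cast hd
  have h1 : (d : ℝ) * ((q : ℝ) + 1) ≤ (m + 1) * (2 * q) :=
    mul_le_mul hd' (by linarith) (by positivity) (by positivity)
  rw [e, div_le_iff₀ (by positivity), one_div, inv_pow]
  push_cast
  field_simp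
  nlinarith [mul_le_mul_of_nonneg_left h1 (show (0 : ℝ) ≤ b * q ^ 3 by positivity)]

lemma randArr_sq_le (g : Fin k × Fin n₁ × Fin n₂ → ℂ) (i : Fin k) (s : ℕ) {b : ℝ} (hb : 0 ≤ b)
    (hg : ((defect (unitTuple i) g) ^ (2 ^ (s + 1))).trace.re ≤ (27 * b) ^ (2 ^ (s + 1))) :
    ‖randArr g i‖ ^ 2 ≤ 1 + 27 * b := by
  set X := (randArr g i)ᴴ * randArr g i - 1 with hX
  have hsa : IsSelfAdjoint X := by
    show Xᴴ = X
    rw [hX, conjTranspose_sub, conjTranspose_mul, conjTranspose_conjTranspose, conjTranspose_one]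
  have h : ‖X‖ ≤ 27 * b := by
    refine le_of_pow_le_pow_left₀ (pow_ne_zero (s + 1) two_ne_zero) (by positivity)
      (le_trans (norm_pow_le_trace hsa s) (le_trans (le_of_eq ?_) hg))
    rw [defect_unit, kron_one_pow, trace_kronecker, trace_one]
    simp [hX]
  rw [sq, ← l2_opNorm_conjTranspose_mul_self]
  refine le_trans (norm_le_norm_add_norm_sub' _ (1 : Matrix (Fin n₂) (Fin n₂) ℂ)) (add_le_add ?_ h)
  rw [← diagonal_one, l2_opNorm_diagonal]
  exact (pi_norm_le_iff_of_nonneg zero_le_one).2 fun i => by simp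

/-- A sample below the expectation. -/
lemma exists_sample {Ω : Type*} [MeasurableSpace Ω] (μ : Measure Ω) [IsProbabilityMeasure μ]
    {ι : Type*} [Fintype ι] (G : ι → Ω → ℂ) (c : ι → ℝ) (hc : ∀ a, 0 < c a)
    (hG : ∀ a, Integrable (G a) μ) (h0 : ∀ a x, 0 ≤ (G a x).re)
    (h : ∑ a, (∫ x, G a x ∂μ).re / c a ≤ 1) :
    ∃ x, ∀ a, (G a x).re ≤ c a := by
  have hint : ∀ a, Integrable (fun x => (G a x).re / c a) μ := fun a => (hG a).re.div_const _
  obtain ⟨x, hx⟩ := exists_le_integral (integrable_finsetSum Finset.univ fun a _ => hint a)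
  rw [integral_finsetSum _ fun a _ => hint a] at hx
  refine ⟨x, fun a => ?_⟩
  have h1 : ∑ b, ∫ y, (G b y).re / c b ∂μ ≤ 1 := by
    refine le_trans (le_of_eq (Finset.sum_congr rfl fun b _ => ?_)) h
    rw [integral_div]
    congr 1
    exact integral_re (hG b)
  have h2 : (G a x).re / c a ≤ ∑ b, (G b x).re / c b :=
    Finset.single_le_sum (f := fun b => (G b x).re / c b)
      (fun b _ => div_nonneg (h0 b x) (hc b).le) (Finset.mem_univ a)
  exact (div_le_one (hc a)).1 (h2.trans (hx.trans h1))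

lemma exists_exponent (c : ℝ) :
    ∃ s : ℕ, c * (2 ^ (s + 1) : ℕ) ^ 4 * (1 / 3 : ℝ) ^ (2 ^ (s + 1) : ℕ) ≤ 1 := by
  have h1 : Tendsto (fun n : ℕ => (n : ℝ) ^ 4 * (1 / 3 : ℝ) ^ n) atTop (𝓝 0) :=
    tendsto_pow_const_mul_const_pow_of_abs_lt_one 4 (by norm_num)
  have h2 : Tendsto (fun s : ℕ => 2 ^ (s + 1)) atTop atTop :=
    (tendsto_pow_atTop_atTop_of_one_lt one_lt_two).comp (tendsto_add_atTop_nat 1)
  have h3 := (h1.comp h2).const_mul c
  rw [mul_zero] at h3
  obtain ⟨s, hs⟩ := (h3.eventually_lt_const one_pos).exists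
  exact ⟨s, by simpa [Function.comp_def, mul_assoc] using hs.le⟩

/-- K2b from K2a. -/
theorem matrixPin (hC : CountPin) : MatrixPin := by
  intro a b L ha hb hL
  refine ⟨Real.sqrt (1 + 27 * b), fun k M m Y δ hδ hbd h1 h2 => ?_⟩
  obtain ⟨s, hs⟩ := exists_exponent ((k + 1) * (m + 1) * (54 * b))
  set q := 2 ^ (s + 1) with hq
  have hq0 : 0 < q := by positivity
  have hq1 : (1 : ℝ) ≤ q := by exact_mod_cast hq0
  set Q := (3 * q) ^ 3 with hQ
  have hQ0 : 0 < Q := by positivity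
  set n₁ := L * a * Q with hn₁
  set n₂ := b * Q with hn₂
  have hn1 : 0 < n₁ := by positivity
  have hcount : ∀ r, 0 < r → q * (2 * q + 1) ^ 2 ≤ r * Q := fun r hr => by
    refine le_trans ?_ (Nat.le_mul_of_pos_left Q hr)
    rw [hQ, show (3 * q) ^ 3 = (3 * q) * (3 * q) ^ 2 by ring]
    exact Nat.mul_le_mul (by omega) (Nat.pow_le_pow_left (by omega) 2)
  set μ := Measure.pi fun _ : Fin k × Fin n₁ × Fin n₂ => gauss (q + 1)
  set β : ℝ := 1 / Real.sqrt L with hβ
  have hLr : (0 : ℝ) < L := by exact_mod_cast hL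
  have hbr : (1 : ℝ) ≤ b := by exact_mod_cast hb
  have hβ0 : 0 < β := by positivity
  have hβq : ∀ c : ℕ, 2 * c ≤ q → ((L : ℝ)⁻¹) ^ (q - c) ≤ β ^ q := fun c hc => by
    have he : β ^ q = ((L : ℝ)⁻¹) ^ (2 ^ s) := by
      rw [hq, pow_succ 2 s, mul_comm, pow_mul, hβ, div_pow, one_pow, Real.sq_sqrt hLr.le, one_div]
    rw [he]
    refine pow_le_pow_of_le_one (by positivity) (inv_le_one_of_one_le₀ (by exact_mod_cast hL)) ?_
    have : q = 2 * 2 ^ s := by rw [hq, pow_succ, mul_comm]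
    omega
  -- the defect
  have hmain : Integrable (fun g => (defect Y g ^ q).trace) μ ∧
      (∫ g, (defect Y g ^ q).trace ∂μ).re ≤ m * n₂ * β ^ q * ((q + 1) * 9 ^ q) := by
    rcases le_total δ 1 with hd | hd
    · refine expect_le hC (L := q + 1) (Nat.lt_succ_self q) hq0 hn1 Y (Λ := L) (N := a * Q)
        (hcount a ha) hδ.le hLr h1 h2 (Or.inl ⟨hd, ?_, le_of_eq ?_⟩) hβq
      · calc (n₂ : ℝ) * δ = (b * δ) * Q := by rw [hn₂]; push_cast; ring
          _ ≤ a * Q := by gcongr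
          _ = _ := by push_cast; ring
      · rw [hn₁]; push_cast; ring
    · refine expect_le hC (L := q + 1) (Nat.lt_succ_self q) hq0 hn1 Y (Λ := L) (N := b * Q)
        (hcount b hb) hδ.le hLr h1 h2 (Or.inr ⟨hd, rfl, ?_⟩) hβq
      calc (L : ℝ) * δ * (b * Q : ℕ) = L * (b * δ) * Q := by push_cast; ring
        _ ≤ L * a * Q := by gcongr
        _ = _ := by rw [hn₁]; push_cast; ring
  -- one label
  have hone : ∀ i, Integrable (fun g => (defect (unitTuple i) g ^ q).trace) μ ∧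
      (∫ g, (defect (unitTuple i) g ^ q).trace ∂μ).re
        ≤ (1 : ℕ) * n₂ * (b : ℝ) ^ q * ((q + 1) * 9 ^ q) := by
    intro i
    have e : ∑ j, (unitTuple i j)ᴴ * unitTuple i j = 1 := by
      rw [Finset.sum_eq_single i (fun j _ hj => by simp [unitTuple, hj]) (by simp)]
      simp [unitTuple]
    have e' : ∑ j, unitTuple i j * (unitTuple i j)ᴴ = 1 := by
      rw [Finset.sum_eq_single i (fun j _ hj => by simp [unitTuple, hj]) (by simp)]
      simp [unitTuple]
    refine expect_le hC (L := q + 1) (Nat.lt_succ_self q) hq0 hn1 (unitTuple i) (δ := 1)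
      (Λ := (1 : ℝ) / b) (N := b * Q) (hcount b hb) zero_le_one (by positivity)
      (by rw [e, ← diagonal_one, l2_opNorm_diagonal]; simp)
      (by rw [e', ← diagonal_one, l2_opNorm_diagonal]; simp) (Or.inr ⟨le_rfl, rfl, ?_⟩) fun c _ => ?_
    · have : (1 : ℝ) ≤ L * a := by exact_mod_cast Nat.mul_pos hL ha
      calc (1 : ℝ) / b * 1 * (b * Q : ℕ) = 1 * Q := by push_cast; field_simp
        _ ≤ (L * a) * Q := by gcongr
        _ = _ := by rw [hn₁]; push_cast; ring
    · rw [one_div, inv_inv]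
      exact pow_le_pow_right₀ hbr (Nat.sub_le _ _)
  -- a sample
  let G : Option (Fin k) → (Fin k × Fin n₁ × Fin n₂ → ℂ) → ℂ := fun o g =>
    o.elim (defect Y g ^ q).trace fun i => (defect (unitTuple i) g ^ q).trace
  let c : Option (Fin k) → ℝ := fun o => o.elim ((27 * β) ^ q) fun _ => (27 * (b : ℝ)) ^ q
  have hpos : ∀ (o : Option (Fin k)) g, 0 ≤ (G o g).re := fun o g => by
    rcases o with _ | i
    · exact le_trans (pow_nonneg (norm_nonneg _) _) (norm_pow_le_trace (defect_selfAdjoint Y g) s)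
    · exact le_trans (pow_nonneg (norm_nonneg _) _)
        (norm_pow_le_trace (defect_selfAdjoint (unitTuple i) g) s)
  have hcpos : ∀ o, 0 < c o := fun o => by
    rcases o with _ | i <;> simp only [c, Option.elim] <;> positivity
  obtain ⟨g, hg⟩ := exists_sample μ G c hcpos
    (fun o => by rcases o with _ | i; exacts [hmain.1, (hone i).1]) hpos (by
      refine le_trans (Finset.sum_le_sum (g := fun _ => (m + 1) * (54 * (b : ℝ)) * q ^ 4
        * (1 / 3 : ℝ) ^ q) fun o _ => ?_) ?_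
      · rcases o with _ | i
        · exact (div_le_div_of_nonneg_right hmain.2 (hcpos none).le).trans
            (budget hq1 hbr hβ0 hn₂ hQ (Nat.le_succ m))
        · exact (div_le_div_of_nonneg_right (hone i).2 (hcpos (some i)).le).trans
            (budget hq1 hbr (show (0 : ℝ) < b by positivity) hn₂ hQ (by omega))
      · rw [Finset.sum_const, Finset.card_univ, Fintype.card_option, Fintype.card_fin, nsmul_eq_mul]
        push_cast
        refine le_trans (le_of_eq ?_) hs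
        rw [hq]; push_cast; ring)
  refine ⟨Q, fun i => randArr g i, hQ0, fun i => ?_, ?_⟩
  · exact Real.le_sqrt_of_sq_le (randArr_sq_le g i s (by positivity) (hg (some i)))
  · have h : ‖defect Y g‖ ≤ 27 * β :=
      le_of_pow_le_pow_left₀ hq0.ne' (by positivity)
        (le_trans (norm_pow_le_trace (defect_selfAdjoint Y g) s) (hg none))
    rw [hβ, mul_one_div] at h
    exact h

end Vale.Agent.P095.SC
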