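import Vale.Agent.P095.SC.Defs
import Vale.Agent.P101.Defs

/-!
P095, comparison from traces (notes/P095/helper9_comparison.md): statements of the blocks.
K1 `CertPin`; K2a `CountPin`, K2b `MatrixPin`; K3 `AmplifyPin`; K4 `PiecesPin`; K5 `FinishPin`.
-/

namespace Vale.Agent.P095.SC

open Filter Tracial Vale.Agent.P101 Vale.Agent.P095.SN
open scoped BoundedContinuousFunction Matrix.Norms.L2Operator Kronecker

universe u

attribute [local instance] CStarAlgebra.spectralOrder CStarAlgebra.spectralOrderedRing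

/-- K1: domination in all traces gives sums of squares. -/
def CertPin : Prop :=
  ∀ (A : Type u) [CStarAlgebra A] (a b : A), IsPos a → IsPos b →
    (∀ τ, IsTraceOn (⊤ : StarSubalgebra ℂ A) τ → (τ a).re ≤ (τ b).re) → Below a b

/-- K2a: the colourings fixed by a permutation and by its shift. -/
def CountPin : Prop :=
  ∀ q N : ℕ, 0 < q → q * (2 * q + 1) ^ 2 ≤ N →
    Nat.card {t : Equiv.Perm (Fin q) × (Fin q → Fin N) × (Fin q → Fin N) //
      (∀ s, t.2.1 (t.1 s) = t.2.1 s) ∧ ∀ s, t.2.2 (finRotate q s) = t.2.2 (t.1 s)}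
      ≤ (q + 1) * 9 ^ q * N ^ (q + 1)

/-- K2b: random coefficient arrays almost orthogonalise a tuple of matrices. -/
def MatrixPin : Prop :=
  ∀ a b L : ℕ, 0 < a → 0 < b → 0 < L → ∃ B : ℝ,
    ∀ (k M m : ℕ) (Y : Fin k → Matrix (Fin M) (Fin m) ℂ) (δ : ℝ), 0 < δ → b * δ ≤ a →
      ‖∑ i, (Y i).conjTranspose * Y i‖ ≤ 1 → ‖∑ i, Y i * (Y i).conjTranspose‖ ≤ δ →
      ∃ (Q : ℕ) (v : Fin k → Matrix (Fin (L * a * Q)) (Fin (b * Q)) ℂ), 0 < Q ∧
        (∀ i, ‖v i‖ ≤ B) ∧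
        ‖(∑ i, ∑ j, ((v i).conjTranspose * v j) ⊗ₖ ((Y i).conjTranspose * Y j))
            - (1 : Matrix (Fin (b * Q)) (Fin (b * Q)) ℂ) ⊗ₖ (∑ i, (Y i).conjTranspose * Y i)‖
          ≤ 27 / Real.sqrt L

/-- K3: the same over a nuclear algebra, keeping the coefficients. -/
def AmplifyPin : Prop :=
  MatrixPin → ∀ (A : Type u) [CStarAlgebra A], IsNuclear A →
    ∀ (a b L : ℕ), 0 < a → 0 < b → 0 < L →
      ∀ (k : ℕ) (y : Fin k → A) (δ : ℝ), 0 < δ → b * δ < a →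
        ‖∑ i, star (y i) * y i‖ ≤ 1 → ‖∑ i, y i * star (y i)‖ ≤ δ →
        ∃ (Q : ℕ) (v : Fin k → Fin (L * a * Q) → Fin (b * Q) → ℂ), 0 < Q ∧
          ‖gram (fun r p => ∑ i, v i r p • y i)
              - diagConst (b * Q) (∑ i, star (y i) * y i)‖ ≤ 30 / Real.sqrt L

/-- K4: central pieces from the absence of characters. -/
def PiecesPin : Prop :=
  ∀ (A : Type u) [CStarAlgebra A] [TopologicalSpace.SeparableSpace A] (w : Ultrafilter ℕ),
    (w : Filter ℕ) ≤ cofinite →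
    (¬ ∃ χ : centralSeq (w : Filter ℕ) A →⋆ₐ[ℂ] ℂ,
        ∀ f : centralSeq (w : Filter ℕ) A, IsNull (w : Filter ℕ) (f : ℕ →ᵇ A) → χ f = 0) →
    HasPieces A

/-- K5: comparison by traces. -/
def FinishPin : Prop :=
  CertPin.{u} → AmplifyPin.{u} → MatrixPin → ∀ (A : Type u) [CStarAlgebra A] [IsSimpleRing A],
    (∃ τ, IsTraceOn (⊤ : StarSubalgebra ℂ A) τ) → IsNuclear A → HasPieces A → TraceComparison A

end Vale.Agent.P095.SC
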