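import Vale.Agent.P101.Tree
import Vale.Agent.P101.Prod

/-!
P095, comparison from traces, block K4: one coordinate. Commuting dimension drop pairs give a
square-zero element together with orthogonal top pieces, which cover the unit.
-/

namespace Vale.Agent.P095.SC

open Vale.Agent.P101

variable {F : Type*} [CStarAlgebra F]

/-- A square-zero element with orthogonal pieces at its top, all above one gate. -/
structure Coord (l : ℕ) (X : F) (V : Fin l → F) : Prop where
  sq : X * X = 0
  top : ∀ i, star X * X * V i = V i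
  orth : ∀ i i', i ≠ i' → star (V i) * V i' = 0

/-- A product with one nontrivial factor. -/
lemma prodF_single {R : Type*} [Monoid R] {l : ℕ} (k : Fin l) (q : Fin l → R) :
    prodF (fun j => if j = k then q j else 1) = q k := by
  induction l with
  | zero => exact k.elim0
  | succ l ih =>
    rw [prodF_succ]
    cases k using Fin.cases with
    | zero =>
      have h : (fun i : Fin l => if i.succ = (0 : Fin (l + 1)) then q i.succ else 1) = fun _ => 1 :=
        funext fun i => if_neg (Fin.succ_ne_zero i)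
      rw [if_pos rfl, h, show prodF (fun _ : Fin l => (1 : R)) = 1 by simp [prodF], mul_one]
    | succ k =>
      rw [if_neg (Fin.succ_ne_zero k).symm, one_mul,
        show (fun i : Fin l => if i.succ = k.succ then q i.succ else 1)
          = fun i => if i = k then q i.succ else 1 from funext fun i => by
            simp only [Fin.succ_inj]]
      exact ih k fun i => q i.succ

section Order

variable [PartialOrder F] [StarOrderedRing F]

omit [PartialOrder F] [StarOrderedRing F] in
lemma cfc_mul_drop_top {Y s : F} (h : DropRelations Y s) {f : ℝ → ℝ} (hf : Continuous f) :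
    cfc f (sumSq Y) * s = f 1 • s := by
  refine cfc_mul_eigen (sumSq_isSelfAdjoint Y) ?_ hf
  obtain ⟨h1, -, h3⟩ := h
  rw [sumSq, add_mul, h3]
  nth_rewrite 2 [← h3]
  rw [show Y * star Y * (star Y * Y * s) = Y * (star Y * star Y) * (Y * s) by simp only [mul_assoc],
    star_sq h1, mul_zero, zero_mul, add_zero]

/-- The gate selecting a copy. -/
noncomputable def pGate (Y : F) : F := cfc (ramp (1 / 4) (1 / 2)) (sumSq Y)

/-- The gate of inactivity. -/
noncomputable def qGate (Y : F) : F := cfc (fun t => 1 - ramp (1 / 8) (1 / 4) t) (sumSq Y)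

omit [PartialOrder F] [StarOrderedRing F] in
lemma star_rescale (r : ℝ) (Y : F) :
    star (rescale r Y) = cfc (scal r) (sumSq Y) * star Y := by
  show star (Y * cfc (scal r) (sumSq Y)) = _
  rw [star_mul, (cfc_predicate (p := IsSelfAdjoint) _ _).star_eq]

omit [PartialOrder F] [StarOrderedRing F] in
lemma gates_commute {Y z : F} (h1 : Commute Y z) (h2 : Commute (star Y) z) :
    Commute (rescale (1 / 8) Y) z ∧ Commute (star (rescale (1 / 8) Y)) z ∧
      Commute (pGate Y) z ∧ Commute (qGate Y) z := by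
  have hs : Commute (sumSq Y) z := (h2.mul_left h1).add_left (h1.mul_left h2)
  refine ⟨h1.mul_left (hs.cfc_real _), ?_, hs.cfc_real _, hs.cfc_real _⟩
  rw [star_rescale]
  exact (hs.cfc_real _).mul_left h2

omit [PartialOrder F] [StarOrderedRing F] in
lemma pGate_mul_qGate (Y : F) : pGate Y * qGate Y = 0 := by
  rw [pGate, qGate, ← cfc_mul (ramp (1 / 4) (1 / 2)) (fun t => 1 - ramp (1 / 8) (1 / 4) t)]
  refine (cfc_congr fun t _ => ?_).trans (cfc_const_zero ℝ (sumSq Y))
  rcases le_total t (1 / 4) with h | h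
  · simp only [ramp_zero (show (1 : ℝ) / 4 < 1 / 2 by norm_num) h, zero_mul]
  · simp only [ramp_one (show (1 : ℝ) / 8 < 1 / 4 by norm_num) h, sub_self, mul_zero]

omit [PartialOrder F] [StarOrderedRing F] in
lemma gates_drop {Y s : F} (h : DropRelations Y s) :
    pGate Y * s = s ∧ qGate Y * s = 0 ∧
      star (rescale (1 / 8) Y) * rescale (1 / 8) Y * s = s := by
  refine ⟨?_, ?_, ?_⟩
  · rw [pGate, cfc_mul_drop_top h (ramp_continuous _ _), ramp_one (by norm_num) (by norm_num),
      one_smul]
  · rw [qGate, cfc_mul_drop_top h (f := fun t => 1 - ramp (1 / 8) (1 / 4) t) (by fun_prop), ramp_one (by norm_num) (by norm_num), sub_self,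
      zero_smul]
  · have hs : cfc (scal (1 / 8)) (sumSq Y) * s = s := by
      rw [cfc_mul_drop_top h (scal_continuous (by norm_num)), scal_one (by norm_num), one_smul]
    rw [star_rescale]
    show cfc (scal (1 / 8)) (sumSq Y) * star Y * (Y * cfc (scal (1 / 8)) (sumSq Y)) * s = s
    calc _ = cfc (scal (1 / 8)) (sumSq Y) * (star Y * Y * (cfc (scal (1 / 8)) (sumSq Y) * s)) := by
          simp only [mul_assoc]
      _ = s := by rw [hs, h.2.2, hs]

lemma qGate_conj_le {Y s : F} (h : DropRelations Y s) :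
    (3 / 4 : ℝ) • (qGate Y * qGate Y) ≤ qGate Y * (star s * s) * qGate Y := by
  have hs := sumSq_isSelfAdjoint Y
  have e : star s * s = cfc (fun t : ℝ => 1 - t) (sumSq Y) := by
    rw [cfc_sub (fun _ => (1 : ℝ)) (fun t : ℝ => t) (sumSq Y), cfc_const_one ℝ (sumSq Y),
      cfc_id' ℝ (sumSq Y) hs, h.2.1, sumSq, sub_sub]
  have hc : Continuous fun t : ℝ => 1 - ramp (1 / 8) (1 / 4) t := by fun_prop
  have hc' : Continuous fun t : ℝ => 1 - t := by fun_prop
  rw [e, qGate, ← cfc_mul _ _ _ hc.continuousOn hc.continuousOn,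
    ← cfc_mul _ _ _ hc.continuousOn hc'.continuousOn,
    ← cfc_mul (fun t => (1 - ramp (1 / 8) (1 / 4) t) * (1 - t))
      (fun t => 1 - ramp (1 / 8) (1 / 4) t) _ (hc.mul hc').continuousOn hc.continuousOn,
    ← cfc_const_mul (3 / 4 : ℝ) (fun t => (1 - ramp (1 / 8) (1 / 4) t) *
      (1 - ramp (1 / 8) (1 / 4) t)) _ (hc.mul hc).continuousOn]
  refine cfc_mono (hf := ((continuous_const.mul (hc.mul hc))).continuousOn)
    (hg := ((hc.mul hc').mul hc).continuousOn) fun t _ => ?_
  rcases le_total (1 / 4 : ℝ) t with h | h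
  · rw [ramp_one (show (1 : ℝ) / 8 < 1 / 4 by norm_num) h]; simp
  · have h0 : 0 ≤ 1 - ramp (1 / 8) (1 / 4) t := sub_nonneg.2 (ramp_mem _ _ t).2
    nlinarith [mul_nonneg h0 h0]

omit [PartialOrder F] [StarOrderedRing F] in
lemma one_sub_qGate (Y : F) : 1 - qGate Y = cfc (ramp (1 / 8) (1 / 4)) (sumSq Y) := by
  have hs := sumSq_isSelfAdjoint Y
  rw [qGate, cfc_sub (fun _ => (1 : ℝ)) (ramp (1 / 8) (1 / 4)) (sumSq Y),
    cfc_const_one ℝ (sumSq Y) (ha := hs), sub_sub_cancel]

lemma cover_poly {S : F} (hS0 : 0 ≤ S) :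
    (1 / 16 : ℝ) • (1 : F) ≤ S * S * S + (3 / 4 : ℝ) • ((1 - S) * (1 - S)) := by
  have hSs : IsSelfAdjoint S := .of_nonneg hS0
  have e4 : S * S * S + (3 / 4 : ℝ) • ((1 - S) * (1 - S))
      = cfc (fun t : ℝ => t * t * t + 3 / 4 * ((1 - t) * (1 - t))) S := by
    rw [cfc_add (a := S) (fun t : ℝ => t * t * t) (fun t : ℝ => 3 / 4 * ((1 - t) * (1 - t))),
      cfc_mul (fun t : ℝ => t * t) (fun t => t) S, cfc_mul (fun t : ℝ => t) (fun t => t) S,
      cfc_id' ℝ S, cfc_const_mul (3 / 4 : ℝ) (fun t => (1 - t) * (1 - t)) S,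
      cfc_mul (fun t : ℝ => 1 - t) (fun t => 1 - t) S,
      cfc_sub (fun _ => (1 : ℝ)) (fun t : ℝ => t) S, cfc_const_one ℝ S, cfc_id' ℝ S]
  rw [e4, ← Algebra.algebraMap_eq_smul_one, ← cfc_const (1 / 16 : ℝ) S]
  refine cfc_mono fun t ht => ?_
  have h0 : 0 ≤ t := spectrum_nonneg_of_nonneg hS0 ht
  rcases le_total t (1 / 2) with h | h
  · nlinarith [mul_le_mul (show (1 : ℝ) / 2 ≤ 1 - t by linarith) (show (1 : ℝ) / 2 ≤ 1 - t by linarith)
      (by norm_num) (by linarith), mul_nonneg (mul_nonneg h0 h0) h0]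
  · nlinarith [mul_le_mul h h (by norm_num) h0, mul_self_nonneg (1 - t)]

/-- A square-zero contraction and a gate absorbing its defect cover the unit. -/
lemma cover {X Qp : F} (h2 : X * X = 0) (hS1 : sumSq X ≤ 1) (hQs : star Qp = Qp)
    (hrQ : (1 - sumSq X) * Qp = 1 - sumSq X) :
    (1 / 16 : ℝ) • (1 : F) ≤ star X * X * (star X * X) +
      X * (star X * X * (star X * X)) * star X + (3 / 4 : ℝ) • (Qp * Qp) := by
  set S := sumSq X with hS
  have hS0 : 0 ≤ S := add_nonneg (star_mul_self_nonneg X) (mul_star_self_nonneg X)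
  have hQr : Qp * (1 - S) = 1 - S := by
    have := congrArg star hrQ
    rwa [star_mul, star_sub, star_one, sumSq_self, hQs] at this
  have e : 0 ≤ (1 - S) * (1 - S) := (Commute.refl _).mul_nonneg (sub_nonneg.2 hS1)
    (sub_nonneg.2 hS1)
  have h4 : ‖(1 : F) - S‖ ≤ 1 := (CStarAlgebra.norm_le_one_iff_of_nonneg _
    (sub_nonneg.2 hS1)).2 (sub_le_self _ hS0)
  have h3 : (1 - S) * (1 - S) ≤ 1 := (CStarAlgebra.norm_le_one_iff_of_nonneg _ e).1
    ((norm_mul_le _ _).trans (mul_le_one₀ h4 (norm_nonneg _) h4))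
  have h5 := star_left_conjugate_le_conjugate h3 Qp
  rw [hQs, mul_one] at h5
  have h9 : (1 - S) * (1 - S) ≤ Qp * Qp := by
    calc (1 - S) * (1 - S) = Qp * (1 - S) * ((1 - S) * Qp) := by rw [hQr, hrQ]
      _ = Qp * ((1 - S) * (1 - S)) * Qp := by simp only [mul_assoc]
      _ ≤ _ := h5
  set a := star X * X with ha
  set b := X * star X with hb
  have hab : a * b = 0 := by rw [ha, hb, mul_assoc, ← mul_assoc X X, h2, zero_mul, mul_zero]
  have hba : b * a = 0 := by
    rw [ha, hb, mul_assoc, ← mul_assoc (star X) (star X), star_sq h2, zero_mul, mul_zero]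
  have ha0 : 0 ≤ a := star_mul_self_nonneg X
  have ha1 : a ≤ 1 := le_trans (le_add_of_nonneg_right (mul_star_self_nonneg X)) hS1
  have e3 : X * (a * a) * star X = b * b * b := by rw [ha, hb]; simp only [mul_assoc]
  have h6 : a * a * a ≤ a * a := by
    have hh : 0 ≤ a * a * (1 - a) := ((Commute.one_right _).sub_right
      ((Commute.refl a).mul_left (Commute.refl a))).mul_nonneg
      ((Commute.refl a).mul_nonneg ha0 ha0) (sub_nonneg.2 ha1)
    rwa [mul_sub, mul_one, sub_nonneg] at hh
  have h7 : S * S * S ≤ a * a + X * (a * a) * star X := by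
    have e5 : (a + b) * (a + b) = a * a + b * b := by
      rw [add_mul, mul_add, mul_add, hab, hba, add_zero, zero_add]
    have e6 : (a + b) * (a + b) * (a + b) = a * a * a + b * b * b := by
      rw [e5, add_mul, mul_add, mul_add, mul_assoc a a b, hab, mul_zero, add_zero,
        mul_assoc b b a, hba, mul_zero, zero_add]
    rw [e3, show S = a + b from rfl, e6]
    exact add_le_add h6 le_rfl
  exact (cover_poly hS0).trans
    (add_le_add h7 (smul_le_smul_of_nonneg_left h9 (by norm_num)))

/-- Commuting pairs give a coordinate with covering gate. -/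
theorem exists_coord {l : ℕ} (x : Fin l → Fin 2 → F)
    (hx : ∀ k, DropRelations (x k 0) (x k 1))
    (hc : ∀ k k', k ≠ k' → ∀ a b, Commute (x k a) (x k' b) ∧ Commute (x k a) (star (x k' b))) :
    ∃ (X : F) (V : Fin l → F) (Q : F), Coord l X V ∧
      (∀ z, (∀ k a, Commute (x k a) z ∧ Commute (x k a) (star z)) →
        Commute X z ∧ (∀ i, Commute (V i) z) ∧ Commute Q z) ∧
      (∀ i, (3 / 4 : ℝ) • Q ≤ star (V i) * V i) ∧ 0 ≤ Q ∧
      (1 / 16 : ℝ) • (1 : F) ≤ star X * X * (star X * X) +
        X * (star X * X * (star X * X)) * star X + (3 / 4 : ℝ) • Q := by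
  classical
  -- the gates
  obtain ⟨p, hp⟩ : ∃ p : Fin l → F, ∀ k, p k = pGate (x k 0) := ⟨_, fun _ => rfl⟩
  obtain ⟨q, hq⟩ : ∃ q : Fin l → F, ∀ k, q k = qGate (x k 0) := ⟨_, fun _ => rfl⟩
  obtain ⟨r, hr⟩ : ∃ r : Fin l → F, ∀ k, r k = rescale (1 / 8) (x k 0) := ⟨_, fun _ => rfl⟩
  have hgate : ∀ k, Gated (r k) (p k) := fun k => by
    rw [hr, hp, pGate]
    exact rescale_gated (hx k).1 (by norm_num) (ramp_continuous _ _) (ramp_mem _ _)
      fun t ht => ramp_zero (by norm_num) (by linarith)
  have hbase : ∀ k z, Commute (x k 0) z → Commute (star (x k 0)) z →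
      Commute (r k) z ∧ Commute (star (r k)) z ∧ Commute (p k) z ∧ Commute (q k) z := by
    intro k z h1 h2
    rw [hr, hp, hq]
    exact gates_commute h1 h2
  have hcs : ∀ k k', k ≠ k' → ∀ b, Commute (star (x k 0)) (x k' b) ∧
      Commute (star (x k 0)) (star (x k' b)) := fun k k' h b =>
    ⟨commute_star_comm.2 (hc k k' h 0 b).2, (hc k k' h 0 b).1.star_star⟩
  have hcross : ∀ k k', k ≠ k' → ∀ z ∈ ({r k', star (r k'), p k', q k'} : Set F),
      Commute (r k) z ∧ Commute (star (r k)) z ∧ Commute (p k) z ∧ Commute (q k) z := by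
    intro k k' h z hz
    have b : Commute (x k 0) z ∧ Commute (star (x k 0)) z := by
      obtain ⟨a1, a2, a3, a4⟩ := hbase k' (x k 0) (hc k k' h 0 0).1.symm (hc k k' h 0 0).2.symm
      obtain ⟨b1, b2, b3, b4⟩ :=
        hbase k' (star (x k 0)) (hcs k k' h 0).1.symm (hcs k k' h 0).2.symm
      rcases hz with rfl | rfl | rfl | rfl
      exacts [⟨a1.symm, b1.symm⟩, ⟨a2.symm, b2.symm⟩, ⟨a3.symm, b3.symm⟩, ⟨a4.symm, b4.symm⟩]
    exact hbase k z b.1 b.2
  have hp2 : ∀ k, Commute (p k) (q k) := fun k => by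
    rw [hp, hq]; exact ((Commute.refl (sumSq (x k 0))).cfc_real _).symm.cfc_real _
  have hqq : ∀ k k', Commute (q k) (q k') := fun k k' => by
    rcases eq_or_ne k k' with rfl | h
    · exact Commute.refl _
    · exact (hcross k k' h _ (by simp)).2.2.2
  have sites : Sites r p :=
    { gated := hgate
      cx := fun k k' h => (hcross k k' h _ (by simp)).1
      cx' := fun k k' h => (hcross k k' h _ (by simp)).1
      cpx := fun k k' h => (hcross k k' h _ (by simp)).2.2.1
      cp := fun k k' h => (hcross k k' h _ (by simp)).2.2.1 }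
  obtain ⟨hT, hcomm, habs, htop⟩ := tree_spec sites
  set X := (tree r p).1 with hX
  set P := (tree r p).2 with hP
  have hpq : ∀ k, p k * q k = 0 := fun k => by rw [hp, hq]; exact pGate_mul_qGate _
  have hqs : ∀ k, star (q k) = q k := fun k => by
    rw [hq, qGate]; exact (cfc_predicate (p := IsSelfAdjoint) _ _).star_eq
  -- the tree absorbs the complements of the gates
  have hPq : ∀ k, P * (1 - q k) = 1 - q k := fun k => by
    refine habs k _ ?_ fun k' => ?_
    · rw [hq, one_sub_qGate]
      have h := (rescale_gated (hx k).1 (r := 1 / 8) (by norm_num) (ramp_continuous (1 / 8) (1 / 4))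
        (ramp_mem _ _) fun t ht => ramp_zero (by norm_num) ht).absorb
      rw [hr]
      exact h
    · rcases eq_or_ne k' k with rfl | h
      · obtain ⟨a1, a2, -, -⟩ := hbase k' (q k')
          (by rw [hq, qGate]; exact (comm_gate (hx k').1 _).1.symm)
          (by rw [hq, qGate]; exact (comm_gate (hx k').1 _).2.symm)
        exact ⟨(Commute.one_right _).sub_right a1, (Commute.one_right _).sub_right a2,
          (Commute.one_right _).sub_right (hp2 k')⟩
      · exact ⟨(Commute.one_right _).sub_right (hcross k' k h _ (by simp)).1,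
          (Commute.one_right _).sub_right (hcross k' k h _ (by simp)).2.1,
          (Commute.one_right _).sub_right (hcross k' k h _ (by simp)).2.2.1⟩
  set Qp := prodF q with hQp
  have hQs : star Qp = Qp := by
    rw [hQp, prodF_star fun i j _ => hqq i j]; exact congrArg prodF (funext hqs)
  have hqQ : ∀ k, Commute (q k) Qp := fun k => prodF_commute fun k' => hqq k k'
  -- the pieces
  set V : Fin l → F := fun i => x i 1 * Qp with hV
  have hqx : ∀ k i, k ≠ i → Commute (q k) (x i 1) ∧ Commute (p k) (x i 1) := fun k i h =>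
    ⟨(hbase k _ (hc k i h 0 1).1 (hcs k i h 1).1).2.2.2,
      (hbase k _ (hc k i h 0 1).1 (hcs k i h 1).1).2.2.1⟩
  have hps : ∀ k, p k * x k 1 = x k 1 := fun k => by rw [hp]; exact (gates_drop (hx k)).1
  have hqs0 : ∀ k, q k * x k 1 = 0 := fun k => by rw [hq]; exact (gates_drop (hx k)).2.1
  have hrs : ∀ k, star (r k) * r k * x k 1 = x k 1 := fun k => by
    rw [hr]; exact (gates_drop (hx k)).2.2
  have hQsplit : ∀ k, ∃ Q' : F, Qp = q k * Q' := fun k => by
    refine ⟨prodF fun j => if j = k then 1 else q j, ?_⟩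
    rw [hQp]
    have e : (fun j => q j) = fun j => (if j = k then q j else 1) * if j = k then 1 else q j := by
      funext j; split_ifs <;> simp
    have e2 : prodF (fun j => if j = k then q j else 1) = q k := by
      rw [prodF_single k q]
    rw [show prodF q = prodF fun j => (if j = k then q j else 1) * if j = k then 1 else q j from
      congrArg prodF e, prodF_mul fun i j _ => by split_ifs <;> simp [hqq], e2]
  refine ⟨X, V, Qp * Qp, ⟨hT.sq, fun i => ?_, fun i i' h => ?_⟩, fun z hz => ?_, fun i => ?_, ?_, ?_⟩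
  · have hE1 : p i * V i = V i := by rw [hV, ← mul_assoc, hps]
    have hE2 : star (r i) * r i * V i = V i := by rw [hV, ← mul_assoc, hrs]
    refine (htop (V i) {i} (Finset.singleton_nonempty i) (fun k hk => ?_) fun k hk => ?_).2
    · rw [Finset.mem_singleton] at hk
      subst hk
      exact ⟨hE1, hE2⟩
    · rw [Finset.mem_singleton] at hk
      obtain ⟨Q', hQ'⟩ := hQsplit k
      rw [hV, ← mul_assoc, (hqx k i hk).2.eq, mul_assoc, hQ', ← mul_assoc (p k), hpq, zero_mul,
        mul_zero]
  · obtain ⟨Q', hQ'⟩ := hQsplit i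
    have h0 : star (x i 1) * Qp = 0 := by
      have := congrArg star (hqs0 i)
      rw [star_mul, hqs, star_zero] at this
      rw [hQ', ← mul_assoc, this, zero_mul]
    have hcomm2 : Commute (star (x i 1)) (x i' 1) := commute_star_comm.2 (hc i i' h 1 1).2
    rw [hV, star_mul, hQs, mul_assoc, ← mul_assoc (star (x i 1)), hcomm2.eq,
      mul_assoc (x i' 1), h0, mul_zero, mul_zero]
  · have hb : ∀ k, Commute (r k) z ∧ Commute (star (r k)) z ∧ Commute (p k) z ∧ Commute (q k) z :=
      fun k => hbase k z (hz k 0).1 (commute_star_comm.2 (hz k 0).2)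
    have hQz : Commute Qp z := (prodF_commute fun k => (hb k).2.2.2.symm).symm
    exact ⟨(hcomm z fun k => ⟨(hb k).1, (hb k).2.1, (hb k).2.2.1⟩).1,
      fun i => (hz i 1).1.mul_left hQz, hQz.mul_left hQz⟩
  · -- the pieces are above the gate
    obtain ⟨Q', hQ'⟩ := hQsplit i
    have h1 : (3 / 4 : ℝ) • (q i * q i) ≤ q i * (star (x i 1) * x i 1) * q i := by
      rw [hq]; exact qGate_conj_le (hx i)
    have hQ's : Qp = star Q' * q i := by rw [← hQs, hQ', star_mul, hqs]
    have e1 : (3 / 4 : ℝ) • (Qp * Qp) = star Q' * ((3 / 4 : ℝ) • (q i * q i)) * Q' := by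
      rw [mul_smul_comm, smul_mul_assoc]
      congr 1
      nth_rewrite 1 [hQ's]
      rw [hQ']
      simp only [mul_assoc]
    have e2 : star (V i) * V i = star Q' * (q i * (star (x i 1) * x i 1) * q i) * Q' := by
      rw [hV, star_mul, hQs]
      nth_rewrite 1 [hQ's]
      rw [hQ']
      simp only [mul_assoc]
    rw [e1, e2]
    exact star_left_conjugate_le_conjugate h1 Q'
  · nth_rewrite 1 [← hQs]
    exact star_mul_self_nonneg Qp
  · -- covering
    refine cover hT.sq hT.norm_le hQs (mul_prodF_absorb fun k => ?_)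
    have pa : Commute P (sumSq X) :=
      (hT.comm_star.mul_right hT.comm).add_right (hT.comm.mul_right hT.comm_star)
    have hPS : P * sumSq X = P := hT.absorb
    have h2 : (1 - sumSq X) * (1 - q k) = 0 := by
      rw [← hPq k, ← mul_assoc, sub_mul, one_mul, ← pa.eq, hPS, sub_self, zero_mul]
    rwa [mul_sub, mul_one, sub_eq_zero, eq_comm] at h2

end Order

end Vale.Agent.P095.SC
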