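import Vale.Agent.P095.SC.Pins
import Vale.Agent.P095.SC.PiecesCoord
import Vale.Agent.P095.Tracial.Base

/-!
P095, comparison from traces, block K4: central pieces from the absence of characters.
-/

namespace Vale.Agent.P095.SC

open Filter Vale.Agent.P101 Vale.Agent.P095
open scoped Topology BoundedContinuousFunction

universe u

variable {F : Type*} [CStarAlgebra F]

/-- Commutation with an element and its adjoint. -/
def SComm (a z : F) : Prop := Commute a z ∧ Commute a (star z)

lemma SComm.symm {a z : F} (h : SComm a z) : SComm z a :=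
  ⟨h.1.symm, (commute_star_comm.2 h.2).symm⟩

lemma SComm.mul {a b z : F} (h : SComm a z) (h' : SComm b z) : SComm (a * b) z :=
  ⟨h.1.mul_left h'.1, h.2.mul_left h'.2⟩

lemma SComm.star {a z : F} (h : SComm a z) : SComm (star a) z :=
  ⟨commute_star_comm.2 h.2, h.1.star_star⟩

lemma SComm.one (z : F) : SComm (1 : F) z := ⟨Commute.one_left _, Commute.one_left _⟩

lemma SComm.sum {ι : Type*} (t : Finset ι) (f : ι → F) {z : F} (h : ∀ i ∈ t, SComm (f i) z) :
    SComm (∑ i ∈ t, f i) z :=
  ⟨Commute.sum_left _ _ _ fun i hi => (h i hi).1, Commute.sum_left _ _ _ fun i hi => (h i hi).2⟩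

lemma SComm.cfc {a z : F} (h : SComm a z) (f : ℝ → ℝ) : SComm (cfc f a) z :=
  ⟨h.1.cfc_real f, h.2.cfc_real f⟩

/-- Copies of a dimension drop pair. -/
lemma exists_pairs (hC : HasCopies F) {Y₀ s₀ : F} (h0 : DropRelations Y₀ s₀) (S : Finset F)
    (l : ℕ) : ∃ x : Fin l → Fin 2 → F, (∀ k, DropRelations (x k 0) (x k 1)) ∧
      (∀ k a, ∀ s ∈ S, SComm (x k a) s) ∧
      ∀ k k', k ≠ k' → ∀ a b, SComm (x k a) (x k' b) := by
  classical
  let X : Fin 2 → FreeAlgebra ℂ (Fin 2 ⊕ Fin 2) := fun i => FreeAlgebra.ι ℂ (Sum.inl i)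
  let X' : Fin 2 → FreeAlgebra ℂ (Fin 2 ⊕ Fin 2) := fun i => FreeAlgebra.ι ℂ (Sum.inr i)
  let R : Fin 3 → FreeAlgebra ℂ (Fin 2 ⊕ Fin 2) :=
    ![X 0 * X 0, X' 1 * X 1 - (1 - X' 0 * X 0 - X 0 * X' 0), X' 0 * X 0 * X 1 - X 1]
  obtain ⟨C, -, hcopy⟩ := Full.copies_of_rel hC ![Y₀, s₀] R (by
    obtain ⟨r1, r2, r3⟩ := h0
    intro j
    fin_cases j <;> simp [R, X, X', r1, r2, r3])
  obtain ⟨f, hf, hfS, hff⟩ := Full.exists_family (fun x : Fin 2 → F => DropRelations (x 0) (x 1))
    (fun x => Set.range x) (fun x => Set.finite_range _)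
    (fun T => by
      obtain ⟨x, -, hrel, hxS⟩ := hcopy T
      refine ⟨x, ⟨by simpa [R, X, X'] using hrel 0,
        sub_eq_zero.1 (by simpa [R, X, X'] using hrel 1),
        sub_eq_zero.1 (by simpa [R, X, X'] using hrel 2)⟩, fun u hu s hs => ?_⟩
      obtain ⟨a, rfl⟩ := hu
      exact hxS a s hs)
    S l
  exact ⟨f, hf, fun k a s hs => hfS k _ ⟨a, rfl⟩ s hs,
    fun k k' h a b => hff k k' h _ ⟨a, rfl⟩ _ ⟨b, rfl⟩⟩

section Order

variable [PartialOrder F] [StarOrderedRing F]

/-- Pieces over `n` coordinates. -/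
lemma exists_cover (hC : HasCopies F) {Y₀ s₀ : F} (h0 : DropRelations Y₀ s₀) (n : ℕ) :
    ∀ S : Finset F, ∃ (d : F) (u : Fin (2 ^ n) → F) (N : ℕ) (w : Fin N → F),
      N < 2 ^ (n + 1) ∧ (∀ s ∈ S, SComm d s ∧ (∀ a, SComm (u a) s) ∧ ∀ b, SComm (w b) s) ∧
      (∀ a a', star (u a) * u a' = if a = a' then star d * d else 0) ∧
      ((1 / 16 : ℝ) ^ n) • (1 : F) ≤ ∑ b, star (w b) * (star d * d) * w b := by
  classical
  induction n with
  | zero =>
    intro S
    refine ⟨1, fun _ => 1, 1, fun _ => 1, by norm_num,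
      fun s _ => ⟨SComm.one s, fun _ => SComm.one s, fun _ => SComm.one s⟩, fun a a' => ?_, ?_⟩
    · rw [if_pos (Subsingleton.elim (α := Fin 1) a a')]
    · simp
  | succ n ih =>
    intro S
    obtain ⟨d, u, N, w, hN, hS, horth, hlow⟩ := ih S
    obtain ⟨T, hT⟩ : ∃ T : Finset F, T = insert d (S ∪ Finset.univ.image u ∪ Finset.univ.image w) :=
      ⟨_, rfl⟩
    obtain ⟨x, hx, hxT, hxx⟩ := exists_pairs hC h0 T N
    obtain ⟨X, V, Q, hco, hgen, hVQ, hQ0, hcov⟩ := exists_coord x hx hxx
    have hnew : ∀ z ∈ T, SComm X z ∧ (∀ i, SComm (V i) z) ∧ SComm Q z := by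
      intro z hz
      obtain ⟨a1, a2, a3⟩ := hgen z fun k a => hxT k a z hz
      obtain ⟨b1, b2, b3⟩ := hgen (star z) fun k a =>
        ⟨(hxT k a z hz).2, by rw [star_star]; exact (hxT k a z hz).1⟩
      exact ⟨⟨a1, b1⟩, fun i => ⟨a2 i, b2 i⟩, a3, b3⟩
    obtain ⟨A, hA⟩ : ∃ A : F, A = star X * X := ⟨_, rfl⟩
    obtain ⟨R, hR⟩ : ∃ R : F, R = cfc Real.sqrt A := ⟨_, rfl⟩
    have hAz : ∀ z ∈ T, SComm A z := fun z hz => by
      rw [hA]; exact ((hnew z hz).1.star).mul (hnew z hz).1
    have hRz : ∀ z ∈ T, SComm R z := fun z hz => by rw [hR]; exact (hAz z hz).cfc _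
    have hAs : star A = A := by rw [hA, star_mul, star_star]
    have hA0 : 0 ≤ A := by rw [hA]; exact star_mul_self_nonneg X
    have hRs : star R = R := by
      rw [hR]; exact (cfc_predicate (p := IsSelfAdjoint) _ _).star_eq
    have hRR : R * R = A := by
      rw [hR, ← cfc_mul Real.sqrt Real.sqrt A]
      conv_rhs => rw [← cfc_id' ℝ A]
      exact cfc_congr fun t ht => Real.mul_self_sqrt (spectrum_nonneg_of_nonneg hA0 ht)
    have hAR : Commute A R := by rw [← hRR]; exact (Commute.refl R).mul_left (Commute.refl R)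
    have hAX : A * X = 0 := by rw [hA, mul_assoc, hco.sq, mul_zero]
    have hAV : ∀ i, A * V i = V i := fun i => by rw [hA]; exact hco.top i
    have mu : ∀ a, u a ∈ T := fun a => by simp [hT]
    have mw : ∀ b, w b ∈ T := fun b => by simp [hT]
    have md : d ∈ T := by simp [hT]
    have mS : ∀ s ∈ S, s ∈ T := fun s hs => by simp [hT, hs]
    obtain ⟨c, hc⟩ : ∃ c : F, c = star d * d := ⟨_, rfl⟩
    have hcz : ∀ z, SComm z d → Commute z c := fun z h => by
      rw [hc]; exact h.2.mul_right h.1
    -- the new pieces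
    let e := Fintype.equivFinOfCardEq (α := Fin (2 ^ n) × Bool) (n := 2 ^ (n + 1))
      (by simp [pow_succ])
    let f := Fintype.equivFin (Option (Fin N × Bool))
    let u' : Fin (2 ^ n) × Bool → F := fun ab => u ab.1 * if ab.2 then A else X * R
    let w' : Option (Fin N × Bool) → F := fun o =>
      o.elim (∑ b, V b * w b) fun bt => w bt.1 * if bt.2 then 1 else star X
    refine ⟨d * A, fun a => u' (e.symm a), _, fun b => w' (f.symm b), ?_, fun s hs => ?_,
      fun a a' => ?_, ?_⟩
    · simp only [Fintype.card_option, Fintype.card_prod, Fintype.card_fin, Fintype.card_bool]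
      rw [pow_succ]
      omega
    · obtain ⟨hd, hu, hw⟩ := hS s hs
      have hms := mS s hs
      refine ⟨hd.mul (hAz s hms), fun a => ?_, fun b => ?_⟩
      · refine (hu _).mul ?_
        split_ifs
        · exact hAz s hms
        · exact (hnew s hms).1.mul (hRz s hms)
      · show SComm (w' (f.symm b)) s
        rcases f.symm b with _ | ⟨b, t⟩
        · exact SComm.sum _ _ fun i _ => ((hnew s hms).2.1 i).mul (hw i)
        · refine (hw b).mul ?_
          cases t
          · exact (hnew s hms).1.star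
          · exact SComm.one s
    · -- orthogonality
      obtain ⟨⟨a, t⟩, rfl⟩ := e.surjective a
      obtain ⟨⟨a', t'⟩, rfl⟩ := e.surjective a'
      simp only [Equiv.symm_apply_apply, EmbeddingLike.apply_eq_iff_eq, Prod.mk.injEq, u']
      have hZ : ∀ t : Bool, ∀ z ∈ T, SComm (if t then A else X * R) z := fun t z hz => by
        cases t
        · exact (hnew z hz).1.mul (hRz z hz)
        · exact hAz z hz
      set Z := if t then A else X * R with hZdef
      set Z' := if t' then A else X * R with hZdef'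
      have e1 : star (u a * Z) * (u a' * Z') = star (u a) * u a' * (star Z * Z') := by
        rw [star_mul, mul_assoc, ← mul_assoc (star (u a)), ← mul_assoc (star Z)]
        have h1 : Commute (star Z) (star (u a) * u a') :=
          (hZ t (u a) (mu a)).1.star_star.mul_right (hZ t (u a') (mu a')).star.1
        rw [h1.eq]
        simp only [mul_assoc]
      rw [e1, horth]
      rcases eq_or_ne a a' with rfl | hne
      · rw [if_pos rfl]
        have hRhs : star (d * A) * (d * A) = star d * d * (A * A) := by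
          rw [star_mul, hAs, mul_assoc, ← mul_assoc (star d), ← mul_assoc A]
          rw [show Commute A (star d * d) from ((hAz d md).2).mul_right (hAz d md).1]
          simp only [mul_assoc]
        have hXX : star (X * R) * (X * R) = A * A := by
          rw [star_mul, hRs, mul_assoc, ← mul_assoc (star X), ← hA, hAR.eq, ← mul_assoc, hRR]
        have h0' : A * (X * R) = 0 := by rw [← mul_assoc, hAX, zero_mul]
        have h0'' : star (X * R) * A = 0 := by
          have := congrArg star h0'
          rwa [star_mul, hAs, star_zero] at this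
        rw [hRhs, hZdef, hZdef']
        cases t <;> cases t' <;>
          simp only [Bool.false_eq_true, if_true, if_false, and_true, and_false, hAs] <;>
          first
            | rw [hXX]
            | (rw [h0', mul_zero]; simp)
            | rw [h0'', mul_zero]
      · simp [hne]
    · -- covering
      rw [Equiv.sum_comp f.symm (fun o => star (w' o) * (star (d * A) * (d * A)) * w' o),
        Fintype.sum_option, Fintype.sum_prod_type]
      simp only [Fintype.sum_bool, w', Option.elim, Bool.false_eq_true, if_true, if_false, mul_one]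
      have hD : star (d * A) * (d * A) = c * (A * A) := by
        rw [hc, star_mul, hAs, mul_assoc, ← mul_assoc (star d), ← mul_assoc A,
          show Commute A (star d * d) from ((hAz d md).2).mul_right (hAz d md).1]
        simp only [mul_assoc]
      rw [hD]
      have hwA : ∀ b, Commute (w b) (A * A) := fun b =>
        ((hAz _ (mw b)).1.mul_left (hAz _ (mw b)).1).symm
      have hwX : ∀ b, Commute (w b) X ∧ Commute (star (w b)) X ∧ Commute (w b) (star X) :=
        fun b => ⟨(hnew _ (mw b)).1.1.symm, (hnew _ (mw b)).1.2.symm,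
          ((hnew _ (mw b)).1.star).1.symm⟩
      have hcX : Commute c X := (hcz X (hnew d md).1).symm
      have e1 : ∀ b, star (w b) * (c * (A * A)) * w b = star (w b) * c * w b * (A * A) := fun b => by
        rw [mul_assoc (star (w b)), mul_assoc c, ← (hwA b).eq]
        simp only [mul_assoc]
      have e2 : ∀ b, star (w b * star X) * (c * (A * A)) * (w b * star X)
          = star (w b) * c * w b * (X * (A * A) * star X) := fun b => by
        have h1 : Commute (star (w b) * c * w b) X :=
          ((hwX b).2.1.mul_left hcX).mul_left (hwX b).1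
        rw [star_mul, star_star, ← mul_assoc (star (w b) * c * w b), ← mul_assoc _ X,
          h1.eq]
        calc X * star (w b) * (c * (A * A)) * (w b * star X)
            = X * (star (w b) * (c * (A * A)) * w b) * star X := by simp only [mul_assoc]
          _ = _ := by rw [e1]; simp only [mul_assoc]
      have e3 : star (∑ b, V b * w b) * (c * (A * A)) * (∑ b, V b * w b)
          = ∑ b, star (w b) * c * w b * (star (V b) * V b) := by
        rw [star_sum, Finset.sum_mul, Finset.sum_mul]
        refine Finset.sum_congr rfl fun b _ => ?_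
        rw [Finset.mul_sum, Finset.sum_eq_single b (fun b' _ hne => ?_)
          (fun h => absurd (Finset.mem_univ b) h)]
        · have hv : Commute (w b) (star (V b) * V b) :=
            (((hnew _ (mw b)).2.1 b).star.1.symm).mul_right ((hnew _ (mw b)).2.1 b).1.symm
          have hvc : Commute (star (V b)) c := hcz _ ((hnew d md).2.1 b).star
          calc star (V b * w b) * (c * (A * A)) * (V b * w b)
              = star (w b) * (star (V b) * c) * (A * (A * V b)) * w b := by
                rw [star_mul]; simp only [mul_assoc]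
            _ = star (w b) * c * ((star (V b) * V b) * w b) := by
                rw [hAV, hAV, hvc.eq]; simp only [mul_assoc]
            _ = _ := by rw [← hv.eq]; simp only [mul_assoc]
        · have hvc : Commute (star (V b)) c := hcz _ ((hnew d md).2.1 b).star
          calc star (V b * w b) * (c * (A * A)) * (V b' * w b')
              = star (w b) * (star (V b) * c) * (A * (A * V b')) * w b' := by
                rw [star_mul]; simp only [mul_assoc]
            _ = star (w b) * c * (star (V b) * V b') * w b' := by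
                rw [hAV, hAV, hvc.eq]; simp only [mul_assoc]
            _ = 0 := by rw [hco.orth b b' (Ne.symm hne), mul_zero, zero_mul]
      rw [e3]
      simp only [e1, e2, ← mul_add, ← Finset.sum_add_distrib]
      -- the bound
      obtain ⟨P, hP⟩ : ∃ P : F, P = ∑ b, star (w b) * c * w b := ⟨_, rfl⟩
      obtain ⟨K, hK⟩ : ∃ K : F, K = A * A + X * (A * A) * star X + (3 / 4 : ℝ) • Q := ⟨_, rfl⟩
      have hc0 : 0 ≤ c := by rw [hc]; exact star_mul_self_nonneg d
      have hcc : ∀ b, 0 ≤ star (w b) * c * w b := fun b => star_left_conjugate_nonneg hc0 _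
      have hcom : ∀ z, (∀ y ∈ T, SComm z y) → ∀ b, Commute (star (w b) * c * w b) z :=
        fun z hz b => (((hz _ (mw b)).2.symm).mul_left (hcz z (hz d md)).symm).mul_left
          (hz _ (mw b)).1.symm
      have hKcom : ∀ b, Commute (star (w b) * c * w b) K := fun b => by
        rw [hK]
        refine ((hcom _ (fun y hy => (hAz y hy).mul (hAz y hy)) b).add_right
          (hcom _ (fun y hy => ((hnew y hy).1.mul ((hAz y hy).mul (hAz y hy))).mul
            (hnew y hy).1.star) b)).add_right
          ((hcom _ (fun y hy => (hnew y hy).2.2) b).smul_right _)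
      have hterm : ∀ b, star (w b) * c * w b * K ≤ star (w b) * c * w b *
          (star (V b) * V b + (A * A + X * (A * A) * star X)) := fun b => by
        rw [hK, mul_add _ (A * A + _), mul_add _ (star (V b) * V b)]
        rw [add_comm (star (w b) * c * w b * (star (V b) * V b))]
        refine add_le_add le_rfl ?_
        rw [← sub_nonneg, ← mul_sub]
        refine Commute.mul_nonneg (hcc b) (sub_nonneg.2 (hVQ b)) ((hcom _ (fun y hy =>
          (((hnew y hy).2.1 b).star).mul ((hnew y hy).2.1 b)) b).sub_right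
          ((hcom _ (fun y hy => (hnew y hy).2.2) b).smul_right _))
      refine le_trans ?_ (le_trans (Finset.sum_le_sum fun b (_ : b ∈ Finset.univ) => hterm b) ?_)
      · rw [← Finset.sum_mul, ← hP]
        have hK16 : (1 / 16 : ℝ) • (1 : F) ≤ K := by rw [hK, hA]; exact hcov
        have hK0 : 0 ≤ K := le_trans (smul_nonneg (by norm_num) zero_le_one) hK16
        rw [← hc, ← hP] at hlow
        have hPK : Commute P K := by
          rw [hP]; exact Commute.sum_left _ _ _ fun b _ => hKcom b
        have h1 : 0 ≤ (P - ((1 / 16 : ℝ) ^ n) • (1 : F)) * K :=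
          Commute.mul_nonneg (sub_nonneg.2 hlow) hK0
            (hPK.sub_left ((Commute.one_left K).smul_left _))
        rw [sub_mul, smul_one_mul, sub_nonneg] at h1
        refine le_trans ?_ h1
        rw [pow_succ, mul_smul]
        exact smul_le_smul_of_nonneg_left hK16 (by positivity)
      · refine le_of_eq (Finset.sum_congr rfl fun b _ => ?_)
        simp only [mul_add]

/-- Exact pieces in the algebra. -/
lemma exists_pieces (hC : HasCopies F) {Y₀ s₀ : F} (h0 : DropRelations Y₀ s₀) (j : ℕ) :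
    ∃ (d : F) (u : Fin (2 ^ j) → F) (w : Fin (2 ^ (j + 1)) → F),
      (∀ a a', star (u a) * u a' = if a = a' then star d * d else 0) ∧
      ∑ b, star (w b) * (star d * d) * w b = 1 := by
  classical
  obtain ⟨d, u, N, w, hN, -, horth, hlow⟩ := exists_cover hC h0 j ∅
  obtain ⟨P, hP⟩ : ∃ P : F, P = ∑ b, star (w b) * (star d * d) * w b := ⟨_, rfl⟩
  rw [← hP] at hlow
  have hPs : IsSelfAdjoint P := by
    rw [hP]
    exact .of_nonneg (Finset.sum_nonneg fun b _ =>
      star_left_conjugate_nonneg (star_mul_self_nonneg d) _)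
  have hspec : ∀ t ∈ spectrum ℝ P, 0 < t := fun t ht => by
    have h1 := (algebraMap_le_iff_le_spectrum (r := (1 / 16 : ℝ) ^ j) (ha := hPs)).1
      (by rw [Algebra.algebraMap_eq_smul_one]; exact hlow) t ht
    have h2 : (0 : ℝ) < (1 / 16 : ℝ) ^ j := by positivity
    linarith
  obtain ⟨T, hT⟩ : ∃ T : F, T = cfc (fun t : ℝ => (Real.sqrt t)⁻¹) P := ⟨_, rfl⟩
  have hTc : ContinuousOn (fun t : ℝ => (Real.sqrt t)⁻¹) (spectrum ℝ P) :=
    Real.continuous_sqrt.continuousOn.inv₀ fun t ht => (Real.sqrt_pos.2 (hspec t ht)).ne'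
  have hTs : star T = T := by rw [hT]; exact (cfc_predicate (p := IsSelfAdjoint) _ _).star_eq
  have hTPT : T * P * T = 1 := by
    nth_rewrite 1 [← cfc_id' ℝ P hPs]
    rw [hT, ← cfc_mul _ _ P hTc,
      ← cfc_mul (fun x : ℝ => (Real.sqrt x)⁻¹ * x) (fun s : ℝ => (Real.sqrt s)⁻¹) P
        (hTc.mul continuousOn_id) hTc,
      cfc_congr (g := fun _ => (1:ℝ)) (fun s hs => ?_), cfc_const_one ℝ P]
    have h1 := Real.mul_self_sqrt (hspec s hs).le
    have h2 := (Real.sqrt_pos.2 (hspec s hs)).ne'
    field_simp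
    linarith
  refine ⟨d, u, fun b => if h : b.val < N then w ⟨b.val, h⟩ * T else 0, horth, ?_⟩
  rw [← hTPT, hP, Finset.mul_sum, Finset.sum_mul]
  refine (Finset.sum_of_injOn (Fin.castLE hN.le) (Fin.castLE_injective hN.le).injOn
    (by simp) (fun b _ hb => ?_) fun b _ => ?_).symm
  · have hb' : ¬ b.val < N := fun h => hb ⟨⟨b.val, h⟩, by simp, Fin.ext rfl⟩
    simp [dif_neg hb']
  · simp only [Fin.val_castLE, b.isLt, dif_pos, star_mul, hTs]
    simp only [mul_assoc]

end Order

theorem piecesPin : PiecesPin.{u} := by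
  intro A _ _ w hw hno j
  classical
  let : CStarAlgebra (centralSeq (w : Filter ℕ) A) :=
    StarSubalgebra.cstarAlgebra _ (h_closed := isClosed_centralSeq w)
  have hA : IsEmpty (CentralQuot (A := A) w →⋆ₐ[ℂ] ℂ) :=
    ⟨fun χ => hno ⟨χ.comp (quotHom (nullIdeal (A := A) w)), fun f hf => by
      rw [StarAlgHom.comp_apply, (quotHom_eq_zero w).2 hf, map_zero]⟩⟩
  have hC := hasCopies_centralQuot (A := A) w hw
  obtain ⟨k, N, ⟨W⟩⟩ := noCharPin.{u} (CentralQuot (A := A) w) hA
  obtain ⟨N', ⟨W'⟩⟩ := fullPin.{u} (CentralQuot (A := A) w) hC k N W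
  obtain ⟨y, s, hrel⟩ :=
    dropPin.{u} (CentralQuot (A := A) w) (witnessCopies_of_hasCopies hC) N' W'
  let := CStarAlgebra.spectralOrder (CentralQuot (A := A) w)
  have := CStarAlgebra.spectralOrderedRing (CentralQuot (A := A) w)
  obtain ⟨d, u, v, horth, hsum⟩ := exists_pieces hC hrel j
  let q := quotHom (nullIdeal (A := A) w)
  have hsurj : ∀ z, ∃ f, q f = z := Ideal.Quotient.mk_surjective
  obtain ⟨D, rfl⟩ := hsurj d
  choose U hU using fun a => hsurj (u a)
  choose V hV using fun b => hsurj (v b)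
  obtain ⟨C, hC1⟩ : ∃ C : ℝ, C = ‖(D : ℕ →ᵇ A)‖ + ∑ a, ‖(U a : ℕ →ᵇ A)‖
      + ∑ b, ‖(V b : ℕ →ᵇ A)‖ := ⟨_, rfl⟩
  have hev : ∀ f : centralSeq (w : Filter ℕ) A, q f = 0 → ∀ ε : ℝ, 0 < ε →
      ∀ᶠ n in (w : Filter ℕ), ‖(f : ℕ →ᵇ A) n‖ ≤ ε := fun f hf ε hε => by
    have h : Tendsto (fun n => (f : ℕ →ᵇ A) n) (w : Filter ℕ) (𝓝 0) := (quotHom_eq_zero w).1 hf
    exact (h.norm.eventually (eventually_le_nhds (by simpa using hε)))
  refine ⟨C, fun S ε hε => ?_⟩
  have hcen : ∀ f : centralSeq (w : Filter ℕ) A, ∀ x ∈ S,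
      ∀ᶠ n in (w : Filter ℕ), ‖(f : ℕ →ᵇ A) n * x - x * (f : ℕ →ᵇ A) n‖ ≤ ε := fun f x _ => by
    have h : Tendsto (fun n => (f : ℕ →ᵇ A) n * x - x * (f : ℕ →ᵇ A) n) (w : Filter ℕ) (𝓝 0) :=
      f.2 x
    exact h.norm.eventually (eventually_le_nhds (by simpa using hε))
  have e1 : ∀ a a', q (star (U a) * U a' - if a = a' then star D * D else 0) = 0 := fun a a' => by
    rw [map_sub, map_mul, map_star, hU, hU, horth a a']
    split_ifs
    · rw [map_mul, map_star, sub_self]
    · rw [map_zero, sub_self]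
  have e2 : q ((∑ b, star (V b) * (star D * D) * V b) - 1) = 0 := by
    simp only [map_sub, map_sum, map_mul, map_star, hV, map_one]
    rw [hsum, sub_self]
  obtain ⟨n, h1, h2, h3, h4, h5⟩ := (((Filter.eventually_all_finset S).2 fun x hx => hcen D x hx).and
    (((Filter.eventually_all).2 fun a => (Filter.eventually_all_finset S).2 fun x hx =>
        hcen (U a) x hx).and
      (((Filter.eventually_all).2 fun b => (Filter.eventually_all_finset S).2 fun x hx =>
          hcen (V b) x hx).and
        (((Filter.eventually_all).2 fun a => (Filter.eventually_all).2 fun a' =>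
            hev _ (e1 a a') ε hε).and (hev _ e2 ε hε))))).exists
  have hnn : ∀ {m : ℕ} (g : Fin m → centralSeq (w : Filter ℕ) A),
      0 ≤ ∑ i, ‖(g i : ℕ →ᵇ A)‖ := fun g => Finset.sum_nonneg fun i _ => norm_nonneg _
  have hsle : ∀ {m : ℕ} (g : Fin m → centralSeq (w : Filter ℕ) A) (i : Fin m),
      ‖(g i : ℕ →ᵇ A) n‖ ≤ ∑ i, ‖(g i : ℕ →ᵇ A)‖ := fun g i =>
    ((g i : ℕ →ᵇ A).norm_coe_le_norm n).trans
      (Finset.single_le_sum (fun i _ => norm_nonneg (g i : ℕ →ᵇ A)) (Finset.mem_univ i))
  refine ⟨(D : ℕ →ᵇ A) n, fun a => (U a : ℕ →ᵇ A) n, fun b => (V b : ℕ →ᵇ A) n, ?_, fun a => ?_,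
    fun b => ?_, fun x hx => ⟨h1 x hx, fun a => h2 a x hx, fun b => h3 b x hx⟩, fun a a' => ?_, ?_⟩
  · rw [hC1]; linarith [(D : ℕ →ᵇ A).norm_coe_le_norm n, hnn U, hnn V]
  · rw [hC1]; linarith [hsle U a, norm_nonneg (D : ℕ →ᵇ A), hnn V]
  · rw [hC1]; linarith [hsle V b, norm_nonneg (D : ℕ →ᵇ A), hnn U]
  · have h := h4 a a'
    split_ifs at h ⊢ <;> simpa using h
  · simpa using h5

end Vale.Agent.P095.SC
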