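import Mathlib

/-!
P095, comparison: cycles of a permutation of a line and of its shift (note C2 (4)).
-/

namespace Vale.Agent.P095.SC

open Equiv

variable {q : ℕ}

/-- The number of cycles, fixed points included. -/
noncomputable def numCyc {α : Type*} (π : Perm α) : ℕ :=
  Nat.card (Quotient (Perm.SameCycle.setoid π))

/-- The permutation followed after one step back along the cyclic line. -/
def shiftPerm (σ : Perm (Fin q)) : Perm (Fin q) := σ * (finRotate q)⁻¹

/-- The number of points moved to the right. -/
def numUp (σ : Perm (Fin q)) : ℕ := (Finset.univ.filter fun t => t < σ t).card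

lemma colour_eq_zpow {α β : Type*} {π : Perm α} {b : α → β} (hb : ∀ s, b (π s) = b s) {x y : α}
    (h : π.SameCycle x y) : b x = b y := by
  obtain ⟨i, rfl⟩ := h
  induction i using Int.induction_on with
  | zero => simp
  | succ i ih =>
    rw [ih, add_comm, zpow_add, zpow_one, Perm.mul_apply, hb]
  | pred i ih =>
    rw [ih, sub_eq_add_neg, add_comm, zpow_add, zpow_neg_one, Perm.mul_apply]
    conv_lhs => rw [← π.apply_symm_apply ((π ^ (-(i : ℤ))) x)]
    rw [hb]
    rfl

lemma card_colour {α : Type*} [Finite α] (π : Perm α) (n : ℕ) :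
    Nat.card {b : α → Fin n // ∀ s, b (π s) = b s} = n ^ numCyc π := by
  let e : {b : α → Fin n // ∀ s, b (π s) = b s} ≃
      (Quotient (Perm.SameCycle.setoid π) → Fin n) :=
    { toFun := fun b => Quotient.lift b.1 fun x y h => colour_eq_zpow b.2 h
      invFun := fun f => ⟨fun s => f (Quotient.mk _ s), fun s => by
        refine congrArg f (Quotient.sound ?_)
        exact ⟨-1, by simp⟩⟩
      left_inv := fun b => rfl
      right_inv := fun f => funext fun x => Quotient.inductionOn x fun s => rfl }
  rw [Nat.card_congr e, Nat.card_fun, Nat.card_fin, numCyc]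

lemma exists_least (π : Perm (Fin q)) (c : Quotient (Perm.SameCycle.setoid π)) :
    ∃ s, Quotient.mk _ s = c ∧ ∀ t, π.SameCycle s t → s ≤ t := by
  classical
  have hne : (Finset.univ.filter fun s => Quotient.mk (Perm.SameCycle.setoid π) s = c).Nonempty := by
    obtain ⟨s, hs⟩ := Quotient.exists_rep c
    exact ⟨s, by simp [hs]⟩
  obtain ⟨s, hs, hmin⟩ := Finset.exists_min_image _ id hne
  refine ⟨s, (Finset.mem_filter.1 hs).2, fun t ht => hmin t ?_⟩
  rw [Finset.mem_filter]
  exact ⟨Finset.mem_univ _, (Quotient.sound ht.symm).trans (Finset.mem_filter.1 hs).2⟩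

lemma numCyc_add_numUp_le (σ : Perm (Fin q)) :
    numCyc σ + numUp σ ≤ q := by
  classical
  choose m hm hmin using exists_least σ
  have hdown : ∀ c, σ⁻¹ (m c) ∈ Finset.univ.filter fun t => ¬ t < σ t := fun c => by
    rw [Finset.mem_filter]
    refine ⟨Finset.mem_univ _, not_lt.2 ?_⟩
    rw [show σ (σ⁻¹ (m c)) = m c from σ.apply_symm_apply _]
    exact hmin c _ ⟨-1, by simp⟩
  have hinj : Function.Injective fun c => σ⁻¹ (m c) := fun c d h => by
    rw [← hm c, ← hm d, σ⁻¹.injective h]
  have h1 : numCyc σ ≤ (Finset.univ.filter fun t => ¬ t < σ t).card := by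
    let := Fintype.ofFinite (Quotient (Perm.SameCycle.setoid σ))
    rw [numCyc, Nat.card_eq_fintype_card, ← Finset.card_univ]
    exact Finset.card_le_card_of_injOn _ (fun c _ => hdown c) hinj.injOn
  have := Finset.card_filter_add_card_filter_not (s := Finset.univ) fun t : Fin q => t < σ t
  simp only [Finset.card_univ, Fintype.card_fin] at this
  unfold numUp
  omega

lemma two_numCyc_le (σ : Perm (Fin q)) (hσ : ∀ t, σ t ≠ t) : 2 * numCyc σ ≤ q := by
  classical
  choose m hm hmin using exists_least σ
  let := Fintype.ofFinite (Quotient (Perm.SameCycle.setoid σ))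
  let f : Quotient (Perm.SameCycle.setoid σ) × Bool → Fin q :=
    fun p => if p.2 then m p.1 else σ (m p.1)
  have hcls : ∀ p, Quotient.mk (Perm.SameCycle.setoid σ) (f p) = p.1 := fun p => by
    simp only [f]
    split
    · exact hm _
    · exact (Quotient.sound (show σ.SameCycle (σ (m p.1)) (m p.1) from ⟨-1, by simp⟩)).trans (hm _)
  have hf : Function.Injective f := by
    rintro ⟨c, b⟩ ⟨d, b'⟩ h
    have hcd : c = d := by
      have := hcls (c, b)
      rw [h, hcls] at this
      exact this.symm
    subst hcd
    cases b <;> cases b' <;> simp [f] at h ⊢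
    · exact hσ _ h
    · exact hσ _ h.symm
  have := Fintype.card_le_of_injective f hf
  rw [Fintype.card_prod, Fintype.card_bool, Fintype.card_fin] at this
  rw [numCyc, Nat.card_eq_fintype_card]
  omega

lemma numCyc_shift_le (σ : Perm (Fin q)) : numCyc (shiftPerm σ) ≤ numUp σ + 1 := by
  classical
  rcases q with _ | n
  · have : numCyc (shiftPerm σ) = 0 := by
      unfold numCyc
      rw [Nat.card_eq_zero]
      exact Or.inl ⟨fun c => (Quotient.exists_rep c).elim fun s _ => s.elim0⟩
    omega
  choose m hm hmin using exists_least (shiftPerm σ)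
  let := Fintype.ofFinite (Quotient (Perm.SameCycle.setoid (shiftPerm σ)))
  set c₀ := Quotient.mk (Perm.SameCycle.setoid (shiftPerm σ)) (0 : Fin (n + 1))
  have hup : ∀ c ∈ Finset.univ.erase c₀,
      (finRotate (n + 1)).symm (m c) ∈ Finset.univ.filter fun t => t < σ t := by
    intro c hc
    rw [Finset.mem_filter]
    refine ⟨Finset.mem_univ _, ?_⟩
    have h0 : m c ≠ 0 := fun h => (Finset.mem_erase.1 hc).1 (by rw [← hm c, h])
    set t := (finRotate (n + 1)).symm (m c) with ht
    have hrot : finRotate (n + 1) t = m c := (finRotate (n + 1)).apply_symm_apply _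
    have hge : m c ≤ σ t := hmin c _ ⟨1, by rw [zpow_one]; rfl⟩
    refine lt_of_lt_of_le ?_ hge
    rw [finRotate_apply] at hrot
    by_contra hlt
    rw [← hrot] at h0 hlt
    have hlast : t ≠ Fin.last n := fun h => h0 (by rw [h, Fin.last_add_one])
    exact hlt (Fin.lt_add_one_iff.2 (lt_of_le_of_ne (Fin.le_last t) hlast))
  have h1 : (Finset.univ.erase c₀).card ≤ numUp σ :=
    Finset.card_le_card_of_injOn _ hup fun c _ d _ h => by
      rw [← hm c, ← hm d, (finRotate (n + 1)).symm.injective h]
  rw [Finset.card_erase_of_mem (Finset.mem_univ _), Finset.card_univ] at h1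
  rw [numCyc, Nat.card_eq_fintype_card]
  omega

end Vale.Agent.P095.SC
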