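import Vale.Agent.P095.SC.Slot
import Vale.Agent.P095.SC.Cycles

/-!
P095, comparison: the coefficient of a permutation is small (note C2 (3)).
-/

namespace Vale.Agent.P095.SC

open Matrix Equiv
open scoped Matrix.Norms.L2Operator Kronecker

variable {M m k q : ℕ}

/-- The coefficient of a permutation. -/
noncomputable def coefSum (Y : Fin k → Matrix (Fin M) (Fin m) ℂ) (σ : Perm (Fin q)) : ℂ :=
  ∑ i : Fin q → Fin k, (List.ofFn fun t => (Y (i t))ᴴ * Y (i (σ t))).prod.trace

lemma ofFn_prod_one {R : Type*} [Monoid R] {q : ℕ} (x : Fin q → R) (h : ∀ t, x t = 1) :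
    (List.ofFn x).prod = 1 := by
  refine List.prod_eq_one fun a ha => ?_
  obtain ⟨t, rfl⟩ := List.mem_ofFn.1 ha
  exact h t

lemma ofFn_prod_single {R : Type*} [Monoid R] : ∀ {q : ℕ} (x : Fin q → R) (i : Fin q),
    (∀ t, t ≠ i → x t = 1) → (List.ofFn x).prod = x i := by
  intro q
  induction q with
  | zero => exact fun _ i => i.elim0
  | succ q ih =>
    intro x i h
    rw [List.ofFn_succ, List.prod_cons]
    cases i using Fin.cases with
    | zero => rw [ofFn_prod_one _ fun t => h _ (Fin.succ_ne_zero t), mul_one]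
    | succ i =>
      rw [h 0 (Fin.succ_ne_zero i).symm, one_mul,
        ih (fun t => x t.succ) i fun t ht => h _ fun h' => ht (Fin.succ_injective _ h')]

lemma ofFn_prod_two {R : Type*} [Monoid R] : ∀ {q : ℕ} (x : Fin q → R) (i j : Fin q),
    i < j → (∀ t, t ≠ i → t ≠ j → x t = 1) → (List.ofFn x).prod = x i * x j := by
  intro q
  induction q with
  | zero => exact fun _ i => i.elim0
  | succ q ih =>
    intro x i j hij h
    rw [List.ofFn_succ, List.prod_cons]
    cases j using Fin.cases with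
    | zero => exact absurd hij (Fin.not_lt_zero i)
    | succ j =>
      cases i using Fin.cases with
      | zero =>
        rw [ofFn_prod_single (fun t => x t.succ) j fun t ht =>
          h _ (Fin.succ_ne_zero t) fun h' => ht (Fin.succ_injective _ h')]
      | succ i =>
        rw [h 0 (Fin.succ_ne_zero i).symm (Fin.succ_ne_zero j).symm, one_mul,
          ih (fun t => x t.succ) i j (Fin.succ_lt_succ_iff.1 hij) fun t h1 h2 =>
            h _ (fun h' => h1 (Fin.succ_injective _ h')) fun h' => h2 (Fin.succ_injective _ h')]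

lemma ofFn_prod_sum {R α : Type*} [Semiring R] [Fintype α] : ∀ {q : ℕ} (x : Fin q → α → R),
    (List.ofFn fun t => ∑ a, x t a).prod
      = ∑ c : Fin q → α, (List.ofFn fun t => x t (c t)).prod := by
  intro q
  induction q with
  | zero => intro x; simp
  | succ q ih =>
    intro x
    rw [List.ofFn_succ, List.prod_cons, ih fun t => x t.succ, Finset.sum_mul_sum,
      ← Fintype.sum_prod_type']
    refine Fintype.sum_equiv (Fin.consEquiv fun _ => α) _ _ fun p => ?_
    rw [List.ofFn_succ, List.prod_cons]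
    simp [Fin.consEquiv]

lemma ofFn_prod_kron {ι κ : Type*} [Fintype ι] [DecidableEq ι] [Fintype κ] [DecidableEq κ] :
    ∀ {q : ℕ} (A : Fin q → Matrix ι ι ℂ) (B : Fin q → Matrix κ κ ℂ),
    (List.ofFn fun t => A t ⊗ₖ B t).prod = (List.ofFn A).prod ⊗ₖ (List.ofFn B).prod := by
  intro q
  induction q with
  | zero => intro A B; simp
  | succ q ih =>
    intro A B
    simp only [List.ofFn_succ, List.prod_cons, ih, ← mul_kronecker_mul]

lemma ofFn_prod_piMat {e O : Type*} [Fintype e] [DecidableEq e] [Fintype O] [DecidableEq O] :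
    ∀ {q : ℕ} (f : Fin q → e → Matrix O O ℂ),
    (List.ofFn fun t => piMat (f t)).prod = piMat fun x => (List.ofFn fun t => f t x).prod := by
  intro q
  induction q with
  | zero => intro f; simp [piMat_one]
  | succ q ih =>
    intro f
    simp only [List.ofFn_succ, List.prod_cons, ih, piMat_mul]

lemma ofFn_norm_prod_le {ι : Type*} [Fintype ι] [DecidableEq ι] : ∀ {q : ℕ}
    (x : Fin q → Matrix ι ι ℂ) (c : Fin q → ℝ), (∀ t, ‖x t‖ ≤ c t) →
    ‖(List.ofFn x).prod‖ ≤ ∏ t, c t := by
  intro q
  induction q with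
  | zero =>
    intro x c _
    rw [List.ofFn_zero, List.prod_nil, Fin.prod_univ_zero, ← diagonal_one, l2_opNorm_diagonal]
    exact (pi_norm_le_iff_of_nonneg zero_le_one).2 fun i => by simp
  | succ q ih =>
    intro x c h
    rw [List.ofFn_succ, List.prod_cons, Fin.prod_univ_succ]
    exact (norm_mul_le _ _).trans (mul_le_mul (h 0) (ih _ _ fun t => h t.succ) (norm_nonneg _)
      ((norm_nonneg _).trans (h 0)))

lemma norm_entry_le {ι : Type*} [Fintype ι] [DecidableEq ι] (X : Matrix ι ι ℂ) (a b : ι) :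
    ‖X a b‖ ≤ ‖X‖ := by
  have h := X.l2_opNorm_mulVec (EuclideanSpace.single b (1 : ℂ))
  rw [EuclideanSpace.norm_single, norm_one, mul_one] at h
  refine le_trans ?_ h
  refine le_trans (le_of_eq ?_) (PiLp.norm_apply_le (p := 2) _ a)
  simp [Matrix.mulVec_single]

/-- The slot operation of the starred entry of a unit. -/
def starOp (σ : Perm (Fin q)) (t : Fin q) (a : Fin k) :
    Matrix (Option (Fin k)) (Option (Fin k)) ℂ :=
  if t < σ.symm t then annOp a else creOp a

/-- The slot operation of the unstarred entry of a unit. -/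
def plainOp (σ : Perm (Fin q)) (t : Fin q) (b : Fin k) :
    Matrix (Option (Fin k)) (Option (Fin k)) ℂ :=
  if t < σ t then annOp b else creOp b

theorem coef_bound (Y : Fin k → Matrix (Fin M) (Fin m) ℂ) (σ : Perm (Fin q))
    (hσ : ∀ t, σ t ≠ t) {δ : ℝ} (hδ : 0 ≤ δ) (h1 : ‖∑ i, (Y i)ᴴ * Y i‖ ≤ 1)
    (h2 : ‖∑ i, Y i * (Y i)ᴴ‖ ≤ δ) : ‖coefSum Y σ‖ ≤ m * δ ^ numUp σ := by
  set e₀ : Fin q → Option (Fin k) := fun _ => none
  set F : Fin q → Fin k × Fin k → Fin q → Matrix (Option (Fin k)) (Option (Fin k)) ℂ :=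
    fun t p x => oneSlot (σ.symm t) (starOp σ t p.1) x * oneSlot t (plainOp σ t p.2) x with hF
  set S : Fin q → Matrix (Fin m × (Fin q → Option (Fin k))) (Fin M × (Fin q → Option (Fin k))) ℂ :=
    fun t => ∑ a, (Y a)ᴴ ⊗ₖ piMat (oneSlot (σ.symm t) (starOp σ t a)) with hS
  set U : Fin q → Matrix (Fin M × (Fin q → Option (Fin k))) (Fin m × (Fin q → Option (Fin k))) ℂ :=
    fun t => ∑ b, Y b ⊗ₖ piMat (oneSlot t (plainOp σ t b)) with hU
  set X := (List.ofFn fun t => S t * U t).prod with hX
  -- expansion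
  have hexp : X = ∑ c : Fin q → Fin k × Fin k,
      (List.ofFn fun t => (Y (c t).1)ᴴ * Y (c t).2).prod
        ⊗ₖ piMat fun x => (List.ofFn fun t => F t (c t) x).prod := by
    have hunit : ∀ t, S t * U t
        = ∑ p : Fin k × Fin k, ((Y p.1)ᴴ * Y p.2) ⊗ₖ piMat (F t p) := fun t => by
      simp only [hS, hU, Matrix.sum_mul, Matrix.mul_sum, hF, ← piMat_mul]
      rw [Finset.sum_comm, ← Fintype.sum_prod_type']
      exact Finset.sum_congr rfl fun p _ => (mul_kronecker_mul _ _ _ _).symm
    simp only [hX, hunit, ofFn_prod_sum, ofFn_prod_kron, ofFn_prod_piMat]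
  -- one slot
  have hslot : ∀ (c : Fin q → Fin k × Fin k) x, (List.ofFn fun t => F t (c t) x).prod none none
      = if (c (σ x)).1 = (c x).2 then 1 else 0 := by
    intro c x
    have hoff : ∀ t, t ≠ x → t ≠ σ x → F t (c t) x = 1 := fun t h3 h4 => by
      simp only [hF, oneSlot]
      rw [Function.update_of_ne (fun h => h4 (by rw [h, σ.apply_symm_apply])),
        Function.update_of_ne (Ne.symm h3), one_mul]
    have hx : F x (c x) x = plainOp σ x (c x).2 := by
      simp only [hF, oneSlot]
      rw [Function.update_of_ne (fun h => hσ x (by conv_lhs => rw [h, σ.apply_symm_apply])),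
        Function.update_self, one_mul]
    have hsx : F (σ x) (c (σ x)) x = starOp σ (σ x) (c (σ x)).1 := by
      simp only [hF, oneSlot, σ.symm_apply_apply]
      rw [Function.update_self, Function.update_of_ne (Ne.symm (hσ x)), mul_one]
    rcases lt_or_gt_of_ne (hσ x) with hlt | hlt
    · rw [ofFn_prod_two (fun t => F t (c t) x) (σ x) x hlt fun t h3 h4 => hoff t h4 h3, hx, hsx,
        starOp, plainOp, σ.symm_apply_apply, if_pos hlt, if_neg (lt_asymm hlt), ann_cre]
      split <;> simp
    · rw [ofFn_prod_two (fun t => F t (c t) x) x (σ x) hlt fun t h3 h4 => hoff t h3 h4, hx, hsx,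
        starOp, plainOp, σ.symm_apply_apply, if_pos hlt, if_neg (lt_asymm hlt), ann_cre]
      by_cases h : (c (σ x)).1 = (c x).2
      · simp [h]
      · simp [h, Ne.symm h]
  have hvac : ∀ c : Fin q → Fin k × Fin k,
      (piMat fun x => (List.ofFn fun t => F t (c t) x).prod) e₀ e₀
        = if ∀ x, (c (σ x)).1 = (c x).2 then 1 else 0 := by
    intro c
    simp only [piMat, e₀, hslot]
    rw [Finset.prod_boole]
    simp
  -- the coefficient is the vacuum corner
  have hcoef : coefSum Y σ = ∑ u, X (u, e₀) (u, e₀) := by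
    rw [hexp]
    simp only [Matrix.sum_apply, kroneckerMap_apply, hvac]
    rw [Finset.sum_comm]
    simp only [mul_ite, mul_one, mul_zero]
    refine Eq.trans ?_ (Finset.sum_congr rfl fun c _ => (Finset.sum_ite_irrel _ _ _ _).symm)
    simp only [Finset.sum_const_zero]
    rw [← Finset.sum_filter, coefSum]
    refine Finset.sum_nbij' (fun i t => (i t, i (σ t))) (fun c t => (c t).1) ?_ ?_ ?_ ?_ ?_
    · intro i _; simp
    · intro c _; simp
    · intro i _; rfl
    · intro c hc
      funext t
      exact Prod.ext rfl ((Finset.mem_filter.1 hc).2 t)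
    · intro i _; rfl
  -- norms
  set g : Fin q → ℝ := fun x => if x < σ x then Real.sqrt δ else 1 with hg
  have hsq1 : Real.sqrt ‖∑ i, (Y i)ᴴ * Y i‖ ≤ 1 := Real.sqrt_le_one.2 h1
  have hsq2 : Real.sqrt ‖∑ i, Y i * (Y i)ᴴ‖ ≤ Real.sqrt δ := Real.sqrt_le_sqrt h2
  have hnU : ∀ t, ‖U t‖ ≤ g t := fun t => by
    simp only [hU, hg, plainOp]
    rcases lt_or_gt_of_ne (hσ t) with hlt | hlt
    · simp only [if_neg (lt_asymm hlt)]
      exact (norm_cre_le Y t).trans hsq1
    · simp only [if_pos hlt]
      exact (norm_ann_le Y t).trans hsq2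
  have hnS : ∀ t, ‖S t‖ ≤ g (σ.symm t) := fun t => by
    simp only [hS, hg, starOp, σ.apply_symm_apply]
    rcases lt_or_gt_of_ne (fun h => hσ t (by conv_lhs => rw [← h, σ.apply_symm_apply]) :
      σ.symm t ≠ t) with hlt | hlt
    · simp only [if_neg (lt_asymm hlt), if_pos hlt]
      refine (norm_cre_le (fun a => (Y a)ᴴ) _).trans ?_
      simpa using hsq2
    · simp only [if_pos hlt, if_neg (lt_asymm hlt)]
      refine (norm_ann_le (fun a => (Y a)ᴴ) _).trans ?_
      simpa using hsq1
  have hg0 : ∀ t, 0 ≤ g t := fun t => by simp only [hg]; split <;> positivity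
  have hXn : ‖X‖ ≤ δ ^ numUp σ := by
    refine (ofFn_norm_prod_le (fun t => S t * U t) (fun t => g (σ.symm t) * g t) fun t =>
      (l2_opNorm_mul _ _).trans (mul_le_mul (hnS t) (hnU t) (norm_nonneg _) (hg0 _))).trans
      (le_of_eq ?_)
    rw [Finset.prod_mul_distrib, Equiv.prod_comp σ.symm g, ← Finset.prod_mul_distrib]
    simp only [hg, ite_mul, one_mul, mul_ite, mul_one]
    rw [Finset.prod_congr rfl (g := fun x => if x < σ x then δ else 1) fun x _ => by
      split <;> simp [Real.mul_self_sqrt hδ], Finset.prod_ite, Finset.prod_const,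
      Finset.prod_const_one, mul_one, numUp]
  rw [hcoef]
  refine (norm_sum_le_of_le (n := fun _ => δ ^ numUp σ) _ fun u _ =>
    (norm_entry_le X _ _).trans hXn).trans (le_of_eq ?_)
  simp

end Vale.Agent.P095.SC
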