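import Vale.Agent.P095.SC.Walk
import Vale.Agent.P095.SC.Pins

/-!
P095, comparison K2a: the colourings fixed by a permutation and by its shift (note C2 (6)).
-/

namespace Vale.Agent.P095.SC

open Equiv

lemma factorial_le_pow {q : ℕ} : ∀ c, c ≤ q → c.factorial ≤ q ^ (c - 1) := by
  intro c
  induction c with
  | zero => simp
  | succ c ih =>
    intro hc
    rw [Nat.factorial_succ, Nat.add_sub_cancel]
    rcases c with _ | c
    · simp
    · calc (c + 1 + 1) * (c + 1).factorial ≤ q * q ^ (c + 1 - 1) :=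
            Nat.mul_le_mul hc (ih (by omega))
        _ = q ^ (c + 1) := by rw [Nat.add_sub_cancel, pow_succ']

lemma card_match_le {ι : Type*} [Fintype ι] [DecidableEq ι] {q : ℕ} (P Q : Fin q → ι) :
    Nat.card {σ : Perm (Fin q) // ∀ t, P (σ t) = Q t}
      ≤ q ^ (q - (Finset.univ.image P).card) := by
  classical
  rcases isEmpty_or_nonempty {σ : Perm (Fin q) // ∀ t, P (σ t) = Q t} with h | ⟨⟨σ₀, hσ₀⟩⟩
  · simp
  have hinj : Nat.card {σ : Perm (Fin q) // ∀ t, P (σ t) = Q t}
      ≤ Nat.card {g : Perm (Fin q) // P ∘ g = P} :=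
    Nat.card_le_card_of_injective (fun σ => ⟨σ.1 * σ₀⁻¹, funext fun t => by
        rw [Function.comp_apply, Perm.mul_apply, σ.2, ← hσ₀]
        exact congrArg P (σ₀.apply_symm_apply t)⟩)
      fun σ τ h => Subtype.ext (mul_right_cancel (congrArg Subtype.val h))
  refine hinj.trans ?_
  rw [Nat.card_eq_fintype_card, DomMulAct.stabilizer_card]
  set c : ι → ℕ := fun x => Fintype.card {t // P t = x} with hc
  have hle : ∀ x, c x ≤ q := fun x => (Fintype.card_subtype_le _).trans_eq (Fintype.card_fin q)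
  calc ∏ x, (c x).factorial ≤ ∏ x, q ^ (c x - 1) :=
        Finset.prod_le_prod' fun x _ => factorial_le_pow _ (hle x)
    _ = q ^ ∑ x, (c x - 1) := Finset.prod_pow_eq_pow_sum _ _ _
    _ = q ^ (q - (Finset.univ.image P).card) := by
        congr 1
        have h1 : ∑ x, c x = q := by
          rw [hc, ← Fintype.card_sigma, Fintype.card_congr (Equiv.sigmaFiberEquiv P), Fintype.card_fin]
        have h2 : ∀ x, c x = (c x - 1) + if x ∈ Finset.univ.image P then 1 else 0 := fun x => by
          split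
          · next hx =>
            obtain ⟨t, -, rfl⟩ := Finset.mem_image.1 hx
            have : 0 < c (P t) := Fintype.card_pos_iff.2 ⟨⟨t, rfl⟩⟩
            omega
          · next hx =>
            have : c x = 0 := Fintype.card_eq_zero_iff.2
              ⟨fun t => hx (Finset.mem_image.2 ⟨t.1, Finset.mem_univ _, t.2⟩)⟩
            omega
        rw [Finset.sum_congr rfl fun x _ => h2 x, Finset.sum_add_distrib, Finset.sum_boole,
          Finset.filter_mem_eq_inter, Finset.univ_inter, Nat.cast_id] at h1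
        omega

/-- The weight of a letter. -/
noncomputable def letterWeight (q N : ℕ) : Letter q N → ℝ :=
  Sum.elim (fun _ => (Real.sqrt N)⁻¹)
    (Sum.elim (fun _ => Real.sqrt N) fun _ => Real.sqrt N / (2 * q + 1))

lemma letterWeight_pos {q N : ℕ} (hN : 0 < N) (x : Letter q N) : 0 < letterWeight q N x := by
  have : 0 < Real.sqrt N := Real.sqrt_pos.2 (by exact_mod_cast hN)
  rcases x with x | x | x <;> simp only [letterWeight, Sum.elim_inl, Sum.elim_inr] <;> positivity

lemma sum_letterWeight {q N : ℕ} (hN : 0 < N) :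
    ∑ x : Letter q N, letterWeight q N x = 3 * Real.sqrt N := by
  have hs : (Real.sqrt N) ≠ 0 := (Real.sqrt_pos.2 (by exact_mod_cast hN : (0 : ℝ) < N)).ne'
  simp [letterWeight, Fintype.sum_sum_type]
  field_simp
  rw [Real.sq_sqrt (Nat.cast_nonneg _)]
  ring

lemma weight_le {q N : ℕ} (hq : 0 < q) (hN : q * (2 * q + 1) ^ 2 ≤ N) [NeZero q]
    (a b : Fin q → Fin N) :
    (Nat.card {σ : Perm (Fin q) //
        ∀ t, (a (σ t), b (σ t)) = (a t, b (finRotate q t))} : ℝ)
      ≤ ∏ s, letterWeight q N (letterAt (walk a b) s) := by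
  classical
  have hN0 : 0 < N := lt_of_lt_of_le (by positivity) hN
  rcases isEmpty_or_nonempty {σ : Perm (Fin q) //
      ∀ t, (a (σ t), b (σ t)) = (a t, b (finRotate q t))} with h | ⟨⟨σ₀, hσ₀⟩⟩
  · rw [Nat.card_of_isEmpty, Nat.cast_zero]
    exact Finset.prod_nonneg fun s _ => (letterWeight_pos hN0 _).le
  have hσ : ∀ t, a (σ₀ t) = a t ∧ b (σ₀ t) = b (finRotate q t) := fun t => Prod.ext_iff.1 (hσ₀ t)
  set w := walk a b
  set n := (newSteps a b).card with hn
  set B := Finset.univ.filter fun s : Fin (2 * q) => ¬ NewStep w s.1 ∧ BackStep w s.1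
  set O := Finset.univ.filter fun s : Fin (2 * q) => ¬ NewStep w s.1 ∧ ¬ BackStep w s.1
  have hnB : n ≤ B.card := newSteps_le_back hσ
  have hne : n ≤ (Finset.univ.image fun t => (a t, b t)).card := newSteps_le_edges hσ
  have hpart : n + B.card + O.card = 2 * q := by
    simp only [hn, newSteps, B, O, Finset.card_filter, ← Finset.sum_add_distrib]
    rw [Finset.sum_congr rfl (g := fun _ => 1) fun s _ => ?_]
    · simp
    · by_cases h1 : NewStep w s.1 <;> by_cases h2 : BackStep w s.1 <;> simp_all [w]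
  have hnq : n ≤ q := by omega
  set r : ℝ := Real.sqrt N with hr
  have hr0 : 0 < r := Real.sqrt_pos.2 (by exact_mod_cast hN0)
  have hval : ∏ s, letterWeight q N (letterAt w s)
      = (r⁻¹) ^ n * r ^ B.card * (r / (2 * q + 1)) ^ O.card := by
    have e : ∀ s : Fin (2 * q), letterWeight q N (letterAt w s)
        = if NewStep w s.1 then r⁻¹ else if BackStep w s.1 then r else r / (2 * q + 1) := fun s => by
      simp only [letterAt]
      split
      · rfl
      · split <;> rfl
    simp only [e, Finset.prod_ite, Finset.prod_const, Finset.filter_filter]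
    rw [hn, newSteps, mul_assoc]
  have hm := card_match_le (fun t => (a t, b t)) fun t => (a t, b (finRotate q t))
  calc (Nat.card {σ : Perm (Fin q) //
        ∀ t, (a (σ t), b (σ t)) = (a t, b (finRotate q t))} : ℝ)
      ≤ ((q ^ (q - (Finset.univ.image fun t => (a t, b t)).card) : ℕ) : ℝ) := by exact_mod_cast hm
    _ ≤ (q : ℝ) ^ (q - n) := by
        push_cast
        exact pow_le_pow_right₀ (by exact_mod_cast hq) (Nat.sub_le_sub_left hne _)
    _ ≤ (r⁻¹) ^ n * r ^ B.card * (r / (2 * q + 1)) ^ O.card := by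
        have hNq : (q : ℝ) * (2 * q + 1) ^ 2 ≤ r ^ 2 := by
          rw [hr, Real.sq_sqrt (Nat.cast_nonneg _)]; exact_mod_cast hN
        have h1 : (1 : ℝ) ≤ 2 * q + 1 := le_add_of_nonneg_left (by positivity)
        have hexp : (r⁻¹) ^ n * r ^ B.card * (r / (2 * q + 1)) ^ O.card
            = (r ^ 2) ^ (q - n) / (2 * q + 1 : ℝ) ^ O.card := by
          have h2 : r ^ B.card * r ^ O.card = r ^ n * (r ^ 2) ^ (q - n) := by
            rw [← pow_add, ← pow_mul, ← pow_add]; congr 1; omega
          rw [div_pow, inv_pow]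
          field_simp
          linarith [h2]
        rw [hexp, le_div_iff₀ (by positivity)]
        calc (q : ℝ) ^ (q - n) * (2 * q + 1 : ℝ) ^ O.card
            ≤ (q : ℝ) ^ (q - n) * (2 * q + 1 : ℝ) ^ (2 * (q - n)) := by
              gcongr <;> omega
          _ = ((q : ℝ) * (2 * q + 1) ^ 2) ^ (q - n) := by rw [mul_pow, pow_mul]
          _ ≤ _ := by gcongr
    _ = _ := hval.symm

/-- K2a. -/
theorem countPin : CountPin := by
  intro q N hq hN
  classical
  have : NeZero q := ⟨hq.ne'⟩
  have hN0 : 0 < N := lt_of_lt_of_le (by positivity) hN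
  let e : {t : Perm (Fin q) × (Fin q → Fin N) × (Fin q → Fin N) //
      (∀ s, t.2.1 (t.1 s) = t.2.1 s) ∧ ∀ s, t.2.2 (finRotate q s) = t.2.2 (t.1 s)}
      ≃ Σ p : (Fin q → Fin N) × (Fin q → Fin N),
        {σ : Perm (Fin q) // ∀ t, (p.1 (σ t), p.2 (σ t)) = (p.1 t, p.2 (finRotate q t))} :=
    { toFun := fun t => ⟨t.1.2, t.1.1, fun s => Prod.ext (t.2.1 s) (t.2.2 s).symm⟩
      invFun := fun x => ⟨(x.2.1, x.1), fun s => congrArg Prod.fst (x.2.2 s),
        fun s => (congrArg Prod.snd (x.2.2 s)).symm⟩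
      left_inv := fun t => rfl
      right_inv := fun x => rfl }
  rw [Nat.card_congr e, Nat.card_sigma]
  let code : (Fin q → Fin N) × (Fin q → Fin N) → Fin N × (Fin (2 * q) → Letter q N) :=
    fun p => (p.2 0, fun s => letterAt (walk p.1 p.2) s)
  have hcode : Function.Injective code := fun p p' h => by
    obtain ⟨h1, h2⟩ := Prod.mk.inj h
    obtain ⟨ha, hb⟩ := colours_eq_of_letters h1 (congrFun h2)
    exact Prod.ext ha hb
  let W : Fin N × (Fin (2 * q) → Letter q N) → ℝ := fun c => ∏ s, letterWeight q N (c.2 s)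
  have h1 : ∑ p : (Fin q → Fin N) × (Fin q → Fin N),
      (Nat.card {σ : Perm (Fin q) //
        ∀ t, (p.1 (σ t), p.2 (σ t)) = (p.1 t, p.2 (finRotate q t))} : ℝ)
      ≤ (N : ℝ) * (3 * Real.sqrt N) ^ (2 * q) := by
    refine (Finset.sum_le_sum fun p _ => weight_le hq hN p.1 p.2).trans ?_
    show ∑ p, W (code p) ≤ _
    rw [← Finset.sum_image hcode.injOn]
    refine (Finset.sum_le_univ_sum_of_nonneg fun c =>
      Finset.prod_nonneg fun s _ => (letterWeight_pos hN0 _).le).trans (le_of_eq ?_)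
    simp only [W, Fintype.sum_prod_type, Finset.sum_const, Finset.card_univ, Fintype.card_fin,
      nsmul_eq_mul]
    rw [← Fintype.prod_sum fun (_ : Fin (2 * q)) => letterWeight q N]
    simp [sum_letterWeight hN0]
  have h2 : ((N : ℝ) * (3 * Real.sqrt N) ^ (2 * q)) = ((9 ^ q * N ^ (q + 1) : ℕ) : ℝ) := by
    rw [mul_pow, pow_mul, pow_mul, Real.sq_sqrt (Nat.cast_nonneg _)]
    push_cast
    ring
  rw [h2] at h1
  refine le_trans (Nat.cast_le.1 (le_trans (le_of_eq (by push_cast; rfl)) h1)) ?_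
  rw [mul_assoc]
  exact Nat.le_mul_of_pos_left _ (Nat.succ_pos q)

end Vale.Agent.P095.SC
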