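import Vale.Agent.P095.SN.Defs

/-!
P095, comparison from traces (notes/P095/helper9_comparison.md): definitions.
-/

namespace Vale.Agent.P095.SC

open Vale.Agent.P095.SN

variable {A : Type*} [CStarAlgebra A]

/-- The first element is approximately a sum of squares whose reversed sum is below the second,
up to any margin. -/
def Below (a b : A) : Prop :=
  ∀ ε : ℝ, 0 < ε → ∃ (k : ℕ) (y : Fin k → A), ‖(∑ i, star (y i) * y i) - a‖ ≤ ε ∧
    IsPos (b + algebraMap ℝ A ε - ∑ i, y i * star (y i))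

/-- The Gram array of a rectangular array over the algebra. -/
def gram {r n : ℕ} (S : Fin r → Fin n → A) : CStarMatrix (Fin n) (Fin n) A :=
  CStarMatrix.ofMatrix (Matrix.of fun p q => ∑ i, star (S i p) * S i q)

/-- The diagonal array with one element along the diagonal. -/
def diagConst (n : ℕ) (f : A) : CStarMatrix (Fin n) (Fin n) A :=
  CStarMatrix.ofMatrix (Matrix.of fun p q => if p = q then f else 0)

/-- Central pieces: half as many orthogonal translates of one square as the number of pieces needed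
to cover the unit, uniformly bounded and as central as wanted. -/
def HasPieces (A : Type*) [CStarAlgebra A] : Prop :=
  ∀ j : ℕ, ∃ C : ℝ, ∀ (S : Finset A) (ε : ℝ), 0 < ε →
    ∃ (d : A) (u : Fin (2 ^ j) → A) (w : Fin (2 ^ (j + 1)) → A),
      ‖d‖ ≤ C ∧ (∀ i, ‖u i‖ ≤ C) ∧ (∀ i, ‖w i‖ ≤ C) ∧
      (∀ x ∈ S, ‖d * x - x * d‖ ≤ ε ∧ (∀ i, ‖u i * x - x * u i‖ ≤ ε) ∧
        ∀ i, ‖w i * x - x * w i‖ ≤ ε) ∧
      (∀ i i', ‖star (u i) * u i' - (if i = i' then star d * d else 0)‖ ≤ ε) ∧
      ‖(∑ i, star (w i) * (star d * d) * w i) - 1‖ ≤ ε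

end Vale.Agent.P095.SC
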