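import Mathlib

/-!
P095, comparison: complex Gaussian moments and the centred Wick formula (note C2 (1)).
-/

namespace Vale.Agent.P095.SC

open MeasureTheory Equiv
open scoped ComplexConjugate

/-- The exponential weight on the positive half line. -/
noncomputable def expWeight : Measure ℝ :=
  (volume.restrict (Set.Ioi 0)).withDensity fun x => ENNReal.ofReal (Real.exp (-x))

lemma expWeight_moment (a : ℕ) :
    Integrable (fun s : ℝ => s ^ a) expWeight ∧ ∫ s, s ^ a ∂expWeight = a.factorial := by
  have hpos : (0 : ℝ) < a + 1 := by positivity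
  have hint := Real.GammaIntegral_convergent hpos
  simp only [add_sub_cancel_right, Real.rpow_natCast] at hint
  constructor
  · rw [expWeight, integrable_withDensity_iff (by fun_prop) (by simp)]
    refine hint.congr (Filter.Eventually.of_forall fun x => ?_)
    simp [ENNReal.toReal_ofReal (Real.exp_pos _).le, mul_comm]
  · rw [← Real.Gamma_nat_eq_factorial, Real.Gamma_eq_integral hpos, expWeight,
      integral_withDensity_eq_integral_toReal_smul (by fun_prop) (by simp)]
    refine integral_congr_ae (Filter.Eventually.of_forall fun x => ?_)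
    simp [ENNReal.toReal_ofReal (Real.exp_pos _).le, Real.rpow_natCast]

instance : IsProbabilityMeasure expWeight := by
  have h := expWeight_moment 0
  simp only [pow_zero, integral_const, smul_eq_mul, mul_one, Nat.factorial_zero, Nat.cast_one]
    at h
  exact ⟨ENNReal.toReal_eq_one_iff _ |>.1 h.2⟩

/-- A standard root of unity. -/
noncomputable def rootOf (L : ℕ) : ℂ := Complex.exp (2 * Real.pi * Complex.I / L)

/-- A complex variable with the Gaussian moments of degree below the given number. -/
noncomputable def gauss (L : ℕ) : Measure ℂ :=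
  ∑ l : Fin L, ((L : ENNReal)⁻¹) •
    expWeight.map fun s => (Real.sqrt s : ℂ) * rootOf L ^ (l : ℕ)

instance (L : ℕ) [NeZero L] : IsProbabilityMeasure (gauss L) := by
  constructor
  have h : ∀ l : Fin L, (expWeight.map fun s => (Real.sqrt s : ℂ) * rootOf L ^ (l : ℕ)) Set.univ
      = 1 := fun l => by
    rw [Measure.map_apply (by fun_prop) MeasurableSet.univ, Set.preimage_univ, measure_univ]
  simp [gauss, h, ENNReal.mul_inv_cancel (NeZero.ne (L : ENNReal)) (ENNReal.natCast_ne_top L)]

lemma gauss_moment {L : ℕ} [NeZero L] {a b : ℕ} (ha : a < L) (hb : b < L) :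
    Integrable (fun z : ℂ => z ^ a * conj z ^ b) (gauss L) ∧
      ∫ z, z ^ a * conj z ^ b ∂gauss L = if a = b then (a.factorial : ℂ) else 0 := by
  have hL : L ≠ 0 := NeZero.ne L
  have hω : IsPrimitiveRoot (rootOf L) L := Complex.isPrimitiveRoot_exp L hL
  have hω1 : rootOf L * conj (rootOf L) = 1 := by
    rw [Complex.mul_conj']
    simp [Complex.norm_eq_one_of_pow_eq_one hω.pow_eq_one hL]
  set c : ℂ := rootOf L ^ a * conj (rootOf L) ^ b with hc
  have hmap : ∀ (l : Fin L) (s : ℝ),
      ((Real.sqrt s : ℂ) * rootOf L ^ (l : ℕ)) ^ a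
        * conj ((Real.sqrt s : ℂ) * rootOf L ^ (l : ℕ)) ^ b
      = ((Real.sqrt s ^ (a + b) : ℝ) : ℂ) * c ^ (l : ℕ) := fun l s => by
    rw [map_mul, map_pow, Complex.conj_ofReal, hc]
    push_cast
    ring
  have hint0 : Integrable (fun s : ℝ => Real.sqrt s ^ (a + b)) expWeight := by
    refine Integrable.mono' ((expWeight_moment (a + b)).1.add (integrable_const (1 : ℝ)))
      (by fun_prop) ?_
    have hae : ∀ᵐ s ∂expWeight, 0 < s := by
      refine (withDensity_absolutelyContinuous _ _).ae_le ?_
      exact ae_restrict_mem measurableSet_Ioi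
    filter_upwards [hae] with s hs
    rw [Real.norm_eq_abs, abs_of_nonneg (by positivity)]
    rcases le_total (Real.sqrt s) 1 with h | h
    · exact (pow_le_one₀ (Real.sqrt_nonneg _) h).trans (le_add_of_nonneg_left (pow_nonneg hs.le _))
    · refine le_trans ?_ (le_add_of_nonneg_right zero_le_one)
      exact pow_le_pow_left₀ (Real.sqrt_nonneg _) ((Real.sqrt_le_left hs.le).2 (by
        nlinarith [Real.one_le_sqrt.1 h])) _
  have hint1 : Integrable (fun s : ℝ => ((Real.sqrt s ^ (a + b) : ℝ) : ℂ)) expWeight := hint0.ofReal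
  have hint : ∀ l : Fin L, Integrable (fun z : ℂ => z ^ a * conj z ^ b)
      (((L : ENNReal)⁻¹) • expWeight.map fun s => (Real.sqrt s : ℂ) * rootOf L ^ (l : ℕ)) := by
    intro l
    refine Integrable.smul_measure ?_ (ENNReal.inv_ne_top.2 (NeZero.ne _))
    rw [integrable_map_measure (by fun_prop) (by fun_prop)]
    simp only [Function.comp_def, hmap]
    exact hint1.mul_const _
  refine ⟨integrable_finsetSum_measure.2 fun l _ => hint l, ?_⟩
  rw [gauss, integral_finsetSum_measure fun l _ => hint l]
  have hval : ∀ l : Fin L, ∫ z, z ^ a * conj z ^ b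
      ∂(((L : ENNReal)⁻¹) • expWeight.map fun s => (Real.sqrt s : ℂ) * rootOf L ^ (l : ℕ))
      = (L : ℂ)⁻¹ * ((∫ s, ((Real.sqrt s ^ (a + b) : ℝ) : ℂ) ∂expWeight) * c ^ (l : ℕ)) := by
    intro l
    rw [integral_smul_measure, integral_map (by fun_prop) (by fun_prop)]
    simp only [hmap, integral_mul_const, ENNReal.toReal_inv, ENNReal.toReal_natCast]
    rw [Complex.real_smul]
    push_cast
    ring
  simp only [hval, ← Finset.mul_sum]
  split
  · next hab =>
    subst hab
    have hc1 : c = 1 := by rw [hc, ← mul_pow, hω1, one_pow]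
    have hs : ∫ s, Real.sqrt s ^ (a + a) ∂expWeight = a.factorial := by
      rw [← (expWeight_moment a).2]
      refine integral_congr_ae ?_
      have hae : ∀ᵐ s ∂expWeight, 0 < s :=
        (withDensity_absolutelyContinuous _ _).ae_le (ae_restrict_mem measurableSet_Ioi)
      filter_upwards [hae] with s hs
      rw [pow_add, ← mul_pow, Real.mul_self_sqrt hs.le]
    rw [integral_complex_ofReal, hs]
    simp [hc1, Finset.card_univ]
    field_simp
  · next hab =>
    have hcL : c ^ L = 1 := by
      rw [hc, mul_pow, ← pow_mul, ← pow_mul, mul_comm a L, mul_comm b L, pow_mul, pow_mul,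
        ← map_pow, hω.pow_eq_one, map_one, one_pow, one_pow, one_mul]
    have hcne : c ≠ 1 := by
      intro h
      apply hab
      refine hω.pow_inj ha hb ?_
      calc rootOf L ^ a = rootOf L ^ a * (rootOf L * conj (rootOf L)) ^ b := by
            rw [hω1, one_pow, mul_one]
        _ = c * rootOf L ^ b := by rw [hc, mul_pow]; ring
        _ = rootOf L ^ b := by rw [h, one_mul]
    rw [Fin.sum_univ_eq_sum_range (fun l => c ^ l), geom_sum_eq hcne, hcL]
    simp

lemma prod_comp_eq_prod_pow {ι τ M : Type*} [Fintype ι] [Fintype τ] [DecidableEq ι]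
    [CommMonoid M] (P : τ → ι) (h : ι → M) :
    ∏ t, h (P t) = ∏ x, h x ^ Nat.card {t // P t = x} := by
  classical
  rw [← Finset.prod_fiberwise' Finset.univ P h]
  refine Finset.prod_congr rfl fun x _ => ?_
  rw [Finset.prod_const]
  congr 1
  rw [Nat.card_eq_fintype_card, Fintype.card_subtype]

/-- The matchings of two labellings. -/
lemma card_matchings {ι τ : Type*} [Fintype ι] [Fintype τ] [DecidableEq ι] (P Q : τ → ι) :
    (Nat.card {σ : Perm τ // ∀ t, P (σ t) = Q t} : ℂ)
      = ∏ x, if Nat.card {t // Q t = x} = Nat.card {t // P t = x}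
          then ((Nat.card {t // Q t = x}).factorial : ℂ) else 0 := by
  classical
  by_cases h : ∀ x, Nat.card {t // Q t = x} = Nat.card {t // P t = x}
  · rw [Finset.prod_congr rfl fun x _ => if_pos (h x)]
    set σ₀ : Perm τ := Equiv.ofFiberEquiv fun x =>
      Fintype.equivOfCardEq (by simpa [Nat.card_eq_fintype_card] using h x) with hσ₀
    have hσ : ∀ t, P (σ₀ t) = Q t := Equiv.ofFiberEquiv_map _
    let e : {σ : Perm τ // ∀ t, P (σ t) = Q t} ≃ {g : Perm τ // Q ∘ g = Q} :=
      { toFun := fun σ => ⟨σ₀⁻¹ * σ.1, funext fun t => by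
          rw [Function.comp_apply, Perm.mul_apply, ← hσ]
          exact (congrArg P (σ₀.apply_symm_apply _)).trans (σ.2 t)⟩
        invFun := fun g => ⟨σ₀ * g.1, fun t => by
          rw [Perm.mul_apply, hσ]; exact congrFun g.2 t⟩
        left_inv := fun σ => Subtype.ext (mul_inv_cancel_left _ _)
        right_inv := fun g => Subtype.ext (inv_mul_cancel_left _ _) }
    rw [Nat.card_congr e, Nat.card_eq_fintype_card, DomMulAct.stabilizer_card, Nat.cast_prod]
    simp [Nat.card_eq_fintype_card]
  · obtain ⟨x, hx⟩ := not_forall.1 h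
    rw [Finset.prod_eq_zero (Finset.mem_univ x) (if_neg hx), Nat.cast_eq_zero, Nat.card_eq_zero]
    exact Or.inl ⟨fun σ => hx (Nat.card_congr (σ.1.subtypeEquiv fun t => by rw [σ.2 t]))⟩

/-- Wick's formula. -/
lemma wick_plain {ι τ : Type*} [Fintype ι] [Fintype τ] [DecidableEq ι] {L : ℕ} [NeZero L]
    (hτ : Fintype.card τ < L) (P Q : τ → ι) :
    Integrable (fun g : ι → ℂ => ∏ t, conj (g (P t)) * g (Q t)) (Measure.pi fun _ => gauss L) ∧
      ∫ g, ∏ t, conj (g (P t)) * g (Q t) ∂Measure.pi (fun _ : ι => gauss L)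
        = Nat.card {σ : Perm τ // ∀ t, P (σ t) = Q t} := by
  classical
  have e : (fun g : ι → ℂ => ∏ t, conj (g (P t)) * g (Q t)) = fun g => ∏ x,
      (fun z : ℂ => z ^ Nat.card {t // Q t = x} * conj z ^ Nat.card {t // P t = x}) (g x) := by
    funext g
    rw [Finset.prod_mul_distrib, prod_comp_eq_prod_pow P fun x => conj (g x),
      prod_comp_eq_prod_pow Q g, ← Finset.prod_mul_distrib]
    exact Finset.prod_congr rfl fun x _ => mul_comm _ _
  have hlt : ∀ (R : τ → ι) (x : ι), Nat.card {t // R t = x} < L := fun R x => by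
    refine lt_of_le_of_lt ?_ hτ
    rw [Nat.card_eq_fintype_card]
    exact Fintype.card_subtype_le _
  refine ⟨?_, ?_⟩
  · rw [e]
    exact Integrable.fintype_prod_dep fun x => (gauss_moment (hlt Q x) (hlt P x)).1
  · rw [e, integral_fintype_prod_eq_prod (fun x z => z ^ Nat.card {t // Q t = x}
      * conj z ^ Nat.card {t // P t = x}), card_matchings]
    exact Finset.prod_congr rfl fun x _ => (gauss_moment (hlt Q x) (hlt P x)).2

/-- The centred Wick formula: only permutations without fixed points survive. -/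
theorem wick {ι : Type*} [Fintype ι] [DecidableEq ι] {q L : ℕ} [NeZero L] (hq : q < L)
    (P Q : Fin q → ι) :
    Integrable (fun g : ι → ℂ => ∏ t, (conj (g (P t)) * g (Q t) - if P t = Q t then 1 else 0))
        (Measure.pi fun _ => gauss L) ∧
      ∫ g, ∏ t, (conj (g (P t)) * g (Q t) - if P t = Q t then 1 else 0)
          ∂Measure.pi (fun _ : ι => gauss L)
        = Nat.card {σ : Perm (Fin q) // (∀ t, σ t ≠ t) ∧ ∀ t, P (σ t) = Q t} := by
  classical
  set μ := Measure.pi fun _ : ι => gauss L
  have key : ∀ T : Finset (Fin q),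
      Integrable (fun g : ι → ℂ => ∏ t ∈ Finset.univ \ T, conj (g (P t)) * g (Q t)) μ ∧
      (∫ g, ∏ t ∈ Finset.univ \ T, conj (g (P t)) * g (Q t) ∂μ)
        * ∏ t ∈ T, (if P t = Q t then (1 : ℂ) else 0)
      = Nat.card {σ : Perm (Fin q) // (∀ t ∈ T, σ t = t) ∧ ∀ t, P (σ t) = Q t} := by
    intro T
    have hsub : ∀ g : ι → ℂ, ∏ t ∈ Finset.univ \ T, conj (g (P t)) * g (Q t)
        = ∏ t : {t : Fin q // t ∉ T}, conj (g (P t)) * g (Q t) := fun g =>
      Finset.prod_subtype _ (fun t => by simp) _
    have hcard : Fintype.card {t : Fin q // t ∉ T} < L :=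
      lt_of_le_of_lt (Fintype.card_subtype_le _) (by simpa using hq)
    obtain ⟨h1, h2⟩ := wick_plain hcard (fun t : {t : Fin q // t ∉ T} => P t) (fun t => Q t)
    refine ⟨by simpa only [hsub] using h1, ?_⟩
    simp only [hsub]
    rw [h2, Finset.prod_boole]
    split
    · next hT =>
      rw [mul_one, Nat.cast_inj]
      refine Nat.card_congr (((Perm.subtypeEquivSubtypePerm fun t => t ∉ T).subtypeEquiv
        (q := fun f => ∀ t, P (f.1 t) = Q t) fun σ => ?_).trans
        ((Equiv.subtypeSubtypeEquivSubtypeInter (fun f : Perm (Fin q) => ∀ t, ¬ t ∉ T → f t = t)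
          fun f => ∀ t, P (f t) = Q t).trans (Equiv.subtypeEquivRight fun f => by simp)))
      refine ⟨fun h t => ?_, fun h t => ?_⟩
      · by_cases ht : t ∈ T
        · rw [Perm.subtypeEquivSubtypePerm_apply_of_not_mem (p := fun t => t ∉ T) _ (not_not.2 ht)]
          exact hT t ht
        · rw [Perm.subtypeEquivSubtypePerm_apply_of_mem (p := fun t => t ∉ T) _ ht]
          exact h ⟨t, ht⟩
      · have := h t.1
        rwa [Perm.subtypeEquivSubtypePerm_apply_of_mem (p := fun t => t ∉ T) _ t.2] at this
    · next hT =>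
      rw [mul_zero, eq_comm, Nat.cast_eq_zero, Nat.card_eq_zero]
      refine Or.inl ⟨fun σ => hT fun t ht => ?_⟩
      rw [← σ.2.2 t, σ.2.1 t ht]
  simp only [Finset.prod_sub]
  refine ⟨integrable_finsetSum _ fun T _ => ((key T).1.const_mul _).mul_const _, ?_⟩
  rw [integral_finsetSum _ fun T _ => ((key T).1.const_mul _).mul_const _]
  simp only [integral_mul_const, integral_const_mul, mul_assoc, (key _).2]
  have hcast : ∀ p : Perm (Fin q) → Prop, (Nat.card {σ // p σ} : ℂ)
      = ∑ σ : Perm (Fin q), if p σ then 1 else 0 := fun p => by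
    rw [Nat.card_eq_fintype_card, Fintype.card_subtype, Finset.sum_boole]
  simp only [hcast, Finset.mul_sum, mul_ite, mul_one, mul_zero]
  rw [Finset.sum_comm]
  refine Finset.sum_congr rfl fun σ _ => ?_
  set Fx := Finset.univ.filter fun t => σ t = t with hFx
  by_cases hσ : ∀ t, P (σ t) = Q t
  · have h0 : (∀ t, σ t ≠ t) ↔ Fx = ∅ := by simp [hFx, Finset.filter_eq_empty_iff]
    simp only [hσ, and_true, h0, implies_true]
    rw [← Finset.sum_filter, show (Finset.univ.powerset.filter fun T => ∀ t ∈ T, σ t = t)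
      = Fx.powerset by ext T; simp [hFx, Finset.subset_iff]]
    have := congrArg (Int.cast (R := ℂ)) (Finset.sum_powerset_neg_one_pow_card (x := Fx))
    push_cast at this
    rw [this]
  · simp [hσ]

end Vale.Agent.P095.SC
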