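import Vale.Agent.P095.SC.Coef
import Vale.Agent.P095.SC.Wick
import Vale.Agent.P095.SC.Pins

/-!
P095, comparison: the expected trace of a power of the random defect (note C2 (2), (5)).
-/

namespace Vale.Agent.P095.SC

open Matrix Equiv MeasureTheory
open scoped Matrix.Norms.L2Operator Kronecker ComplexConjugate

variable {k M m n₁ n₂ q : ℕ}

/-- The coefficient array of one label. -/
noncomputable def randArr (g : Fin k × Fin n₁ × Fin n₂ → ℂ) (i : Fin k) :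
    Matrix (Fin n₁) (Fin n₂) ℂ :=
  (((Real.sqrt n₁)⁻¹ : ℝ) : ℂ) • Matrix.of fun r p => g (i, r, p)

/-- The defect of orthogonality. -/
noncomputable def defect (Y : Fin k → Matrix (Fin M) (Fin m) ℂ)
    (g : Fin k × Fin n₁ × Fin n₂ → ℂ) : Matrix (Fin n₂ × Fin m) (Fin n₂ × Fin m) ℂ :=
  (∑ i, ∑ j, ((randArr g i)ᴴ * randArr g j) ⊗ₖ ((Y i)ᴴ * Y j))
    - (1 : Matrix (Fin n₂) (Fin n₂) ℂ) ⊗ₖ ∑ i, (Y i)ᴴ * Y i

/-- The indices of the expansion of the defect. -/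
abbrev Idx (k n₁ n₂ : ℕ) : Type := Fin k × Fin k × Fin n₁ × Fin n₂ × Fin n₂

/-- One centred product. -/
noncomputable def centred (g : Fin k × Fin n₁ × Fin n₂ → ℂ) (P Q : Fin k × Fin n₁ × Fin n₂) : ℂ :=
  conj (g P) * g Q - if P = Q then 1 else 0

lemma defect_eq (hn : 0 < n₁) (Y : Fin k → Matrix (Fin M) (Fin m) ℂ)
    (g : Fin k × Fin n₁ × Fin n₂ → ℂ) :
    defect Y g = ∑ x : Idx k n₁ n₂,
      ((n₁ : ℂ)⁻¹ * centred g (x.1, x.2.2.1, x.2.2.2.1) (x.2.1, x.2.2.1, x.2.2.2.2)) •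
        (single x.2.2.2.1 x.2.2.2.2 (1 : ℂ) ⊗ₖ ((Y x.1)ᴴ * Y x.2.1)) := by
  ext ⟨p, u⟩ ⟨p', u'⟩
  have hs : (((Real.sqrt n₁)⁻¹ : ℝ) : ℂ) * (((Real.sqrt n₁)⁻¹ : ℝ) : ℂ) = (n₁ : ℂ)⁻¹ := by
    rw [← Complex.ofReal_mul, ← mul_inv, Real.mul_self_sqrt (Nat.cast_nonneg _)]
    simp
  have hv : ∀ i j, ((randArr g i)ᴴ * randArr g j) p p'
      = ∑ r, (n₁ : ℂ)⁻¹ * (conj (g (i, r, p)) * g (j, r, p')) := fun i j => by
    simp only [randArr, Matrix.mul_apply, conjTranspose_apply, Matrix.smul_apply, Matrix.of_apply,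
      smul_eq_mul, Complex.star_def, map_mul, Complex.conj_ofReal, ← hs]
    exact Finset.sum_congr rfl fun r _ => by ring
  have hdiag : ∀ i, ((1 : Matrix (Fin n₂) (Fin n₂) ℂ) p p') * ((Y i)ᴴ * Y i) u u'
      = ∑ j, ∑ r : Fin n₁, (n₁ : ℂ)⁻¹ *
          ((if (i, r, p) = (j, r, p') then (1 : ℂ) else 0) * ((Y i)ᴴ * Y j) u u') := fun i => by
    rw [Finset.sum_eq_single i]
    · rw [Matrix.one_apply]
      split
      · next h =>
        subst h
        simp [hn.ne']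
      · next h => simp [h]
    · intro j _ hj
      simp [Ne.symm hj]
    · simp
  simp only [defect, Matrix.sub_apply, Matrix.sum_apply, kroneckerMap_apply, Matrix.smul_apply,
    smul_eq_mul, centred, Fintype.sum_prod_type, single_apply, ite_and, ite_mul, one_mul, zero_mul,
    mul_ite, mul_zero, Finset.mul_sum, hdiag, hv,
    Finset.sum_mul, ← Finset.sum_sub_distrib]
  refine Finset.sum_congr rfl fun i _ => Finset.sum_congr rfl fun j _ =>
    Finset.sum_congr rfl fun r _ => ?_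
  rw [Finset.sum_eq_single p (fun x _ hx => by simp [hx]) (by simp),
    Finset.sum_eq_single p' (fun x _ hx => by simp [hx]) (by simp)]
  simp only [if_true]
  split <;> ring

lemma ofFn_prod_smul {R : Type*} [Ring R] [Algebra ℂ R] : ∀ {q : ℕ} (s : Fin q → ℂ) (x : Fin q → R),
    (List.ofFn fun t => s t • x t).prod = (∏ t, s t) • (List.ofFn x).prod := by
  intro q
  induction q with
  | zero => intro s x; simp
  | succ q ih =>
    intro s x
    simp only [List.ofFn_succ, List.prod_cons, ih, Fin.prod_univ_succ, smul_mul_smul_comm]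

lemma chain_prod {ι : Type*} [Fintype ι] [DecidableEq ι] : ∀ {n : ℕ} (a b : Fin (n + 1) → ι),
    (List.ofFn fun t => single (a t) (b t) (1 : ℂ)).prod
      = if ∀ t : Fin n, b t.castSucc = a t.succ then single (a 0) (b (Fin.last n)) 1 else 0 := by
  intro n
  induction n with
  | zero =>
    intro a b
    rw [if_pos fun t => t.elim0]
    simp
  | succ n ih =>
    intro a b
    rw [List.ofFn_succ, List.prod_cons, ih (fun t => a t.succ) fun t => b t.succ]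
    by_cases h0 : b 0 = a 1
    · by_cases h : ∀ t : Fin n, b t.castSucc.succ = a t.succ.succ
      · rw [if_pos h, if_pos]
        · rw [h0, Fin.succ_zero_eq_one, single_mul_single_same, mul_one, Fin.succ_last]
        · intro t
          cases t using Fin.cases with
          | zero => exact h0
          | succ t => simpa using h t
      · rw [if_neg h, if_neg, mul_zero]
        exact fun H => h fun t => by simpa using H t.succ
    · rw [if_neg (c := ∀ t : Fin (n + 1), b t.castSucc = a t.succ) fun H => h0 (by simpa using H 0)]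
      split
      · exact single_mul_single_of_ne _ _ _ _ h0 _
      · exact mul_zero _

lemma trace_chain {ι : Type*} [Fintype ι] [DecidableEq ι] (hq : 0 < q) (a b : Fin q → ι) :
    (List.ofFn fun t => single (a t) (b t) (1 : ℂ)).prod.trace
      = if ∀ t, b t = a (finRotate q t) then 1 else 0 := by
  obtain ⟨n, rfl⟩ := Nat.exists_eq_succ_of_ne_zero hq.ne'
  rw [chain_prod]
  have hiff : (∀ t, b t = a (finRotate (n + 1) t))
      ↔ (∀ t : Fin n, b t.castSucc = a t.succ) ∧ b (Fin.last n) = a 0 := by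
    rw [Fin.forall_fin_succ']
    simp
  by_cases h : ∀ t : Fin n, b t.castSucc = a t.succ
  · rw [if_pos h]
    by_cases h' : b (Fin.last n) = a 0
    · rw [if_pos (hiff.2 ⟨h, h'⟩), h', trace_single_eq_same]
    · rw [if_neg fun H => h' (hiff.1 H).2, trace_single_eq_of_ne _ _ _ (Ne.symm h')]
  · rw [if_neg h, if_neg fun H => h (hiff.1 H).1, trace_zero]

lemma shift_iff {α : Type*} (σ : Perm (Fin q)) (p : Fin q → α) :
    (∀ s, p (shiftPerm σ s) = p s) ↔ ∀ t, p (σ t) = p (finRotate q t) := by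
  refine ⟨fun h t => ?_, fun h s => ?_⟩
  · have := h (finRotate q t)
    rwa [shiftPerm, Perm.mul_apply, Perm.inv_def, Equiv.symm_apply_apply] at this
  · rw [shiftPerm, Perm.mul_apply, Perm.inv_def, h, Equiv.apply_symm_apply]

/-- The coefficient attached to a choice of indices. -/
noncomputable def chainWeight (Y : Fin k → Matrix (Fin M) (Fin m) ℂ)
    (c : Fin q → Idx k n₁ n₂) : ℂ :=
  (if ∀ t, (c t).2.2.2.2 = (c (finRotate q t)).2.2.2.1 then 1 else 0)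
    * (List.ofFn fun t => (Y (c t).1)ᴴ * Y (c t).2.1).prod.trace

/-- The starred labels. -/
def starIdx (c : Fin q → Idx k n₁ n₂) (t : Fin q) : Fin k × Fin n₁ × Fin n₂ :=
  ((c t).1, (c t).2.2.1, (c t).2.2.2.1)

/-- The unstarred labels. -/
def plainIdx (c : Fin q → Idx k n₁ n₂) (t : Fin q) : Fin k × Fin n₁ × Fin n₂ :=
  ((c t).2.1, (c t).2.2.1, (c t).2.2.2.2)

lemma trace_defect_pow (hn : 0 < n₁) (hq : 0 < q) (Y : Fin k → Matrix (Fin M) (Fin m) ℂ)
    (g : Fin k × Fin n₁ × Fin n₂ → ℂ) :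
    (defect Y g ^ q).trace = ((n₁ : ℂ) ^ q)⁻¹ *
      ∑ c : Fin q → Idx k n₁ n₂,
        (∏ t, centred g (starIdx c t) (plainIdx c t)) * chainWeight Y c := by
  rw [← List.prod_replicate, ← List.ofFn_const, defect_eq hn]
  simp only [ofFn_prod_sum, trace_sum, Finset.mul_sum, ofFn_prod_smul, trace_smul,
    ofFn_prod_kron, trace_kronecker, trace_chain hq, smul_eq_mul, Finset.prod_mul_distrib,
    Finset.prod_const, Finset.card_univ, Fintype.card_fin, starIdx, plainIdx, chainWeight, inv_pow]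
  exact Finset.sum_congr rfl fun c _ => by ring

lemma sum_matched (Y : Fin k → Matrix (Fin M) (Fin m) ℂ) (σ : Perm (Fin q)) :
    ∑ c : Fin q → Idx k n₁ n₂,
        (if ∀ t, starIdx c (σ t) = plainIdx c t then chainWeight Y c else 0)
      = (n₁ : ℂ) ^ numCyc σ * (n₂ : ℂ) ^ numCyc (shiftPerm σ) * coefSum Y σ := by
  classical
  simp only [chainWeight, ite_mul, one_mul, zero_mul, ← ite_and]
  rw [← Finset.sum_filter]
  set Rs := Finset.univ.filter fun r : Fin q → Fin n₁ => ∀ s, r (σ s) = r s with hRs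
  set Ps := Finset.univ.filter fun p : Fin q → Fin n₂ => ∀ s, p (shiftPerm σ s) = p s with hPs
  have hR : (Rs.card : ℂ) = (n₁ : ℂ) ^ numCyc σ := by
    rw [hRs, ← Fintype.card_subtype, ← Nat.card_eq_fintype_card, card_colour, Nat.cast_pow]
  have hP : (Ps.card : ℂ) = (n₂ : ℂ) ^ numCyc (shiftPerm σ) := by
    rw [hPs, ← Fintype.card_subtype, ← Nat.card_eq_fintype_card, card_colour, Nat.cast_pow]
  rw [← hR, ← hP, ← Nat.cast_mul, ← Finset.card_product, ← nsmul_eq_mul, ← Finset.sum_const,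
    coefSum]
  refine Eq.trans ?_ (Finset.sum_product (Rs ×ˢ Ps) Finset.univ
    fun x : ((Fin q → Fin n₁) × (Fin q → Fin n₂)) × (Fin q → Fin k) =>
      (List.ofFn fun t => (Y (x.2 t))ᴴ * Y (x.2 (σ t))).prod.trace)
  symm
  refine Finset.sum_nbij' (fun x t => (x.2 t, x.2 (σ t), x.1.1 t, x.1.2 t, x.1.2 (σ t)))
    (fun c => ((fun t => (c t).2.2.1, fun t => (c t).2.2.2.1), fun t => (c t).1)) ?_ ?_ ?_ ?_ ?_
  · rintro ⟨⟨r, p⟩, i⟩ h
    simp only [Finset.mem_coe, Finset.mem_product, hRs, hPs, Finset.mem_filter, shift_iff] at h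
    simp [starIdx, plainIdx, h.1.1.2, h.1.2.2]
  · intro c h
    simp only [Finset.mem_coe, Finset.mem_filter, starIdx, plainIdx, Prod.mk.injEq] at h
    simp only [Finset.mem_coe, Finset.mem_product, hRs, hPs, Finset.mem_filter, shift_iff,
      Finset.mem_univ, true_and, and_true]
    exact ⟨fun s => (h.2.1 s).2.1, fun s => (h.2.1 s).2.2.trans (h.2.2 s)⟩
  · intro x _; rfl
  · intro c h
    simp only [Finset.mem_coe, Finset.mem_filter, starIdx, plainIdx, Prod.mk.injEq] at h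
    funext t
    simp [(h.2.1 t).1, (h.2.1 t).2.2]
  · intro x _; rfl

/-- The expected trace, as a sum over permutations. -/
theorem expect_trace (hn : 0 < n₁) (hq : 0 < q) {N : ℕ} [NeZero N] (hN : q < N)
    (Y : Fin k → Matrix (Fin M) (Fin m) ℂ) :
    Integrable (fun g => (defect Y g ^ q).trace)
        (Measure.pi fun _ : Fin k × Fin n₁ × Fin n₂ => gauss N) ∧
      ∫ g, (defect Y g ^ q).trace ∂Measure.pi (fun _ : Fin k × Fin n₁ × Fin n₂ => gauss N)
        = ((n₁ : ℂ) ^ q)⁻¹ * ∑ σ ∈ Finset.univ.filter fun σ : Perm (Fin q) => ∀ t, σ t ≠ t,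
            (n₁ : ℂ) ^ numCyc σ * (n₂ : ℂ) ^ numCyc (shiftPerm σ) * coefSum Y σ := by
  classical
  have hwick := fun c : Fin q → Idx k n₁ n₂ => wick hN (starIdx c) (plainIdx c)
  have hint : ∀ c : Fin q → Idx k n₁ n₂,
      Integrable (fun g => ∏ t, centred g (starIdx c t) (plainIdx c t))
      (Measure.pi fun _ : Fin k × Fin n₁ × Fin n₂ => gauss N) := fun c => (hwick c).1
  simp only [trace_defect_pow hn hq]
  refine ⟨(integrable_finsetSum _ fun c _ => (hint c).mul_const _).const_mul _, ?_⟩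
  rw [integral_const_mul, integral_finsetSum _ fun c _ => (hint c).mul_const _]
  congr 1
  simp only [integral_mul_const, centred]
  rw [Finset.sum_congr rfl fun c _ => congrArg (· * chainWeight Y c) (hwick c).2]
  have hcast : ∀ p : Perm (Fin q) → Prop, (Nat.card {σ // p σ} : ℂ)
      = ∑ σ : Perm (Fin q), if p σ then 1 else 0 := fun p => by
    rw [Nat.card_eq_fintype_card, Fintype.card_subtype, Finset.sum_boole]
  simp only [hcast, Finset.sum_mul, ite_mul, one_mul, zero_mul, ite_and]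
  rw [Finset.sum_comm, Finset.sum_filter]
  refine Finset.sum_congr rfl fun σ _ => ?_
  by_cases hσ : ∀ t, σ t ≠ t
  · simp only [if_pos hσ]
    exact sum_matched Y σ
  · simp only [if_neg hσ, Finset.sum_const_zero]

lemma ratio_bound {n₁ n₂ δ Λ N : ℝ} {q c p u : ℕ} (hδ : 0 ≤ δ) (hn1 : 0 < n₁) (hn2 : 0 ≤ n₂)
    (hΛ : 0 < Λ) (hN : 0 < N) (hp : 1 ≤ p) (hup : p ≤ u + 1) (hcu : c + u ≤ q)
    (h : (δ ≤ 1 ∧ n₂ * δ ≤ N ∧ Λ * N ≤ n₁) ∨ (1 ≤ δ ∧ n₂ = N ∧ Λ * δ * N ≤ n₁)) :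
    n₁ ^ c * n₂ ^ p * δ ^ u / n₁ ^ q ≤ n₂ * (Λ⁻¹) ^ (q - c) * (N ^ (c + p) / N ^ (q + 1)) := by
  have key : n₁ ^ c * n₂ ^ p * δ ^ u * N ^ (q + 1) * Λ ^ (q - c)
      ≤ n₂ * N ^ (c + p) * n₁ ^ q := by
    obtain ⟨p, rfl⟩ : ∃ p', p = p' + 1 := ⟨p - 1, by omega⟩
    obtain ⟨d, rfl⟩ : ∃ d, q = c + d := ⟨q - c, by omega⟩
    rw [Nat.add_sub_cancel_left]
    rcases h with ⟨hd1, hn, hΛN⟩ | ⟨hd1, hn, hΛN⟩
    · calc n₁ ^ c * n₂ ^ (p + 1) * δ ^ u * N ^ (c + d + 1) * Λ ^ d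
          ≤ n₁ ^ c * n₂ ^ (p + 1) * δ ^ p * N ^ (c + d + 1) * Λ ^ d := by
            gcongr ?_ * _ ^ _ * _
            exact mul_le_mul_of_nonneg_left (pow_le_pow_of_le_one hδ hd1 (by omega)) (by positivity)
        _ = n₁ ^ c * n₂ * (n₂ * δ) ^ p * N ^ (c + 1) * (Λ * N) ^ d := by ring
        _ ≤ n₁ ^ c * n₂ * N ^ p * N ^ (c + 1) * n₁ ^ d := by gcongr
        _ = n₂ * N ^ (c + (p + 1)) * n₁ ^ (c + d) := by ring
    · subst hn
      calc n₁ ^ c * n₂ ^ (p + 1) * δ ^ u * n₂ ^ (c + d + 1) * Λ ^ d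
          ≤ n₁ ^ c * n₂ ^ (p + 1) * δ ^ d * n₂ ^ (c + d + 1) * Λ ^ d := by
            gcongr ?_ * _ ^ _ * _
            exact mul_le_mul_of_nonneg_left (pow_le_pow_right₀ hd1 (by omega)) (by positivity)
        _ = n₁ ^ c * n₂ ^ (p + 1) * n₂ ^ (c + 1) * (Λ * δ * n₂) ^ d := by ring
        _ ≤ n₁ ^ c * n₂ ^ (p + 1) * n₂ ^ (c + 1) * n₁ ^ d := by gcongr
        _ = n₂ * n₂ ^ (c + (p + 1)) * n₁ ^ (c + d) := by ring
  rw [div_le_iff₀ (by positivity)]
  rw [inv_pow]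
  field_simp
  linarith

/-- The counting bound in the form used here. -/
lemma sum_colour_le (hC : CountPin) {N : ℕ} (hq : 0 < q) (hN : q * (2 * q + 1) ^ 2 ≤ N) :
    ∑ σ : Perm (Fin q), N ^ (numCyc σ + numCyc (shiftPerm σ)) ≤ (q + 1) * 9 ^ q * N ^ (q + 1) := by
  classical
  refine le_trans (le_of_eq ?_) (hC q N hq hN)
  let e : {t : Perm (Fin q) × (Fin q → Fin N) × (Fin q → Fin N) //
      (∀ s, t.2.1 (t.1 s) = t.2.1 s) ∧ ∀ s, t.2.2 (finRotate q s) = t.2.2 (t.1 s)}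
      ≃ Σ σ : Perm (Fin q), {a : Fin q → Fin N // ∀ s, a (σ s) = a s}
        × {p : Fin q → Fin N // ∀ s, p (shiftPerm σ s) = p s} :=
    { toFun := fun t => ⟨t.1.1, ⟨t.1.2.1, t.2.1⟩, ⟨t.1.2.2, (shift_iff _ _).2 fun s => (t.2.2 s).symm⟩⟩
      invFun := fun x => ⟨(x.1, x.2.1.1, x.2.2.1), x.2.1.2, fun s => ((shift_iff _ _).1 x.2.2.2 s).symm⟩
      left_inv := fun t => rfl
      right_inv := fun x => rfl }
  rw [Nat.card_congr e, Nat.card_sigma]
  exact Finset.sum_congr rfl fun σ _ => by rw [Nat.card_prod, card_colour, card_colour, pow_add]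

/-- The expected trace is small. -/
theorem expect_le (hC : CountPin) {L : ℕ} [NeZero L] (hL : q < L) (hq : 0 < q) (hn : 0 < n₁)
    (Y : Fin k → Matrix (Fin M) (Fin m) ℂ) {δ Λ β : ℝ} {N : ℕ} (hN : q * (2 * q + 1) ^ 2 ≤ N)
    (hδ : 0 ≤ δ) (hΛ : 0 < Λ) (h1 : ‖∑ i, (Y i)ᴴ * Y i‖ ≤ 1) (h2 : ‖∑ i, Y i * (Y i)ᴴ‖ ≤ δ)
    (h : (δ ≤ 1 ∧ (n₂ : ℝ) * δ ≤ N ∧ Λ * N ≤ n₁) ∨ (1 ≤ δ ∧ (n₂ : ℝ) = N ∧ Λ * δ * N ≤ n₁))
    (hβ : ∀ c : ℕ, 2 * c ≤ q → (Λ⁻¹) ^ (q - c) ≤ β) :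
    Integrable (fun g => (defect Y g ^ q).trace)
        (Measure.pi fun _ : Fin k × Fin n₁ × Fin n₂ => gauss L) ∧
      (∫ g, (defect Y g ^ q).trace ∂Measure.pi (fun _ : Fin k × Fin n₁ × Fin n₂ => gauss L)).re
        ≤ m * n₂ * β * ((q + 1) * 9 ^ q) := by
  classical
  obtain ⟨hint, hval⟩ := expect_trace (n₂ := n₂) hn hq hL Y
  refine ⟨hint, (Complex.re_le_norm _).trans ?_⟩
  have hN0 : (0 : ℝ) < N := by
    have : 0 < q * (2 * q + 1) ^ 2 := by positivity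
    exact_mod_cast this.trans_le hN
  rw [hval, norm_mul, norm_inv, norm_pow, Complex.norm_natCast]
  set D := Finset.univ.filter fun σ : Perm (Fin q) => ∀ t, σ t ≠ t with hD
  refine (mul_le_mul_of_nonneg_left (norm_sum_le D _) (by positivity)).trans ?_
  rw [Finset.mul_sum]
  have hne : Nonempty (Fin q) := ⟨⟨0, hq⟩⟩
  calc ∑ σ ∈ D, ((n₁ : ℝ) ^ q)⁻¹ *
        ‖(n₁ : ℂ) ^ numCyc σ * (n₂ : ℂ) ^ numCyc (shiftPerm σ) * coefSum Y σ‖
      ≤ ∑ σ ∈ D, (m : ℝ) * n₂ * β *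
          ((N : ℝ) ^ (numCyc σ + numCyc (shiftPerm σ)) / (N : ℝ) ^ (q + 1)) := by
        refine Finset.sum_le_sum fun σ hσ => ?_
        have hd := (Finset.mem_filter.1 hσ).2
        have hb := coef_bound Y σ hd hδ h1 h2
        simp only [norm_mul, norm_pow, Complex.norm_natCast]
        calc ((n₁ : ℝ) ^ q)⁻¹ * ((n₁ : ℝ) ^ numCyc σ * (n₂ : ℝ) ^ numCyc (shiftPerm σ) * ‖coefSum Y σ‖)
            ≤ ((n₁ : ℝ) ^ q)⁻¹ * ((n₁ : ℝ) ^ numCyc σ * (n₂ : ℝ) ^ numCyc (shiftPerm σ)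
                * (m * δ ^ numUp σ)) := by gcongr
          _ = (m : ℝ) * ((n₁ : ℝ) ^ numCyc σ * (n₂ : ℝ) ^ numCyc (shiftPerm σ) * δ ^ numUp σ
                / (n₁ : ℝ) ^ q) := by ring
          _ ≤ (m : ℝ) * ((n₂ : ℝ) * (Λ⁻¹) ^ (q - numCyc σ)
                * ((N : ℝ) ^ (numCyc σ + numCyc (shiftPerm σ)) / (N : ℝ) ^ (q + 1))) :=
              mul_le_mul_of_nonneg_left (ratio_bound hδ (by exact_mod_cast hn) (Nat.cast_nonneg _)
                hΛ hN0 (Nat.card_pos_iff.2 ⟨⟨Quotient.mk _ ⟨0, hq⟩⟩, inferInstance⟩) (numCyc_shift_le σ) (numCyc_add_numUp_le σ) h)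
                (Nat.cast_nonneg _)
          _ ≤ (m : ℝ) * ((n₂ : ℝ) * β
                * ((N : ℝ) ^ (numCyc σ + numCyc (shiftPerm σ)) / (N : ℝ) ^ (q + 1))) := by
              gcongr
              exact hβ _ (two_numCyc_le σ hd)
          _ = _ := by ring
    _ ≤ (m : ℝ) * n₂ * β * ((q + 1) * 9 ^ q) := by
        rw [← Finset.mul_sum, ← Finset.sum_div]
        have hβ0 : 0 ≤ β := le_trans (by positivity) (hβ 0 (by omega))
        refine mul_le_mul_of_nonneg_left ?_ (by positivity)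
        rw [div_le_iff₀ (by positivity)]
        refine le_trans (Finset.sum_le_sum_of_subset_of_nonneg (Finset.subset_univ _)
          fun _ _ _ => by positivity) ?_
        exact_mod_cast sum_colour_le hC hq hN

end Vale.Agent.P095.SC
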