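import Vale.Agent.P095.SC.Defs
import Vale.Agent.P095.SN.ExciseBasic
import Vale.Agent.P095.SI.Compare

/-!
P095, comparison from traces, block K5: order lemmas.
-/

namespace Vale.Agent.P095.SC

open Vale.Agent.P095.SI Vale.Agent.P095.SN

variable {A : Type*} [CStarAlgebra A] [PartialOrder A] [StarOrderedRing A]

lemma norm_le_of_between {X : A} {c : ℝ} (hc : 0 ≤ c) (h1 : X ≤ algebraMap ℝ A c)
    (h2 : -X ≤ algebraMap ℝ A c) : ‖X‖ ≤ c := by
  have h := norm_sub_mid_le (neg_le_self hc) (by rw [map_neg]; exact neg_le.1 h2) h1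
  simpa using h

lemma norm_le_of_between' {X P : A} (hP : IsSelfAdjoint P) (h1 : X ≤ P) (h2 : -X ≤ P) :
    ‖X‖ ≤ ‖P‖ :=
  norm_le_of_between (norm_nonneg P) (h1.trans hP.le_algebraMap_norm_self)
    (h2.trans hP.le_algebraMap_norm_self)

omit [PartialOrder A] [StarOrderedRing A] in
lemma exists_gap {F : Type*} [CStarAlgebra F] (E : F) (hE : IsSelfAdjoint E) :
    ∃ M : F, algebraMap ℂ F (‖E‖ : ℂ) - E = star M * M := by
  let := CStarAlgebra.spectralOrder F
  have := CStarAlgebra.spectralOrderedRing F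
  refine CStarAlgebra.nonneg_iff_eq_star_mul_self.1 (sub_nonneg.2 ?_)
  refine hE.le_algebraMap_norm_self.trans_eq ?_
  rw [Algebra.algebraMap_eq_smul_one, Algebra.algebraMap_eq_smul_one, ← Complex.coe_smul]

/-- The quadratic form of an array at a column. -/
def qf {ι : Type*} [Fintype ι] (E : ι → ι → A) (z : ι → A) : A :=
  ∑ p, ∑ q, star (z p) * E p q * z q

section Form

variable {n : ℕ}

lemma qf_le (E : CStarMatrix (Fin n) (Fin n) A) (hE : IsSelfAdjoint E) (z : Fin n → A) :
    qf (fun p q => E p q) z ≤ ‖E‖ • ∑ p, star (z p) * z p := by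
  classical
  obtain ⟨M, hM⟩ := exists_gap E hE
  have he : ∀ p q, ∑ r, star (M r p) * M r q
      = (if p = q then algebraMap ℝ A ‖E‖ else 0) - E p q := fun p q => by
    have := congrArg (fun N : CStarMatrix (Fin n) (Fin n) A => N p q) hM
    simp only [CStarMatrix.sub_apply, CStarMatrix.algebraMap_apply, CStarMatrix.mul_apply,
      CStarMatrix.star_apply] at this
    rw [← this]
    simp [Algebra.algebraMap_eq_smul_one, Complex.coe_smul]
  rw [← sub_nonneg]
  have key : ‖E‖ • ∑ p, star (z p) * z p - qf (fun p q => E p q) z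
      = ∑ r, star (∑ p, M r p * z p) * (∑ q, M r q * z q) := by
    have h1 : ∑ r, star (∑ p, M r p * z p) * (∑ q, M r q * z q)
        = ∑ p, ∑ q, star (z p) * (∑ r, star (M r p) * M r q) * z q := by
      simp only [star_sum, Finset.sum_mul, Finset.mul_sum, star_mul, mul_assoc]
      rw [Finset.sum_comm]
      refine (Finset.sum_congr rfl fun p _ => ?_).trans Finset.sum_comm
      exact Finset.sum_comm
    rw [h1]
    simp only [he, mul_sub, sub_mul, Finset.sum_sub_distrib, mul_ite, ite_mul, mul_zero, zero_mul,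
      Finset.sum_ite_eq, Finset.mem_univ, if_true]
    rw [Finset.smul_sum]
    refine congrArg₂ (· - ·) (Finset.sum_congr rfl fun p _ => ?_) rfl
    rw [Algebra.algebraMap_eq_smul_one, mul_smul_comm, mul_one, smul_mul_assoc]
  rw [key]
  exact Finset.sum_nonneg fun r _ => star_mul_self_nonneg _

lemma isSelfAdjoint_sum_star {ι : Type*} [Fintype ι] (z : ι → A) :
    IsSelfAdjoint (∑ i, star (z i) * z i) :=
  IsSelfAdjoint.of_nonneg (Finset.sum_nonneg fun i _ => star_mul_self_nonneg _)

/-- A sum of quadratic forms of one array. -/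
lemma norm_sum_qf_le (E : CStarMatrix (Fin n) (Fin n) A) (hE : IsSelfAdjoint E) {κ : Type*}
    [Fintype κ] (z : κ → Fin n → A) :
    ‖∑ r, qf (fun p q => E p q) (z r)‖ ≤ ‖E‖ * ‖∑ r, ∑ p, star (z r p) * z r p‖ := by
  have hP : IsSelfAdjoint (∑ r, ‖E‖ • ∑ p, star (z r p) * z r p) :=
    IsSelfAdjoint.of_nonneg (Finset.sum_nonneg fun r _ =>
      smul_nonneg (norm_nonneg E) (Finset.sum_nonneg fun p _ => star_mul_self_nonneg _))
  have h := norm_le_of_between' (X := ∑ r, qf (fun p q => E p q) (z r)) hP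
    (Finset.sum_le_sum fun r _ => qf_le E hE (z r)) ?_
  · rwa [← Finset.smul_sum, norm_smul, norm_norm] at h
  · rw [← Finset.sum_neg_distrib]
    refine Finset.sum_le_sum fun r _ => ?_
    have h2 := qf_le (-E) hE.neg (z r)
    rw [norm_neg] at h2
    refine le_of_eq_of_le ?_ h2
    simp [qf]

end Form

/-- Sandwiches of one self-adjoint element. -/
lemma norm_sum_conj_le {e : A} (he : IsSelfAdjoint e) {κ : Type*} [Fintype κ] (z : κ → A) :
    ‖∑ r, star (z r) * e * z r‖ ≤ ‖e‖ * ‖∑ r, star (z r) * z r‖ := by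
  have h : ∀ x : A, x ≤ algebraMap ℝ A ‖e‖ → ∀ y : A, star y * x * y ≤ ‖e‖ • (star y * y) :=
    fun x hx y => (star_left_conjugate_le_conjugate hx y).trans_eq (by
      rw [Algebra.algebraMap_eq_smul_one, mul_smul_comm, mul_one, smul_mul_assoc])
  have hP : IsSelfAdjoint (∑ r, ‖e‖ • (star (z r) * z r)) :=
    IsSelfAdjoint.of_nonneg (Finset.sum_nonneg fun r _ =>
      smul_nonneg (norm_nonneg e) (star_mul_self_nonneg _))
  have h' := norm_le_of_between' (X := ∑ r, star (z r) * e * z r) hP
    (Finset.sum_le_sum fun r _ => h e he.le_algebraMap_norm_self (z r)) ?_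
  · rwa [← Finset.smul_sum, norm_smul, norm_norm] at h'
  · rw [← Finset.sum_neg_distrib]
    refine Finset.sum_le_sum fun r _ => ?_
    have h2 := h (-e) (neg_le.1 he.neg_algebraMap_norm_le_self) (z r)
    simpa using h2

omit [PartialOrder A] [StarOrderedRing A] in
lemma norm_star_mul_self_sub_le (a b : A) :
    ‖star a * a - star b * b‖ ≤ ‖a - b‖ * (‖a‖ + ‖b‖) := by
  have e : star a * a - star b * b = star (a - b) * a + star b * (a - b) := by
    rw [star_sub]; noncomm_ring
  rw [e]
  refine (norm_add_le _ _).trans ?_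
  have h1 := norm_mul_le (star (a - b)) a
  have h2 := norm_mul_le (star b) (a - b)
  rw [norm_star] at h1 h2
  nlinarith

/-- The inverse square root above a margin. -/
noncomputable def rinv (ε : ℝ) (t : ℝ) : ℝ := (Real.sqrt (max t 0 + ε))⁻¹

lemma continuous_rinv {ε : ℝ} (hε : 0 < ε) : Continuous (rinv ε) :=
  (by fun_prop : Continuous fun t => Real.sqrt (max t 0 + ε)).inv₀ fun t =>
    (Real.sqrt_pos.2 (by positivity)).ne'

lemma rinv_mul {g : A} (hg : 0 ≤ g) {ε : ℝ} (hε : 0 < ε) :
    cfc (rinv ε) g * (g + algebraMap ℝ A ε) * cfc (rinv ε) g = 1 := by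
  have hc := continuous_rinv hε
  have hsa : IsSelfAdjoint g := IsSelfAdjoint.of_nonneg hg
  have e1 : g + algebraMap ℝ A ε = cfc (fun t : ℝ => t + ε) g := by
    rw [cfc_add_const ε (fun t => t) g (by fun_prop) hsa, cfc_id' ℝ g]
  rw [e1, ← cfc_mul (rinv ε) (fun t => t + ε) g hc.continuousOn (by fun_prop),
    ← cfc_mul (fun t => rinv ε t * (t + ε)) (rinv ε) g
      ((hc.mul (by fun_prop)).continuousOn) hc.continuousOn, ← cfc_one ℝ g]
  refine cfc_congr fun t ht => ?_
  have h0 := spectrum_nonneg_of_nonneg hg ht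
  have h1 : 0 < t + ε := by linarith
  simp only [rinv, max_eq_left h0, Pi.one_apply]
  rw [mul_comm, ← mul_assoc, ← mul_inv, Real.mul_self_sqrt h1.le, inv_mul_cancel₀ h1.ne']

lemma star_rinv (g : A) (ε : ℝ) : star (cfc (rinv ε) g) = cfc (rinv ε) g :=
  (cfc_predicate (rinv ε) g : IsSelfAdjoint (cfc (rinv ε) g)).star_eq

/-- A positive element close to another dominates its cuts. -/
lemma exists_cut_factor {a f : A} {η' η : ℝ} (ha : 0 ≤ a) (hf : IsSelfAdjoint f) (hη : η' < η)
    (hd : ‖a - f‖ ≤ η') {ε : ℝ} (hε : 0 < ε) :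
    ∃ x : A, ‖star x * a * x - cut η f‖ ≤ ε := by
  set φ : ℝ → ℝ := fun t => Real.sqrt (max (t - η) 0 / max (t - η') (η - η')) with hφ
  have hp : ∀ t : ℝ, 0 < max (t - η') (η - η') := fun t =>
    lt_max_of_lt_right (sub_pos.2 hη)
  have hφc : Continuous φ :=
    Real.continuous_sqrt.comp ((by fun_prop : Continuous fun t : ℝ => max (t - η) 0).div
      (by fun_prop) fun t => (hp t).ne')
  set ψ : ℝ → ℝ := fun t => Real.sqrt (max (t - η) 0) with hψ
  have hψc : Continuous ψ := by fun_prop
  set q := cfc φ f with hq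
  set r := cfc ψ f with hr
  have hqs : star q = q := (cfc_predicate φ f : IsSelfAdjoint q).star_eq
  have hrs : star r = r := (cfc_predicate ψ f : IsSelfAdjoint r).star_eq
  have hrr : r * r = cut η f := by
    rw [hr, ← cfc_mul ψ ψ f hψc.continuousOn hψc.continuousOn]
    exact cfc_congr fun t _ => Real.mul_self_sqrt (le_max_right _ _)
  have hqq : q * (f - algebraMap ℝ A η') * q = cut η f := by
    have e1 : f - algebraMap ℝ A η' = cfc (fun t : ℝ => t - η') f := by
      rw [cfc_sub (fun t : ℝ => t) (fun _ => η') f, cfc_id' ℝ f, cfc_const η' f]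
    rw [e1, hq, ← cfc_mul φ (fun t => t - η') f hφc.continuousOn (by fun_prop),
      ← cfc_mul (fun t => φ t * (t - η')) φ f ((hφc.mul (by fun_prop)).continuousOn)
        hφc.continuousOn]
    refine cfc_congr fun t _ => ?_
    have e2 : φ t * φ t = max (t - η) 0 / max (t - η') (η - η') :=
      Real.mul_self_sqrt (div_nonneg (le_max_right _ _) (hp t).le)
    rw [mul_right_comm, e2]
    rcases le_total t η with h | h
    · rw [max_eq_right (sub_nonpos.2 h)]; simp
    · rw [max_eq_left (a := t - η') (by linarith),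
        div_mul_cancel₀ _ (by linarith : t - η' ≠ 0)]
  set C := star q * a * q with hC
  have hC0 : 0 ≤ C := star_left_conjugate_nonneg ha q
  have hge : f - algebraMap ℝ A η' ≤ a := by
    have h1 : f - a ≤ algebraMap ℝ A η' :=
      ((hf.sub (IsSelfAdjoint.of_nonneg ha)).le_algebraMap_norm_self).trans
        (algebraMap_mono A (by rwa [norm_sub_rev]))
    exact sub_le_comm.1 h1
  have hFC : cut η f ≤ C := by
    rw [← hqq, hC]
    simpa only [hqs] using star_left_conjugate_le_conjugate hge q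
  set k := cfc (rinv ε) C with hk
  have hks : star k = k := star_rinv C ε
  have h1 := rinv_mul hC0 hε
  refine ⟨q * k * r, ?_⟩
  have e : star (q * k * r) * a * (q * k * r) - cut η f = -(ε • (star (k * r) * (k * r))) := by
    have e3 : k * C * k = 1 - ε • (k * k) := by
      rw [eq_sub_iff_add_eq]
      conv_rhs => rw [← h1]
      simp [mul_add, add_mul, Algebra.algebraMap_eq_smul_one, hk]
    have e4 : star (q * k * r) * a * (q * k * r) = r * (k * C * k) * r := by
      rw [hC, star_mul, star_mul, hks, hrs, hqs]; simp only [mul_assoc]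
    rw [e4, e3, mul_sub, sub_mul, mul_one, hrr, star_mul, hks, hrs]
    simp [mul_assoc]
  rw [e, norm_neg, norm_smul, Real.norm_of_nonneg hε.le]
  refine mul_le_of_le_one_right hε.le ?_
  rw [CStarRing.norm_star_mul_self, ← CStarRing.norm_self_mul_star]
  refine (CStarAlgebra.norm_le_one_iff_of_nonneg _ (mul_star_self_nonneg _)).2 ?_
  have e5 : k * r * star (k * r) = star k * cut η f * k := by
    rw [star_mul, hks, hrs, ← hrr]; simp only [mul_assoc]
  rw [e5]
  refine (star_left_conjugate_le_conjugate hFC k).trans ?_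
  rw [hks, ← h1]
  have h3 : C ≤ C + algebraMap ℝ A ε := le_add_of_nonneg_right (algebraMap_nonneg A hε.le)
  simpa only [hks] using star_left_conjugate_le_conjugate h3 k

/-- In a simple algebra a nonzero positive element is full, with positive witnesses. -/
lemma exists_full [IsSimpleRing A] {g : A} (hg : 0 ≤ g) (hg0 : g ≠ 0) :
    ∃ (n : ℕ) (r : Fin n → A), ∑ l, star (r l) * g * r l = 1 := by
  let T : Set A := {z | ∃ (n : ℕ) (b : Fin n → A), star z * z ≤ ∑ l, star (b l) * g * b l}
  let I : TwoSidedIdeal A := TwoSidedIdeal.mk' T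
    ⟨0, Fin.elim0, by simp⟩
    (fun {x y} ⟨n, b, hb⟩ ⟨m, c, hc⟩ => by
      refine ⟨n + m, Fin.append (fun l => Real.sqrt 2 • b l) (fun l => Real.sqrt 2 • c l), ?_⟩
      rw [Fin.sum_univ_add]
      simp only [Fin.append_left, Fin.append_right, star_smul, star_trivial, smul_mul_assoc,
        mul_smul_comm, smul_smul, Real.mul_self_sqrt zero_le_two, ← Finset.smul_sum, ← smul_add]
      refine le_trans ?_ (smul_le_smul_of_nonneg_left (add_le_add hb hc) zero_le_two)
      rw [← sub_nonneg]
      refine (star_mul_self_nonneg (x - y)).trans_eq ?_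
      simp only [two_smul, star_add, star_sub]
      noncomm_ring)
    (fun {x} ⟨n, b, hb⟩ => ⟨n, b, by simpa using hb⟩)
    (fun {x y} ⟨n, b, hb⟩ => by
      refine ⟨n, fun l => ‖x‖ • b l, ?_⟩
      have h1 : star (x * y) * (x * y) ≤ (‖x‖ * ‖x‖) • (star y * y) := by
        have h2 : star x * x ≤ algebraMap ℝ A (‖x‖ * ‖x‖) := by
          have := (IsSelfAdjoint.star_mul_self x).le_algebraMap_norm_self
          rwa [CStarRing.norm_star_mul_self] at this
        have h3 := star_left_conjugate_le_conjugate h2 y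
        rw [Algebra.algebraMap_eq_smul_one, mul_smul_comm, mul_one, smul_mul_assoc] at h3
        simpa [star_mul, mul_assoc] using h3
      refine (h1.trans (smul_le_smul_of_nonneg_left hb (by positivity))).trans_eq ?_
      simp [Finset.smul_sum, smul_smul])
    (fun {x y} ⟨n, b, hb⟩ => by
      refine ⟨n, fun l => b l * y, ?_⟩
      have h3 := star_left_conjugate_le_conjugate hb y
      simpa [star_mul, mul_assoc, Finset.mul_sum, Finset.sum_mul] using h3)
  set h := CFC.sqrt g with hh
  have hhs : star h = h := (IsSelfAdjoint.of_nonneg (CFC.sqrt_nonneg g)).star_eq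
  have hhh : h * h = g := CFC.sqrt_mul_sqrt_self g hg
  have hI : h ∈ I := (TwoSidedIdeal.mem_mk' _ _ _ _ _ _ _).2 ⟨1, fun _ => 1, by simp [hhs, hhh]⟩
  have htop : I = ⊤ := (IsSimpleOrder.eq_bot_or_eq_top I).resolve_left fun hbot => by
    rw [hbot, TwoSidedIdeal.mem_bot] at hI
    exact hg0 (by rw [← hhh, hI, mul_zero])
  have h1 : (1 : A) ∈ I := by rw [htop]; trivial
  obtain ⟨n, b, hb⟩ := (TwoSidedIdeal.mem_mk' _ _ _ _ _ _ _).1 h1
  rw [star_one, one_mul] at hb
  set S := ∑ l, star (b l) * g * b l with hS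
  have hS0 : 0 ≤ S := zero_le_one.trans hb
  have hsp : ∀ t ∈ spectrum ℝ S, (1 : ℝ) ≤ t :=
    (algebraMap_le_iff_le_spectrum (IsSelfAdjoint.of_nonneg hS0)).1 (by rwa [map_one])
  set κ : ℝ → ℝ := fun t => (Real.sqrt (max t 1))⁻¹ with hκ
  have hκc : Continuous κ := (by fun_prop : Continuous fun t : ℝ => Real.sqrt (max t 1)).inv₀
    fun t => (Real.sqrt_pos.2 (lt_of_lt_of_le one_pos (le_max_right _ _))).ne'
  set k := cfc κ S with hk
  have hks : star k = k := (cfc_predicate κ S : IsSelfAdjoint k).star_eq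
  refine ⟨n, fun l => b l * k, ?_⟩
  have e : ∑ l, star (b l * k) * g * (b l * k) = k * S * k := by
    rw [hS]; simp [star_mul, hks, Finset.mul_sum, Finset.sum_mul, mul_assoc]
  rw [e]
  have e2 : k * S * k = cfc κ S * cfc (fun t : ℝ => t) S * cfc κ S := by
    rw [cfc_id' ℝ S (IsSelfAdjoint.of_nonneg hS0)]
  rw [e2, ← cfc_mul κ (fun t => t) S hκc.continuousOn (by fun_prop),
    ← cfc_mul (fun t => κ t * t) κ S ((hκc.mul continuous_id).continuousOn) hκc.continuousOn,
    ← cfc_one ℝ S (IsSelfAdjoint.of_nonneg hS0)]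
  refine cfc_congr fun t ht => ?_
  have h1t := hsp t ht
  simp only [hκ, max_eq_left h1t, Pi.one_apply]
  rw [mul_right_comm, ← mul_inv, Real.mul_self_sqrt (by linarith), inv_mul_cancel₀ (by linarith)]

/-- Approximate certificates below a full element lie exactly in its hereditary part. -/
lemma exists_factor_tuple [IsSimpleRing A] {g : A} (hg : 0 ≤ g) (hg0 : g ≠ 0) (hg1 : ‖g‖ ≤ 1) :
    ∃ ε₀ : ℝ, 0 < ε₀ ∧ ∀ (ε : ℝ), 0 < ε → ε ≤ ε₀ → ∀ (k : ℕ) (z : Fin k → A),
      (∑ i, z i * star (z i)) ≤ g + algebraMap ℝ A ε →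
      ∃ (m : ℕ) (u : Fin m → A),
        ∑ i, star (CFC.sqrt g * u i) * (CFC.sqrt g * u i) = ∑ i, star (z i) * z i ∧
        ‖∑ i, CFC.sqrt g * u i * star (CFC.sqrt g * u i)‖ ≤ 2 := by
  obtain ⟨n, r, hr⟩ := exists_full hg hg0
  set C := ∑ l, ‖r l‖ ^ 2 with hCdef
  have hC : 0 ≤ C := Finset.sum_nonneg fun l _ => by positivity
  refine ⟨1 / (C + 1), by positivity, fun ε hε hεle k z hz => ?_⟩
  set h := CFC.sqrt g with hh
  have hhs : star h = h := (IsSelfAdjoint.of_nonneg (CFC.sqrt_nonneg g)).star_eq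
  have hhh : h * h = g := CFC.sqrt_mul_sqrt_self g hg
  have hhn : ‖h‖ ≤ 1 := by
    have e := CStarRing.norm_star_mul_self (x := h)
    rw [hhs, hhh] at e
    nlinarith [norm_nonneg h]
  set b : Option (Fin n) → A := fun o => o.elim 1 fun l => Real.sqrt ε • r l with hb
  have hw : ∑ o, star (h * b o) * (h * b o) = g + algebraMap ℝ A ε := by
    have e : ∀ o, star (h * b o) * (h * b o) = star (b o) * g * b o := fun o => by
      rw [star_mul, hhs, ← hhh]; simp only [mul_assoc]
    simp only [e, Fintype.sum_option]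
    refine congrArg₂ (· + ·) (by simp [hb]) ?_
    simp only [hb, Option.elim, star_smul, star_trivial, smul_mul_assoc, mul_smul_comm, smul_smul,
      Real.mul_self_sqrt hε.le, ← Finset.smul_sum, hr, Algebra.algebraMap_eq_smul_one]
  set K := cfc (rinv ε) g with hK
  have hKs : star K = K := star_rinv g ε
  have hKK := rinv_mul hg hε
  let e : Option (Fin n) × Fin k ≃ Fin (Fintype.card (Option (Fin n) × Fin k)) :=
    Fintype.equivFin _
  refine ⟨_, fun i => b (e.symm i).1 * K * z (e.symm i).2, ?_, ?_⟩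
  · rw [← e.sum_comp]
    simp only [Equiv.symm_apply_apply, Fintype.sum_prod_type]
    calc ∑ o, ∑ i, star (h * (b o * K * z i)) * (h * (b o * K * z i))
        = ∑ i, star (z i) * (K * (∑ o, star (h * b o) * (h * b o)) * K) * z i := by
          rw [Finset.sum_comm]
          simp only [star_mul, hKs, hhs, Finset.mul_sum, Finset.sum_mul, mul_assoc]
      _ = ∑ i, star (z i) * z i := by simp only [hw, hK, hKK, mul_one]
  · rw [← e.sum_comp]
    simp only [Equiv.symm_apply_apply, Fintype.sum_prod_type]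
    set Sz := ∑ i, z i * star (z i) with hSz
    have hS1 : ‖K * Sz * K‖ ≤ 1 := by
      have h0 : 0 ≤ K * Sz * K := by
        have := star_left_conjugate_nonneg
          (Finset.sum_nonneg fun i (_ : i ∈ Finset.univ) => mul_star_self_nonneg (z i)) K
        rwa [hKs] at this
      refine (CStarAlgebra.norm_le_one_iff_of_nonneg _ h0).2 ?_
      rw [← hKK]
      simpa only [hKs] using star_left_conjugate_le_conjugate hz K
    have e1 : ∀ o, ∑ i, h * (b o * K * z i) * star (h * (b o * K * z i))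
        = h * b o * (K * Sz * K) * star (h * b o) := fun o => by
      simp only [hSz, star_mul, hKs, hhs, Finset.mul_sum, Finset.sum_mul, mul_assoc]
    simp only [e1]
    refine (norm_sum_le _ _).trans ?_
    refine (Finset.sum_le_sum fun o _ => (?_ : _ ≤ ‖b o‖ ^ 2)).trans ?_
    · refine (norm_mul_le _ _).trans ?_
      rw [norm_star]
      have h2 : ‖h * b o‖ ≤ ‖b o‖ :=
        (norm_mul_le _ _).trans (mul_le_of_le_one_left (norm_nonneg _) hhn)
      have h3 : ‖h * b o * (K * Sz * K)‖ ≤ ‖b o‖ :=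
        (norm_mul_le _ _).trans ((mul_le_of_le_one_right (norm_nonneg _) hS1).trans h2)
      rw [sq]
      exact mul_le_mul h3 h2 (norm_nonneg _) (norm_nonneg _)
    · rw [Fintype.sum_option]
      have h1 : ‖(1 : A)‖ ≤ 1 := by
        rcases subsingleton_or_nontrivial A with hs | hn
        · simp [Subsingleton.elim (1 : A) 0]
        · simp
      have h4 : ε * C ≤ 1 := by
        have h5 := mul_le_mul_of_nonneg_right hεle hC
        have h6 : 1 / (C + 1) * C ≤ 1 := by
          rw [div_mul_eq_mul_div, div_le_one (by linarith)]; linarith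
        linarith
      simp only [hb, Option.elim, norm_smul, mul_pow, Real.norm_of_nonneg (Real.sqrt_nonneg ε),
        Real.sq_sqrt hε.le, ← Finset.mul_sum, ← hCdef]
      nlinarith [norm_nonneg (1 : A)]

end Vale.Agent.P095.SC
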