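import Vale.Agent.P095.SC.Pins
import Vale.Agent.P095.SC.FinishBasic

/-!
P095, comparison from traces, block K5: `finishPin`.
-/

namespace Vale.Agent.P095.SC

open Vale.Agent.P095.SI Vale.Agent.P095.SN Tracial

universe u

section

variable {A : Type*} [CStarAlgebra A]

lemma sum_extend {ι κ : Type*} [Fintype ι] [Fintype κ] {σ : ι → κ} (hσ : Function.Injective σ)
    (v : ι → A) (F : κ → A → A) (hF : ∀ p, F p 0 = 0) :
    ∑ p, F p (Function.extend σ v 0 p) = ∑ i, F (σ i) (v i) := by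
  classical
  rw [← Finset.sum_subset (s₁ := Finset.univ.image σ) (Finset.subset_univ _) (fun p _ hp => ?_),
    Finset.sum_image fun a _ b _ h => hσ h]
  · exact Finset.sum_congr rfl fun i _ => by rw [hσ.extend_apply]
  · rw [Function.extend_apply' _ _ _ (by simpa using hp), Pi.zero_apply, hF]

lemma gram_apply {r n : ℕ} (S : Fin r → Fin n → A) (p q : Fin n) :
    gram S p q = ∑ i, star (S i p) * S i q := rfl

lemma diagConst_apply (n : ℕ) (f : A) (p q : Fin n) :
    diagConst n f p q = if p = q then f else 0 := rfl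

lemma isSelfAdjoint_gram_sub {r n : ℕ} (S : Fin r → Fin n → A) {f : A} (hf : IsSelfAdjoint f) :
    IsSelfAdjoint (gram S - diagConst n f) := by
  ext p q
  rw [CStarMatrix.star_apply]
  simp only [CStarMatrix.sub_apply, gram_apply, diagConst_apply, star_sub, star_sum, star_mul,
    star_star, apply_ite star, star_zero, hf.star_eq, eq_comm (a := q) (b := p)]

lemma qf_gram_sub {r n : ℕ} (S : Fin r → Fin n → A) (f : A) (z : Fin n → A) :
    qf (fun p q => (gram S - diagConst n f) p q) z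
      = ∑ i, star (∑ p, S i p * z p) * (∑ p, S i p * z p) - ∑ p, star (z p) * f * z p := by
  classical
  have h1 : ∑ i, star (∑ p, S i p * z p) * (∑ p, S i p * z p)
      = ∑ p, ∑ q, star (z p) * (∑ i, star (S i p) * S i q) * z q := by
    simp only [star_sum, Finset.sum_mul, Finset.mul_sum, star_mul, mul_assoc]
    rw [Finset.sum_comm]
    refine (Finset.sum_congr rfl fun p _ => ?_).trans Finset.sum_comm
    exact Finset.sum_comm
  simp only [qf, CStarMatrix.sub_apply, gram_apply, diagConst_apply, mul_sub, sub_mul,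
    Finset.sum_sub_distrib, mul_ite, ite_mul, mul_zero, zero_mul, Finset.sum_ite_eq,
    Finset.mem_univ, if_true, h1]

lemma norm_sum_sum_le {ι : Type*} [Fintype ι] (x : ι → ι → A) {c : ℝ} (h : ∀ a b, ‖x a b‖ ≤ c) :
    ‖∑ a, ∑ b, x a b‖ ≤ Fintype.card ι * (Fintype.card ι * c) := by
  refine (norm_sum_le _ _).trans ((Finset.sum_le_sum fun a _ =>
    (norm_sum_le _ _).trans (Finset.sum_le_sum fun b _ => h a b)).trans_eq ?_)
  simp

variable [PartialOrder A] [StarOrderedRing A]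

omit [PartialOrder A] [StarOrderedRing A] in
/-- The middle of the sandwich. -/
lemma mid_le {h d x y : A} {C ε : ℝ} {P : Prop} [Decidable P] (hh : star h = h) (hh1 : ‖h‖ ≤ 1)
    (hC : 1 ≤ C) (hd : ‖d‖ ≤ C) (hx : ‖x‖ ≤ C) (hε : 0 ≤ ε) (hdh : ‖d * h - h * d‖ ≤ ε)
    (hy : ‖y * (h * h) - (h * h) * y‖ ≤ ε)
    (ho : ‖star x * y - (if P then star d * d else 0)‖ ≤ ε) :
    ‖star x * (h * h) * y - (if P then star (d * h) * (d * h) else 0)‖ ≤ 4 * C * ε := by
  have hdh' : ‖star d * h - h * star d‖ ≤ ε := by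
    rw [← norm_star, star_sub, star_mul, star_mul, star_star, hh, norm_sub_rev]
    exact hdh
  have hg1 : ‖h * h‖ ≤ 1 := (norm_mul_le _ _).trans (mul_le_one₀ hh1 (norm_nonneg _) hh1)
  have e1 : star x * (h * h) * y - (if P then star (d * h) * (d * h) else 0)
      = -(star x * (y * (h * h) - (h * h) * y))
        + (star x * y - (if P then star d * d else 0)) * (h * h)
        + (if P then (star d * (d * h - h * d) + (star d * h - h * star d) * d) * h else 0) := by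
    split_ifs <;> (try simp only [star_mul, hh]) <;> noncomm_ring
  rw [e1]
  refine norm_add₃_le.trans ?_
  have b1 : ‖-(star x * (y * (h * h) - (h * h) * y))‖ ≤ C * ε := by
    rw [norm_neg]
    refine (norm_mul_le _ _).trans ?_
    rw [norm_star]
    exact mul_le_mul hx hy (norm_nonneg _) (by linarith)
  have b2 : ‖(star x * y - (if P then star d * d else 0)) * (h * h)‖ ≤ ε :=
    (norm_mul_le _ _).trans ((mul_le_mul ho hg1 (norm_nonneg _) hε).trans_eq (mul_one ε))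
  have b3 : ‖(if P then (star d * (d * h - h * d) + (star d * h - h * star d) * d) * h else 0)‖
      ≤ 2 * C * ε := by
    split_ifs
    · refine (norm_mul_le _ _).trans ((mul_le_of_le_one_right (norm_nonneg _) hh1).trans ?_)
      refine (norm_add_le _ _).trans ?_
      have c1 := (norm_mul_le (star d) (d * h - h * d)).trans
        (mul_le_mul ((norm_star d).trans_le hd) hdh (norm_nonneg _) (by linarith))
      have c2 := (norm_mul_le (star d * h - h * star d) d).trans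
        (mul_le_mul hdh' hd (norm_nonneg _) hε)
      linarith
    · simp only [norm_zero]; positivity
  nlinarith

omit [PartialOrder A] [StarOrderedRing A] in
/-- The translates separate the rows, and the central element moves to the right. -/
lemma sandwich_est {ι κ : Type*} [Fintype ι] [DecidableEq ι] [Fintype κ] {h d : A} (u : ι → A)
    (w : κ → A) (T : ι → κ → A) {C D ε : ℝ} (hh : star h = h) (hh1 : ‖h‖ ≤ 1) (hC : 1 ≤ C)
    (hε : 0 ≤ ε) (hε1 : ε ≤ 1) (hd : ‖d‖ ≤ C) (hu : ∀ a, ‖u a‖ ≤ C) (hw : ∀ i, ‖w i‖ ≤ C)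
    (hdh : ‖d * h - h * d‖ ≤ ε) (hug : ∀ a, ‖u a * (h * h) - (h * h) * u a‖ ≤ ε)
    (ho : ∀ a b, ‖star (u a) * u b - (if a = b then star d * d else 0)‖ ≤ ε)
    (hD : ∀ a, ‖∑ i, T a i * w i‖ ≤ D)
    (hdT : ∀ a i, ‖d * (h * T a i) - (h * T a i) * d‖ ≤ ε) :
    ‖star (∑ a, u a * ∑ i, T a i * w i) * (h * h) * (∑ a, u a * ∑ i, T a i * w i)
        - ∑ a, star (∑ i, h * T a i * (d * w i)) * (∑ i, h * T a i * (d * w i))‖
      ≤ ((Fintype.card ι : ℝ) * Fintype.card ι * (4 * C) * D * D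
        + Fintype.card ι * ((Fintype.card κ * C) * (2 * (C * D) + Fintype.card κ * C))) * ε := by
  set TT : ι → A := fun a => ∑ i, T a i * w i with hTT
  set Y := ∑ a, u a * TT a with hY
  set P : ι → A := fun a => ∑ i, h * T a i * (d * w i) with hP
  have hA : ‖star Y * (h * h) * Y - ∑ a, star (d * h * TT a) * (d * h * TT a)‖
      ≤ (Fintype.card ι : ℝ) * Fintype.card ι * (4 * C) * D * D * ε := by
    have e1 : star Y * (h * h) * Y - ∑ a, star (d * h * TT a) * (d * h * TT a)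
        = ∑ a, ∑ b, star (TT a) * (star (u a) * (h * h) * u b
          - (if a = b then star (d * h) * (d * h) else 0)) * TT b := by
      have l : star Y * (h * h) * Y
          = ∑ a, ∑ b, star (TT a) * (star (u a) * (h * h) * u b) * TT b := by
        simp only [hY, star_sum, star_mul, Finset.sum_mul, Finset.mul_sum, mul_assoc]
        exact Finset.sum_comm
      simp only [l, mul_sub, sub_mul, Finset.sum_sub_distrib, mul_ite, ite_mul, mul_zero, zero_mul,
        Finset.sum_ite_eq, Finset.mem_univ, if_true, star_mul, mul_assoc]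
    rw [e1]
    refine (norm_sum_sum_le _ (c := D * (4 * C * ε) * D) fun a b => ?_).trans_eq (by ring)
    have hD0 : 0 ≤ D := (norm_nonneg _).trans (hD a)
    refine (norm_mul_le _ _).trans (mul_le_mul ((norm_mul_le _ _).trans ?_) (hD b)
      (norm_nonneg _) (by positivity))
    rw [norm_star]
    exact mul_le_mul (hD a) (mid_le hh hh1 hC hd (hu a) hε hdh (hug b) (ho a b)) (norm_nonneg _)
      hD0
  have hB : ‖∑ a, star (d * h * TT a) * (d * h * TT a) - ∑ a, star (P a) * P a‖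
      ≤ Fintype.card ι * ((Fintype.card κ * C) * (2 * (C * D) + Fintype.card κ * C)) * ε := by
    rw [← Finset.sum_sub_distrib]
    refine (norm_sum_le _ _).trans ((Finset.sum_le_sum
      (g := fun _ => (Fintype.card κ * C) * (2 * (C * D) + Fintype.card κ * C) * ε)
      fun a _ => ?_).trans_eq (by simp; ring))
    refine (norm_star_mul_self_sub_le _ _).trans ?_
    have e1 : d * h * TT a - P a = ∑ i, (d * (h * T a i) - (h * T a i) * d) * w i := by
      simp only [hTT, hP, Finset.mul_sum, ← Finset.sum_sub_distrib, sub_mul, mul_assoc]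
    have b1 : ‖d * h * TT a - P a‖ ≤ Fintype.card κ * (C * ε) := by
      rw [e1]
      refine (norm_sum_le _ _).trans
        ((Finset.sum_le_sum (g := fun _ => C * ε) fun i _ => ?_).trans_eq (by simp))
      exact (norm_mul_le _ _).trans
        ((mul_le_mul (hdT a i) (hw i) (norm_nonneg _) hε).trans_eq (mul_comm _ _))
    have b2 : ‖d * h * TT a‖ ≤ C * D :=
      (norm_mul_le _ _).trans (mul_le_mul ((norm_mul_le _ _).trans
        ((mul_le_of_le_one_right (norm_nonneg _) hh1).trans hd)) (hD a) (norm_nonneg _)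
        (by linarith))
    have b3 : ‖P a‖ ≤ C * D + Fintype.card κ * C := by
      have h3 := norm_sub_le (d * h * TT a) (d * h * TT a - P a)
      rw [sub_sub_cancel] at h3
      have h5 : (Fintype.card κ : ℝ) * (C * ε) ≤ Fintype.card κ * C :=
        mul_le_mul_of_nonneg_left (mul_le_of_le_one_right (by linarith) hε1) (Nat.cast_nonneg _)
      linarith
    refine (mul_le_mul b1 (add_le_add b2 b3) (by positivity) (by positivity)).trans_eq ?_
    ring
  have := norm_sub_le_norm_sub_add_norm_sub (star Y * (h * h) * Y)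
    (∑ a, star (d * h * TT a) * (d * h * TT a)) (∑ a, star (P a) * P a)
  rw [add_mul]
  linarith

/-- The nested forms of two almost isometric arrays at almost central pieces. -/
lemma form_est {h f f1 f2 : A} {γ θ ε : ℝ} (hf1 : IsSelfAdjoint f1)
    (hf2 : IsSelfAdjoint f2) (hfs : IsSelfAdjoint f) (hfn : ‖f‖ ≤ 1) (hγ : 0 < γ) (hγ1 : γ ≤ 1)
    (hθ : 0 < θ) (hθ1 : θ ≤ 1 / 8) (hε : ε ≤ θ)
    {r1 c1 r2 c2 : ℕ} {κ : Type*} [Fintype κ] (S1 : Fin r1 → Fin c1 → A) (T2 : Fin r2 → Fin c2 → A)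
    (σ : κ → Fin c2 × Fin c1) (hσ : Function.Injective σ) (v : κ → A)
    (hv : ‖∑ i, star (v i) * v i - 1‖ ≤ ε)
    (hfv : ‖∑ i, star (v i) * f * v i - f * ∑ i, star (v i) * v i‖ ≤ θ)
    (h1 : ‖gram S1 - diagConst c1 f1‖ ≤ θ) (h1' : ‖f1 - f‖ ≤ θ)
    (h2 : ‖gram (fun r p => h * T2 r p) - diagConst c2 f2‖ ≤ θ)
    (h2' : ‖f2 - algebraMap ℝ A γ‖ ≤ θ) :
    ‖∑ μ : Fin r2 × Fin r1, star (∑ i, h * (T2 μ.1 (σ i).1 * S1 μ.2 (σ i).2) * v i)
        * (∑ i, h * (T2 μ.1 (σ i).1 * S1 μ.2 (σ i).2) * v i) - γ • f‖ ≤ 10 * θ := by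
  classical
  set V : Fin c2 × Fin c1 → A := Function.extend σ v 0 with hV
  set Z : Fin r1 → Fin c2 → A := fun a p => ∑ q, S1 a q * V (p, q) with hZ
  have hPZ : ∀ (b : Fin r2) (a : Fin r1),
      ∑ i, h * (T2 b (σ i).1 * S1 a (σ i).2) * v i = ∑ p, h * T2 b p * Z a p := by
    intro b a
    have e := sum_extend hσ v (fun p x => h * (T2 b p.1 * (S1 a p.2 * x))) (by simp)
    simp only [Fintype.sum_prod_type] at e
    simp only [hZ, hV, Finset.mul_sum, mul_assoc] at e ⊢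
    exact e.symm
  set R := ∑ a, ∑ p, star (Z a p) * Z a p with hR
  set E0 := ∑ i, star (v i) * v i with hE0
  have hV0 : ∀ e : A, ∑ p, ∑ q, star (V (p, q)) * e * V (p, q)
      = ∑ i, star (v i) * e * v i := fun e => by
    have h3 := sum_extend hσ v (fun _ x => star x * e * x) (by simp)
    simpa only [Fintype.sum_prod_type] using h3
  have hone' : ‖(1 : A)‖ ≤ 1 := by
    rcases subsingleton_or_nontrivial A with hs | hn
    · simp [Subsingleton.elim (1 : A) 0]
    · simp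
  have hE2 : ‖E0‖ ≤ 2 := by
    have := norm_le_insert' E0 (1 : A)
    linarith
  have hRf1 : ‖R - ∑ i, star (v i) * f1 * v i‖ ≤ 2 * θ := by
    have h3 := norm_sum_qf_le (gram S1 - diagConst c1 f1) (isSelfAdjoint_gram_sub S1 hf1)
      (fun p q => V (p, q))
    simp only [qf_gram_sub, Finset.sum_sub_distrib] at h3
    rw [hV0 f1] at h3
    have e1 : ∑ p, ∑ q, star (V (p, q)) * V (p, q) = E0 := by simpa using hV0 1
    rw [e1, Finset.sum_comm] at h3
    exact h3.trans ((mul_le_mul h1 hE2 (norm_nonneg _) hθ.le).trans_eq (mul_comm _ _))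
  have hRf : ‖R - f‖ ≤ 6 * θ := by
    have t1 : ‖∑ i, star (v i) * f1 * v i - ∑ i, star (v i) * f * v i‖ ≤ 2 * θ := by
      rw [← Finset.sum_sub_distrib]
      have h3 := norm_sum_conj_le (hf1.sub hfs) v
      refine le_of_eq_of_le ?_ (h3.trans ((mul_le_mul h1' hE2 (norm_nonneg _) hθ.le).trans_eq
        (mul_comm _ _)))
      simp only [mul_sub, sub_mul]
    have t3 : ‖f * E0 - f‖ ≤ ε := by
      have e : f * E0 - f = f * (E0 - 1) := by rw [mul_sub, mul_one]
      rw [e]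
      exact (norm_mul_le _ _).trans ((mul_le_mul hfn hv (norm_nonneg _) zero_le_one).trans_eq
        (one_mul ε))
    have := norm_sub_le_norm_sub_add_norm_sub R (∑ i, star (v i) * f1 * v i) f
    have := norm_sub_le_norm_sub_add_norm_sub (∑ i, star (v i) * f1 * v i)
      (∑ i, star (v i) * f * v i) f
    have := norm_sub_le_norm_sub_add_norm_sub (∑ i, star (v i) * f * v i) (f * E0) f
    linarith
  have hR2 : ‖R‖ ≤ 2 := by
    have := norm_le_insert' R f
    linarith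
  have h3 := norm_sum_qf_le (gram (fun r p => h * T2 r p) - diagConst c2 f2)
    (isSelfAdjoint_gram_sub _ hf2) Z
  simp only [qf_gram_sub, Finset.sum_sub_distrib] at h3
  rw [Fintype.sum_prod_type, Finset.sum_comm]
  simp only [hPZ]
  set M := ∑ a, ∑ b, star (∑ p, h * T2 b p * Z a p) * ∑ p, h * T2 b p * Z a p
  set M2 := ∑ a, ∑ p, star (Z a p) * f2 * Z a p with hM2
  have t1 : ‖M - M2‖ ≤ 2 * θ :=
    h3.trans ((mul_le_mul h2 hR2 (norm_nonneg _) hθ.le).trans_eq (mul_comm _ _))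
  have h4 := norm_sum_conj_le (hf2.sub (IsSelfAdjoint.algebraMap A (IsSelfAdjoint.all γ)))
    (fun q : Fin r1 × Fin c2 => Z q.1 q.2)
  simp only [Fintype.sum_prod_type] at h4
  have t2 : ‖M2 - γ • R‖ ≤ 2 * θ := by
    refine le_of_eq_of_le ?_ (h4.trans ((mul_le_mul h2' hR2 (norm_nonneg _) hθ.le).trans_eq
      (mul_comm _ _)))
    congr 1
    simp only [hM2, hR, mul_sub, sub_mul, Finset.sum_sub_distrib, Finset.smul_sum,
      Algebra.algebraMap_eq_smul_one, mul_smul_comm, mul_one, smul_mul_assoc]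
  have hC3 : ‖γ • R - γ • f‖ ≤ 6 * θ := by
    rw [← smul_sub, norm_smul, Real.norm_of_nonneg hγ.le]
    exact (mul_le_of_le_one_left (norm_nonneg _) hγ1).trans hRf
  have := norm_sub_le_norm_sub_add_norm_sub M M2 (γ • R)
  have := norm_sub_le_norm_sub_add_norm_sub M (γ • R) (γ • f)
  linarith

omit [PartialOrder A] [StarOrderedRing A] in
lemma central_est {κ : Type*} [Fintype κ] {d f : A} (w : κ → A) {C ε : ℝ} (hf : IsSelfAdjoint f)
    (hC : 1 ≤ C) (hε : 0 ≤ ε) (hd : ‖d‖ ≤ C) (hw : ∀ i, ‖w i‖ ≤ C)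
    (hdf : ‖d * f - f * d‖ ≤ ε) (hwf : ∀ i, ‖w i * f - f * w i‖ ≤ ε) :
    ‖∑ i, star (d * w i) * f * (d * w i) - f * ∑ i, star (d * w i) * (d * w i)‖
      ≤ Fintype.card κ * (2 * C) * (C * C) * ε := by
  rw [Finset.mul_sum, ← Finset.sum_sub_distrib]
  refine (norm_sum_le _ _).trans ((Finset.sum_le_sum (g := fun _ => 2 * C * ε * (C * C))
    fun i _ => ?_).trans_eq (by simp; ring))
  rw [← mul_assoc f, ← sub_mul]
  refine (norm_mul_le _ _).trans (mul_le_mul ?_ ((norm_mul_le _ _).trans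
    (mul_le_mul hd (hw i) (norm_nonneg _) (by linarith))) (norm_nonneg _) (by positivity))
  rw [← norm_star]
  simp only [star_sub, star_mul, star_star, hf.star_eq]
  have e : f * (d * w i) - d * w i * f
      = -((d * f - f * d) * w i) - d * (w i * f - f * w i) := by noncomm_ring
  rw [e]
  refine (norm_sub_le _ _).trans ?_
  rw [norm_neg]
  have c1 := (norm_mul_le (d * f - f * d) (w i)).trans
    (mul_le_mul hdf (hw i) (norm_nonneg _) hε)
  have c2 := (norm_mul_le d (w i * f - f * w i)).trans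
    (mul_le_mul hd (hwf i) (norm_nonneg _) (by linarith))
  linarith

/-- Two almost isometric arrays and central pieces carry one element under another. -/
lemma transfer (hP : HasPieces A) {h f f1 f2 : A} {γ θ : ℝ} (hh : IsSelfAdjoint h) (hh1 : ‖h‖ ≤ 1)
    (hf1 : IsSelfAdjoint f1) (hf2 : IsSelfAdjoint f2) (hfs : IsSelfAdjoint f) (hfn : ‖f‖ ≤ 1)
    (hγ : 0 < γ) (hγ1 : γ ≤ 1) (hθ : 0 < θ) (hθ1 : θ ≤ 1 / 8)
    {r1 c1 r2 c2 : ℕ} (S1 : Fin r1 → Fin c1 → A) (T2 : Fin r2 → Fin c2 → A)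
    (hr : 0 < r2 * r1) (hc : 4 * (r2 * r1) ≤ c2 * c1)
    (h1 : ‖gram S1 - diagConst c1 f1‖ ≤ θ) (h1' : ‖f1 - f‖ ≤ θ)
    (h2 : ‖gram (fun r p => h * T2 r p) - diagConst c2 f2‖ ≤ θ)
    (h2' : ‖f2 - algebraMap ℝ A γ‖ ≤ θ) :
    ∃ Y : A, ‖star Y * (h * h) * Y - γ • f‖ ≤ 16 * θ := by
  classical
  set j := Nat.clog 2 (r2 * r1) with hjdef
  have hj1 : r2 * r1 ≤ 2 ^ j := Nat.le_pow_clog one_lt_two _
  have hj2 : 2 ^ (j + 1) ≤ 4 * (r2 * r1) := by
    rcases Nat.lt_or_ge 1 (r2 * r1) with h3 | h3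
    · have h4 := Nat.pow_pred_clog_lt_self one_lt_two h3
      have h5 : 1 ≤ j := Nat.clog_pos one_lt_two h3
      have h6 : 2 ^ j = 2 * 2 ^ (j - 1) := by rw [← pow_succ', Nat.sub_add_cancel h5]
      rw [Nat.pred_eq_sub_one, ← hjdef] at h4
      rw [pow_succ, h6]
      omega
    · rw [hjdef, Nat.clog_of_right_le_one (by omega)]
      omega
  obtain ⟨ρ⟩ := Function.Embedding.nonempty_of_card_le (α := Fin r2 × Fin r1) (β := Fin (2 ^ j))
    (by simpa using hj1)
  obtain ⟨σ⟩ := Function.Embedding.nonempty_of_card_le (α := Fin (2 ^ (j + 1)))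
    (β := Fin c2 × Fin c1) (by simpa using hj2.trans hc)
  obtain ⟨C₀, hC₀⟩ := hP j
  obtain ⟨C, hC1, hC0'⟩ : ∃ C : ℝ, 1 ≤ C ∧ C₀ ≤ C :=
    ⟨max C₀ 1, le_max_right _ _, le_max_left _ _⟩
  let T : Fin r2 × Fin r1 → Fin (2 ^ (j + 1)) → A :=
    fun μ i => T2 μ.1 (σ i).1 * S1 μ.2 (σ i).2
  obtain ⟨D, hD0, hTD⟩ : ∃ D : ℝ, 0 ≤ D ∧ ∀ μ, ∑ i, ‖T μ i‖ ≤ D :=
    ⟨∑ μ, ∑ i, ‖T μ i‖, Finset.sum_nonneg fun μ _ => Finset.sum_nonneg fun i _ => norm_nonneg _,
      fun μ => Finset.single_le_sum (f := fun μ => ∑ i, ‖T μ i‖)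
        (fun _ _ => Finset.sum_nonneg fun i _ => norm_nonneg _) (Finset.mem_univ μ)⟩
  let n1 : ℝ := (Fintype.card (Fin r2 × Fin r1) : ℝ)
  let n2 : ℝ := (Fintype.card (Fin (2 ^ (j + 1))) : ℝ)
  let K1 : ℝ := n1 * n1 * (4 * C) * (D * C) * (D * C)
    + n1 * ((n2 * C) * (2 * (C * (D * C)) + n2 * C))
  let K2 : ℝ := n2 * (2 * C) * (C * C)
  have hK1 : 0 ≤ K1 := by positivity
  have hK2 : 0 ≤ K2 := by positivity
  let ε : ℝ := θ / (K1 + K2 + 1)
  have hε0 : 0 < ε := by positivity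
  have hεθ : ε ≤ θ := div_le_self hθ.le (by linarith)
  have hKε : (K1 + K2 + 1) * ε = θ := mul_div_cancel₀ _ (by positivity)
  let Sf : Finset A := ({f, h, h * h} : Finset A) ∪
    (Finset.univ : Finset ((Fin r2 × Fin r1) × Fin (2 ^ (j + 1)))).image
      (fun q => h * T q.1 q.2)
  obtain ⟨d, u, w, hd₀, hu₀, hw₀, hcom, horth, hone⟩ := hC₀ Sf ε hε0
  have hw : ∀ i, ‖w i‖ ≤ C := fun i => (hw₀ i).trans hC0'
  have hcf := hcom f (by simp [Sf])
  have hDT : ∀ μ, ‖∑ i, T μ i * w i‖ ≤ D * C := fun μ => by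
    refine (norm_sum_le _ _).trans ((Finset.sum_le_sum fun i _ => (norm_mul_le _ _).trans
      (mul_le_mul_of_nonneg_left (hw i) (norm_nonneg _))).trans ?_)
    rw [← Finset.sum_mul]
    exact mul_le_mul_of_nonneg_right (hTD μ) (by linarith)
  have hTm : ∀ μ i, h * T μ i ∈ Sf := fun μ i =>
    Finset.mem_union_right _ (Finset.mem_image.2 ⟨(μ, i), Finset.mem_univ _, rfl⟩)
  have a1 := sandwich_est (h := h) (d := d) (fun μ => u (ρ μ)) w T hh.star_eq hh1 hC1 hε0.le
    (by linarith) (hd₀.trans hC0') (fun μ => (hu₀ _).trans hC0') hw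
    (hcom h (by simp [Sf])).1 (fun μ => (hcom (h * h) (by simp [Sf])).2.1 _)
    (fun a b => by simpa only [ρ.injective.eq_iff] using horth (ρ a) (ρ b)) hDT
    (fun μ i => (hcom (h * T μ i) (hTm μ i)).1)
  have a2 := central_est w hfs hC1 hε0.le (hd₀.trans hC0') hw hcf.1 hcf.2.2
  have hv : ‖∑ i, star (d * w i) * (d * w i) - 1‖ ≤ ε := by
    refine le_of_eq_of_le ?_ hone
    simp only [star_mul, mul_assoc]
  have p1 : 0 ≤ K1 * ε := by positivity
  have p2 : 0 ≤ K2 * ε := by positivity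
  have a3 := form_est (h := h) hf1 hf2 hfs hfn hγ hγ1 hθ hθ1 hεθ S1 T2 σ σ.injective
    (fun i => d * w i) hv (a2.trans (by change K2 * ε ≤ θ; linarith)) h1 h1' h2 h2'
  refine ⟨_, (norm_sub_le_norm_sub_add_norm_sub _ _ _).trans ((add_le_add a1 a3).trans ?_)⟩
  change K1 * ε + 10 * θ ≤ 16 * θ
  linarith

end

/-- Comparison by traces from certificates, amplification and central pieces. -/
theorem finishPin : FinishPin.{u} := by
  intro hCert hAmp hM A _ _ hτ hN hPieces γ η hγ hη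
  classical
  let := CStarAlgebra.spectralOrder A
  have := CStarAlgebra.spectralOrderedRing A
  obtain ⟨γ', hγ0, hγγ, hγh⟩ : ∃ γ' : ℝ, 0 < γ' ∧ γ' ≤ γ ∧ γ' ≤ 1 / 2 :=
    ⟨min γ (1 / 2), lt_min hγ (by norm_num), min_le_left _ _, min_le_right _ _⟩
  obtain ⟨η', hη0, hηη, hη1⟩ : ∃ η' : ℝ, 0 < η' ∧ η' ≤ η ∧ η' ≤ 1 :=
    ⟨min η 1, lt_min hη one_pos, min_le_left _ _, min_le_right _ _⟩
  set θ := γ' * η' / 64 with hθdef
  have hθ : 0 < θ := by positivity
  have hθ1 : θ ≤ 1 / 8 := by rw [hθdef]; nlinarith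
  obtain ⟨L, hL⟩ := exists_nat_ge ((30 / θ) ^ 2)
  have hL0 : 0 < L := by
    rcases Nat.eq_zero_or_pos L with h | h
    · subst h
      have : 0 < (30 / θ) ^ 2 := by positivity
      simp only [Nat.cast_zero] at hL
      linarith
    · exact h
  have hLθ : 30 / Real.sqrt L ≤ θ := by
    have h1 : 30 / θ ≤ Real.sqrt L := Real.le_sqrt_of_sq_le hL
    rw [div_le_iff₀ (by positivity)]
    rw [div_le_iff₀ hθ] at h1
    linarith
  set b := 12 * L ^ 2 with hb
  have hb0 : 0 < b := by positivity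
  have hb0' : (0 : ℝ) < (b : ℝ) := by exact_mod_cast hb0
  set δ : ℝ := 1 / (2 * (b : ℝ)) with hδdef
  have hδ : 0 < δ := by positivity
  refine ⟨δ, hδ, fun f g hf hg hf1 hg1 htr ε hε => ?_⟩
  have hfs := hf.isSelfAdjoint
  have hg0' := hg.nonneg
  obtain ⟨τ₀, hτ₀⟩ := hτ
  have halg : ∀ τ, IsTraceOn (⊤ : StarSubalgebra ℂ A) τ → ∀ r : ℝ,
      (τ (algebraMap ℝ A r)).re = r := fun τ hτ' r => by
    rw [Algebra.algebraMap_eq_smul_one, ← Complex.coe_smul, hτ'.smul _ _ trivial, hτ'.one]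
    simp
  have hpalg : ∀ r : ℝ, 0 ≤ r → IsPos (algebraMap ℝ A r) := fun r hr =>
    ⟨algebraMap ℝ A (Real.sqrt r), by
      rw [← algebraMap_star_comm, star_trivial, ← map_mul, Real.mul_self_sqrt hr]⟩
  have hgne : g ≠ 0 := by
    rintro rfl
    have h1 := (htr τ₀ hτ₀).2
    have h2 : τ₀ ((0 : ℂ) • (0 : A)) = 0 := by rw [hτ₀.smul _ _ trivial, zero_mul]
    rw [zero_smul] at h2
    rw [h2, Complex.zero_re] at h1
    linarith
  obtain ⟨ε₀, hε₀, hfac⟩ := exists_factor_tuple hg0' hgne hg1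
  have hL' : (1 : ℝ) ≤ L := by exact_mod_cast hL0
  -- forward
  obtain ⟨k, z, hz1, hz2⟩ := hCert A f (algebraMap ℝ A δ) hf (hpalg δ hδ.le)
    (fun τ hτ' => by rw [halg τ hτ']; exact (htr τ hτ').1) (min (θ / 2) (1 / (4 * (b : ℝ))))
    (lt_min (by linarith) (by positivity))
  obtain ⟨e, he0, heθ, heb, hz1, hz2⟩ : ∃ e : ℝ, 0 < e ∧ e ≤ θ / 2 ∧ e ≤ 1 / (4 * (b : ℝ)) ∧
      ‖(∑ i, star (z i) * z i) - f‖ ≤ e ∧
      IsPos (algebraMap ℝ A δ + algebraMap ℝ A e - ∑ i, z i * star (z i)) :=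
    ⟨_, lt_min (by linarith) (by positivity), min_le_left _ _, min_le_right _ _, hz1, hz2⟩
  set c := (1 + e)⁻¹ with hc
  have hc0 : 0 < c := by positivity
  have hc1 : c ≤ 1 := inv_le_one_of_one_le₀ (by linarith)
  set z' : Fin k → A := fun i => Real.sqrt c • z i with hz'
  have hs1 : ∑ i, star (z' i) * z' i = c • ∑ i, star (z i) * z i := by
    simp [hz', smul_smul, Real.mul_self_sqrt hc0.le, Finset.smul_sum]
  have hs2 : ∑ i, z' i * star (z' i) = c • ∑ i, z i * star (z i) := by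
    simp [hz', smul_smul, Real.mul_self_sqrt hc0.le, Finset.smul_sum]
  have hn0 : ‖∑ i, star (z i) * z i‖ ≤ 1 + e := by
    have := norm_le_insert' (∑ i, star (z i) * z i) f
    linarith
  have hn1 : ‖∑ i, star (z' i) * z' i‖ ≤ 1 := by
    rw [hs1, norm_smul, Real.norm_of_nonneg hc0.le]
    calc c * ‖∑ i, star (z i) * z i‖ ≤ c * (1 + e) := mul_le_mul_of_nonneg_left hn0 hc0.le
      _ = 1 := by rw [hc]; field_simp
  have hn2 : ‖∑ i, z' i * star (z' i)‖ ≤ δ + e := by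
    rw [hs2, norm_smul, Real.norm_of_nonneg hc0.le]
    refine (mul_le_of_le_one_left (norm_nonneg _) hc1).trans ?_
    refine (CStarAlgebra.norm_le_iff_le_algebraMap _ (by positivity)
      (Finset.sum_nonneg fun i _ => mul_star_self_nonneg _)).2 ?_
    rw [map_add]
    exact sub_nonneg.1 hz2.nonneg
  have hf1' : ‖(∑ i, star (z' i) * z' i) - f‖ ≤ θ := by
    rw [hs1]
    have h5 : ‖c • (∑ i, star (z i) * z i) - ∑ i, star (z i) * z i‖ ≤ e := by
      rw [show c • (∑ i, star (z i) * z i) - ∑ i, star (z i) * z i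
          = (c - 1) • ∑ i, star (z i) * z i by rw [sub_smul, one_smul], norm_smul,
        Real.norm_eq_abs, abs_of_nonpos (by linarith)]
      calc -(c - 1) * ‖∑ i, star (z i) * z i‖ ≤ -(c - 1) * (1 + e) :=
            mul_le_mul_of_nonneg_left hn0 (by linarith)
        _ = e := by rw [hc]; field_simp; ring
    have := norm_sub_le_norm_sub_add_norm_sub (c • ∑ i, star (z i) * z i)
      (∑ i, star (z i) * z i) f
    linarith
  have hbδ : (b : ℝ) * (δ + e) < ((1 : ℕ) : ℝ) := by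
    calc (b : ℝ) * (δ + e) ≤ (b : ℝ) * (1 / (2 * b) + 1 / (4 * b)) :=
          mul_le_mul_of_nonneg_left (by linarith) hb0'.le
      _ = 3 / 4 := by field_simp; ring
      _ < _ := by norm_num
  obtain ⟨Q, v, hQ, hv⟩ := hAmp hM A hN 1 b L one_pos hb0 hL0 k z' (δ + e) (by linarith) hbδ
    hn1 hn2
  -- backward
  obtain ⟨k₂, y, hy1, hy2⟩ := hCert A (algebraMap ℝ A γ') g (hpalg γ' hγ0.le) hg
    (fun τ hτ' => by rw [halg τ hτ']; exact hγγ.trans (htr τ hτ').2) (min θ ε₀) (lt_min hθ hε₀)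
  obtain ⟨m, x, hx1, hx2⟩ := hfac (min θ ε₀) (lt_min hθ hε₀) (min_le_right _ _) k₂ y
    (sub_nonneg.1 hy2.nonneg)
  have hy1' : ‖(∑ i, star (y i) * y i) - algebraMap ℝ A γ'‖ ≤ θ := hy1.trans (min_le_left _ _)
  have hn3 : ‖∑ i, star (CFC.sqrt g * x i) * (CFC.sqrt g * x i)‖ ≤ 1 := by
    rw [hx1]
    have h5 := norm_le_insert' (∑ i, star (y i) * y i) (algebraMap ℝ A γ')
    have h6 : ‖algebraMap ℝ A γ'‖ ≤ γ' := by
      rcases subsingleton_or_nontrivial A with hs | hn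
      · simp [Subsingleton.elim (algebraMap ℝ A γ') 0, hγ0.le]
      · rw [norm_algebraMap', Real.norm_of_nonneg hγ0.le]
    linarith
  obtain ⟨Q₂, v₂, hQ₂, hv₂⟩ := hAmp hM A hN 3 1 L (by norm_num) one_pos hL0 m
    (fun i => CFC.sqrt g * x i) 2 two_pos (by norm_num) hn3 hx2
  have hh : IsSelfAdjoint (CFC.sqrt g) := IsSelfAdjoint.of_nonneg (CFC.sqrt_nonneg g)
  have hhh : CFC.sqrt g * CFC.sqrt g = g := CFC.sqrt_mul_sqrt_self g hg0'
  have hh1 : ‖CFC.sqrt g‖ ≤ 1 := by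
    have e' := CStarRing.norm_star_mul_self (x := CFC.sqrt g)
    rw [hh.star_eq, hhh] at e'
    nlinarith [norm_nonneg (CFC.sqrt g)]
  have h2 : ‖gram (fun r p => CFC.sqrt g * ∑ i, v₂ i r p • x i)
      - diagConst (1 * Q₂) (∑ i, star (CFC.sqrt g * x i) * (CFC.sqrt g * x i))‖ ≤ θ := by
    refine le_of_eq_of_le ?_ (hv₂.trans hLθ)
    simp only [Finset.mul_sum, mul_smul_comm]
  obtain ⟨Y, hY⟩ := transfer hPieces hh hh1
    (isSelfAdjoint_sum_star z') (isSelfAdjoint_sum_star fun i => CFC.sqrt g * x i) hfs hf1 hγ0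
    (by linarith) hθ hθ1 (fun r p => ∑ i, v i r p • z' i) (fun r p => ∑ i, v₂ i r p • x i)
    (Nat.mul_pos (by positivity) (by positivity))
    (le_of_eq (by rw [hb]; ring)) (hv.trans hLθ) hf1' h2 (by rw [hx1]; exact hy1')
  rw [hhh] at hY
  have hX : ‖γ'⁻¹ • (star Y * g * Y) - f‖ ≤ η' / 4 := by
    have e' : γ'⁻¹ • (star Y * g * Y) - f = γ'⁻¹ • (star Y * g * Y - γ' • f) := by
      rw [smul_sub, smul_smul, inv_mul_cancel₀ hγ0.ne', one_smul]
    rw [e', norm_smul, Real.norm_of_nonneg (by positivity)]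
    calc γ'⁻¹ * ‖star Y * g * Y - γ' • f‖ ≤ γ'⁻¹ * (16 * θ) :=
          mul_le_mul_of_nonneg_left hY (by positivity)
      _ = η' / 4 := by rw [hθdef]; field_simp; ring
  have ha : 0 ≤ γ'⁻¹ • (star Y * g * Y) :=
    smul_nonneg (by positivity) (star_left_conjugate_nonneg hg0' Y)
  obtain ⟨x', hx'⟩ := exists_cut_factor ha hfs (show η' / 4 < η by linarith) hX hε
  refine ⟨Real.sqrt γ'⁻¹ • (Y * x'), ?_⟩
  refine le_of_eq_of_le ?_ hx'
  simp [smul_smul, ← mul_inv, Real.mul_self_sqrt hγ0.le, mul_assoc]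

end Vale.Agent.P095.SC
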