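import Vale.Agent.P095.SC.Finish
import Vale.Agent.P095.SC.Amplify
import Vale.Agent.P095.SC.Cert
import Vale.Agent.P095.SC.Count
import Vale.Agent.P095.SC.Pieces
import Vale.Agent.P095.SC.Random

/-!
P095, comparison from traces: composition of the blocks.
-/

namespace Vale.Agent.P095.SC

open Filter Tracial Vale.Agent.P101 Vale.Agent.P095.SN
open scoped BoundedContinuousFunction

universe u

/-- Comparison by traces for nuclear algebras without central characters. -/
theorem traceComparison (A : Type u) [CStarAlgebra A] [TopologicalSpace.SeparableSpace A]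
    [IsSimpleRing A] (hτ : ∃ τ, IsTraceOn (⊤ : StarSubalgebra ℂ A) τ) (hN : IsNuclear A)
    (w : Ultrafilter ℕ) (hw : (w : Filter ℕ) ≤ cofinite)
    (hno : ¬ ∃ χ : centralSeq (w : Filter ℕ) A →⋆ₐ[ℂ] ℂ,
        ∀ f : centralSeq (w : Filter ℕ) A, IsNull (w : Filter ℕ) (f : ℕ →ᵇ A) → χ f = 0) :
    TraceComparison A :=
  finishPin certPin amplifyPin (matrixPin countPin) A hτ hN (piecesPin A w hw hno)

end Vale.Agent.P095.SC
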