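import Mathlib

/-!
P095, comparison: operators on one slot per pair (note C2 (3)).
-/

namespace Vale.Agent.P095.SC

open Matrix
open scoped Matrix.Norms.L2Operator Kronecker

/-- The tensor product of a family of square matrices. -/
def piMat {e O : Type*} [Fintype e] (f : e → Matrix O O ℂ) : Matrix (e → O) (e → O) ℂ :=
  fun i j => ∏ x, f x (i x) (j x)

lemma piMat_one {e O : Type*} [Fintype e] [DecidableEq e] [DecidableEq O] :
    piMat (fun _ : e => (1 : Matrix O O ℂ)) = 1 := by
  ext i j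
  rw [piMat, Matrix.one_apply]
  split
  · next h => exact Finset.prod_eq_one fun x _ => by rw [h]; exact Matrix.one_apply_eq _
  · next h =>
    obtain ⟨x, hx⟩ := Function.ne_iff.1 h
    exact Finset.prod_eq_zero (Finset.mem_univ x) (Matrix.one_apply_ne hx)

lemma piMat_mul {e O : Type*} [Fintype e] [DecidableEq e] [Fintype O]
    (f g : e → Matrix O O ℂ) : piMat f * piMat g = piMat (fun x => f x * g x) := by
  ext i j
  simp only [piMat, Matrix.mul_apply, Finset.prod_univ_sum, Fintype.piFinset_univ,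
    Finset.prod_mul_distrib]

lemma piMat_conjTranspose {e O : Type*} [Fintype e] (f : e → Matrix O O ℂ) :
    (piMat f)ᴴ = piMat fun x => (f x)ᴴ := by
  ext i j
  simp [piMat, star_prod]

lemma piMat_update_zero {e O : Type*} [Fintype e] [DecidableEq e]
    (f : e → Matrix O O ℂ) (x : e) : piMat (Function.update f x 0) = 0 := by
  ext i j
  exact Finset.prod_eq_zero (Finset.mem_univ x) (by simp)

lemma piMat_diagonal {e O : Type*} [Fintype e] [DecidableEq e] [DecidableEq O] (d : e → O → ℂ) :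
    piMat (fun x => diagonal (d x)) = diagonal fun i => ∏ x, d x (i x) := by
  ext i j
  rw [piMat, diagonal_apply]
  split
  · next h => simp [h]
  · next h =>
    obtain ⟨x, hx⟩ := Function.ne_iff.1 h
    exact Finset.prod_eq_zero (Finset.mem_univ x) (diagonal_apply_ne _ hx)

/-- The one slot family. -/
def oneSlot {e O : Type*} [DecidableEq e] [DecidableEq O] (x : e) (B : Matrix O O ℂ) :
    e → Matrix O O ℂ :=
  Function.update (fun _ => 1) x B

variable {O : Type*} [Fintype O] [DecidableEq O]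

lemma norm_one_kron_le {ι κ : Type*} [Fintype ι] [DecidableEq ι] [Fintype κ] [DecidableEq κ]
    (d : κ → ℂ) (hd : ∀ i, ‖d i‖ ≤ 1) :
    ‖(1 : Matrix ι ι ℂ) ⊗ₖ (diagonal d : Matrix κ κ ℂ)‖ ≤ 1 := by
  rw [← diagonal_one, diagonal_kronecker_diagonal, l2_opNorm_diagonal]
  refine (pi_norm_le_iff_of_nonneg zero_le_one).2 fun i => ?_
  rw [one_mul]
  exact hd i.2

lemma norm_kron_one_le {ι μ κ : Type*} [Fintype ι] [DecidableEq ι] [Fintype μ] [DecidableEq μ]
    [Fintype κ] [DecidableEq κ] (A : Matrix ι μ ℂ) :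
    ‖A ⊗ₖ (1 : Matrix κ κ ℂ)‖ ≤ ‖A‖ := by
  rw [l2_opNorm_def]
  refine ContinuousLinearMap.opNorm_le_bound _ (norm_nonneg _) fun x => ?_
  show ‖(WithLp.toLp 2 ((A ⊗ₖ (1 : Matrix κ κ ℂ)) *ᵥ x.ofLp) : EuclideanSpace ℂ (ι × κ))‖ ≤ _
  have h : ∀ c, ‖(WithLp.toLp 2 (A *ᵥ fun u => x.ofLp (u, c)) : EuclideanSpace ℂ ι)‖
      ≤ ‖A‖ * ‖(WithLp.toLp 2 (fun u => x.ofLp (u, c)) : EuclideanSpace ℂ μ)‖ := fun c =>
    A.l2_opNorm_mulVec (WithLp.toLp 2 fun u => x.ofLp (u, c))
  refine abs_le_of_sq_le_sq' ?_ (by positivity) |>.2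
  rw [EuclideanSpace.norm_sq_eq, mul_pow, EuclideanSpace.norm_sq_eq, Fintype.sum_prod_type_right,
    Fintype.sum_prod_type_right, Finset.mul_sum]
  refine Finset.sum_le_sum fun c _ => ?_
  have h2 := pow_le_pow_left₀ (norm_nonneg _) (h c) 2
  rw [EuclideanSpace.norm_sq_eq, mul_pow, EuclideanSpace.norm_sq_eq] at h2
  refine le_trans (le_of_eq (Finset.sum_congr rfl fun a _ => ?_)) h2
  congr 2
  simp [Matrix.mulVec, dotProduct, Fintype.sum_prod_type, Matrix.one_apply]

lemma norm_kron_diagonal_le {ι κ : Type*} [Fintype ι] [DecidableEq ι] [Fintype κ] [DecidableEq κ]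
    (A : Matrix ι ι ℂ) (d : κ → ℂ) (hd : ∀ i, ‖d i‖ ≤ 1) :
    ‖A ⊗ₖ (diagonal d : Matrix κ κ ℂ)‖ ≤ ‖A‖ := by
  rw [show A ⊗ₖ (diagonal d : Matrix κ κ ℂ) = (A ⊗ₖ (1 : Matrix κ κ ℂ))
    * ((1 : Matrix ι ι ℂ) ⊗ₖ diagonal d) by rw [← mul_kronecker_mul, mul_one, one_mul]]
  refine (l2_opNorm_mul _ _).trans ?_
  exact (mul_le_of_le_one_right (norm_nonneg _) (norm_one_kron_le d hd)).trans (norm_kron_one_le A)

variable {k : ℕ} {e : Type*} [Fintype e] [DecidableEq e]

/-- Removing one label from a slot. -/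
def annOp (a : Fin k) : Matrix (Option (Fin k)) (Option (Fin k)) ℂ := single none (some a) 1

/-- Creating one label in a slot. -/
def creOp (a : Fin k) : Matrix (Option (Fin k)) (Option (Fin k)) ℂ := single (some a) none 1

lemma annOp_conjTranspose (a : Fin k) : (annOp a)ᴴ = creOp a := by
  simp [annOp, creOp, conjTranspose_single]

lemma ann_cre (a b : Fin k) :
    annOp a * creOp b = if a = b then single none none 1 else 0 := by
  split
  · next h => subst h; simp [annOp, creOp]
  · next h => exact single_mul_single_of_ne _ _ _ _ (by simp [h]) _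

lemma norm_ann_le {ι μ : Type*} [Fintype ι] [DecidableEq ι] [Fintype μ] [DecidableEq μ]
    (Z : Fin k → Matrix ι μ ℂ) (x : e) :
    ‖∑ a, Z a ⊗ₖ piMat (oneSlot x (annOp a))‖ ≤ Real.sqrt ‖∑ a, Z a * (Z a)ᴴ‖ := by
  refine Real.le_sqrt_of_sq_le ?_
  rw [sq, ← l2_opNorm_conjTranspose, ← l2_opNorm_conjTranspose_mul_self, conjTranspose_conjTranspose]
  have hd : (fun y => oneSlot x (single none none (1 : ℂ)) y)
      = fun y => diagonal (fun o : Option (Fin k) => if y = x ∧ o ≠ none then 0 else 1) := by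
    funext y
    rcases eq_or_ne y x with rfl | hy
    · rw [oneSlot, Function.update_self]
      ext o o'
      rcases o with _ | o <;> rcases o' with _ | o' <;> simp [diagonal_apply]
    · rw [oneSlot, Function.update_of_ne hy]
      simp [hy]
  have e1 : (∑ a, Z a ⊗ₖ piMat (oneSlot x (annOp a)))
      * (∑ a, Z a ⊗ₖ piMat (oneSlot x (annOp a)))ᴴ
      = (∑ a, Z a * (Z a)ᴴ) ⊗ₖ piMat (oneSlot x (single none none (1 : ℂ))) := by
    have hsum : ((∑ a, Z a * (Z a)ᴴ) ⊗ₖ
        piMat (oneSlot x (single (none : Option (Fin k)) none (1 : ℂ))))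
        = ∑ a, (Z a * (Z a)ᴴ) ⊗ₖ piMat (oneSlot x (single none none (1 : ℂ))) := by
      ext i j
      simp [kroneckerMap_apply, Matrix.sum_apply, Finset.sum_mul]
    rw [conjTranspose_sum, Matrix.sum_mul, hsum]
    refine Finset.sum_congr rfl fun a _ => ?_
    rw [Matrix.mul_sum]
    have slot : ∀ b, piMat (oneSlot x (annOp a)) * (piMat (oneSlot x (annOp b)))ᴴ
        = if a = b then piMat (oneSlot x (single none none (1 : ℂ))) else 0 := by
      intro b
      rw [piMat_conjTranspose, piMat_mul]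
      have : (fun y => oneSlot x (annOp a) y * (oneSlot x (annOp b) y)ᴴ)
          = oneSlot x (annOp a * creOp b) := by
        funext y
        rcases eq_or_ne y x with rfl | hy
        · simp [oneSlot, annOp_conjTranspose]
        · simp [oneSlot, Function.update_of_ne hy]
      rw [this, ann_cre]
      split
      · rfl
      · exact piMat_update_zero _ x
    simp only [conjTranspose_kronecker, ← mul_kronecker_mul, slot]
    rw [Finset.sum_eq_single a]
    · rw [if_pos rfl]
    · intro b _ hb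
      rw [if_neg (Ne.symm hb), kronecker_zero]
    · simp
  rw [e1, show oneSlot x (single none none (1 : ℂ)) = _ from hd, piMat_diagonal]
  refine norm_kron_diagonal_le _ _ fun i => ?_
  rw [norm_prod]
  exact Finset.prod_le_one (fun y _ => norm_nonneg _) fun y _ => by split <;> simp

lemma norm_cre_le {ι μ : Type*} [Fintype ι] [DecidableEq ι] [Fintype μ] [DecidableEq μ]
    (Z : Fin k → Matrix ι μ ℂ) (x : e) :
    ‖∑ a, Z a ⊗ₖ piMat (oneSlot x (creOp a))‖ ≤ Real.sqrt ‖∑ a, (Z a)ᴴ * Z a‖ := by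
  have h := norm_ann_le (fun a => (Z a)ᴴ) x
  simp only [conjTranspose_conjTranspose] at h
  refine le_trans (le_of_eq ?_) h
  rw [← l2_opNorm_conjTranspose, conjTranspose_sum]
  congr 1
  refine Finset.sum_congr rfl fun a _ => ?_
  rw [conjTranspose_kronecker, piMat_conjTranspose]
  congr 2
  funext y
  rcases eq_or_ne y x with rfl | hy
  · simp [oneSlot, ← annOp_conjTranspose]
  · simp [oneSlot, Function.update_of_ne hy]

end Vale.Agent.P095.SC
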