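import Mathlib

/-!
P095, comparison: the walk of two colourings and its encoding (note C2 (6)).
-/

namespace Vale.Agent.P095.SC

open Equiv

variable {q N : ℕ} [NeZero q]

/-- The alternating walk of two colourings. -/
def walk (a b : Fin q → Fin N) (s : ℕ) : Fin N ⊕ Fin N :=
  if Even s then Sum.inr (b (Fin.ofNat q (s / 2))) else Sum.inl (a (Fin.ofNat q (s / 2)))

lemma walk_even (a b : Fin q → Fin N) (t : ℕ) :
    walk a b (2 * t) = Sum.inr (b (Fin.ofNat q t)) := by
  rw [walk, if_pos (even_two_mul t), Nat.mul_div_cancel_left t two_pos]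

lemma walk_odd (a b : Fin q → Fin N) (t : ℕ) :
    walk a b (2 * t + 1) = Sum.inl (a (Fin.ofNat q t)) := by
  rw [walk, if_neg (Nat.not_even_iff_odd.2 (odd_two_mul_add_one t))]
  congr 2
  congr 1
  omega

lemma ofNat_val (u : Fin q) : Fin.ofNat q u.1 = u := Fin.ext (Nat.mod_eq_of_lt u.2)

/-- A step to a vertex not seen before. -/
def NewStep {V : Type*} (w : ℕ → V) (s : ℕ) : Prop := ∀ r ≤ s, w r ≠ w (s + 1)

/-- A step back along the step which discovered the current vertex. -/
def BackStep {V : Type*} (w : ℕ → V) (s : ℕ) : Prop :=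
  ∃ r < s, w (r + 1) = w s ∧ NewStep w r ∧ w (s + 1) = w r

lemma newStep_unique {V : Type*} {w : ℕ → V} {r r' : ℕ} (h : NewStep w r) (h' : NewStep w r')
    (e : w (r + 1) = w (r' + 1)) : r = r' := by
  rcases lt_trichotomy r r' with hlt | heq | hlt
  · exact absurd e (h' (r + 1) hlt)
  · exact heq
  · exact absurd e.symm (h (r' + 1) hlt)

/-- The letters of the encoding. -/
abbrev Letter (q N : ℕ) : Type := Fin N ⊕ (Unit ⊕ Fin (2 * q + 1))

open scoped Classical in
/-- The letter of one step. -/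
noncomputable def letterAt (w : ℕ → Fin N ⊕ Fin N) (s : Fin (2 * q)) : Letter q N :=
  if NewStep w s then Sum.inl (Sum.elim id id (w (s.1 + 1)))
  else if BackStep w s then Sum.inr (Sum.inl ())
  else Sum.inr (Sum.inr (if h : ∃ j ≤ s.1, w j = w (s.1 + 1) then
    ⟨h.choose, Nat.lt_succ_of_lt (lt_of_le_of_lt h.choose_spec.1 s.2)⟩ else 0))

lemma walk_side (a b a' b' : Fin q → Fin N) (s : ℕ)
    (h : Sum.elim id id (walk a b s) = Sum.elim id id (walk a' b' s)) :
    walk a b s = walk a' b' s := by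
  unfold walk at h ⊢
  split <;> simp_all

lemma walk_eq_of_letters {a b a' b' : Fin q → Fin N} (h0 : b 0 = b' 0)
    (h : ∀ s : Fin (2 * q), letterAt (walk a b) s = letterAt (walk a' b') s) :
    ∀ n ≤ 2 * q, walk a b n = walk a' b' n := by
  intro n
  induction n using Nat.strong_induction_on with
  | _ n ih =>
    intro hn
    rcases n with _ | s
    · simp [walk, h0]
    have pre : ∀ r ≤ s, walk a b r = walk a' b' r := fun r hr =>
      ih r (Nat.lt_succ_of_le hr) (by omega)
    have hnew : ∀ r, r < s → (NewStep (walk a b) r ↔ NewStep (walk a' b') r) := fun r hr => by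
      refine forall_congr' fun i => imp_congr_right fun hi => ?_
      rw [pre i (by omega), pre (r + 1) (by omega)]
    have hs := h ⟨s, by omega⟩
    simp only [letterAt] at hs
    by_cases h1 : NewStep (walk a b) s
    · rw [if_pos h1] at hs
      by_cases h2 : NewStep (walk a' b') s
      · rw [if_pos h2, Sum.inl.injEq] at hs
        exact walk_side a b a' b' _ hs
      · rw [if_neg h2] at hs
        split at hs <;> simp at hs
    rw [if_neg h1] at hs
    by_cases h2 : NewStep (walk a' b') s
    · rw [if_pos h2] at hs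
      split at hs <;> simp at hs
    rw [if_neg h2] at hs
    by_cases h3 : BackStep (walk a b) s
    · rw [if_pos h3] at hs
      by_cases h4 : BackStep (walk a' b') s
      · obtain ⟨r, hr, e1, e2, e3⟩ := h3
        obtain ⟨r', hr', f1, f2, f3⟩ := h4
        have : r = r' := newStep_unique e2 ((hnew r' hr').2 f2)
          (by rw [e1, pre (r' + 1) (by omega), f1, pre s le_rfl])
        subst this
        rw [e3, f3, pre r hr.le]
      · rw [if_neg h4] at hs
        simp at hs
    rw [if_neg h3] at hs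
    by_cases h4 : BackStep (walk a' b') s
    · rw [if_pos h4] at hs
      simp at hs
    rw [if_neg h4] at hs
    have e : ∃ j ≤ s, walk a b j = walk a b (s + 1) := by simpa [NewStep] using h1
    have e' : ∃ j ≤ s, walk a' b' j = walk a' b' (s + 1) := by simpa [NewStep] using h2
    simp only [dif_pos e, dif_pos e', Sum.inr.injEq, Fin.mk.injEq] at hs
    rw [← e.choose_spec.2, ← e'.choose_spec.2, ← hs]
    exact pre _ e.choose_spec.1

lemma colours_eq_of_letters {a b a' b' : Fin q → Fin N} (h0 : b 0 = b' 0)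
    (h : ∀ s : Fin (2 * q), letterAt (walk a b) s = letterAt (walk a' b') s) :
    a = a' ∧ b = b' := by
  have hw := walk_eq_of_letters h0 h
  refine ⟨funext fun t => ?_, funext fun t => ?_⟩
  · have := hw (2 * t.1 + 1) (by omega)
    simpa [walk_odd, ofNat_val] using this
  · have := hw (2 * t.1) (by omega)
    simpa [walk_even, ofNat_val] using this

/-- The edge of one step. -/
def edgeOf (a b : Fin q → Fin N) (σ : Perm (Fin q)) (s : Fin (2 * q)) : Fin N × Fin N :=
  if Even s.1 then (a (Fin.ofNat q (s.1 / 2)), b (Fin.ofNat q (s.1 / 2)))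
  else (a (σ (Fin.ofNat q (s.1 / 2))), b (σ (Fin.ofNat q (s.1 / 2))))

variable {a b : Fin q → Fin N} {σ : Perm (Fin q)}

lemma ofNat_succ (t : ℕ) : Fin.ofNat q (t + 1) = finRotate q (Fin.ofNat q t) := by
  rw [finRotate_apply]
  ext
  simp [Fin.val_add, Nat.add_mod]

lemma exists_reverse (hσ : ∀ t, a (σ t) = a t ∧ b (σ t) = b (finRotate q t)) (r : Fin (2 * q)) :
    ∃ s : Fin (2 * q), walk a b s = walk a b (r.1 + 1) ∧ walk a b (s.1 + 1) = walk a b r := by
  rcases Nat.even_or_odd' r.1 with ⟨t, ht | ht⟩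
  · obtain ⟨u, hu⟩ := σ.surjective (Fin.ofNat q t)
    refine ⟨⟨2 * u.1 + 1, by omega⟩, ?_, ?_⟩
    · rw [ht, walk_odd, walk_odd, ofNat_val, ← hu, (hσ u).1]
    · rw [ht, show 2 * u.1 + 1 + 1 = 2 * (u.1 + 1) by ring, walk_even, walk_even, ofNat_succ,
        ofNat_val, ← (hσ u).2, hu]
  · set u := σ (Fin.ofNat q t) with hu
    refine ⟨⟨2 * u.1, by omega⟩, ?_, ?_⟩
    · rw [ht, show 2 * t + 1 + 1 = 2 * (t + 1) by ring, walk_even, walk_even, ofNat_succ,
        ofNat_val, hu, (hσ _).2]
    · rw [ht, walk_odd, walk_odd, ofNat_val, hu, (hσ _).1]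

lemma edge_ends (hσ : ∀ t, a (σ t) = a t ∧ b (σ t) = b (finRotate q t)) (r : Fin (2 * q)) :
    (walk a b r = Sum.inr (edgeOf a b σ r).2 ∧ walk a b (r.1 + 1) = Sum.inl (edgeOf a b σ r).1) ∨
    (walk a b r = Sum.inl (edgeOf a b σ r).1 ∧ walk a b (r.1 + 1) = Sum.inr (edgeOf a b σ r).2) := by
  rcases Nat.even_or_odd' r.1 with ⟨t, ht | ht⟩
  · left
    rw [edgeOf, if_pos (by rw [ht]; exact even_two_mul t), ht, walk_even, walk_odd,
      Nat.mul_div_cancel_left t two_pos]
    exact ⟨rfl, rfl⟩
  · right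
    rw [edgeOf, if_neg (by rw [ht, Nat.not_even_iff_odd]; exact odd_two_mul_add_one t), ht,
      walk_odd, show 2 * t + 1 + 1 = 2 * (t + 1) by ring, walk_even, ofNat_succ,
      show (2 * t + 1) / 2 = t by omega, (hσ _).1, (hσ _).2]
    exact ⟨rfl, rfl⟩

open scoped Classical in
/-- The new steps of a walk. -/
noncomputable def newSteps (a b : Fin q → Fin N) : Finset (Fin (2 * q)) :=
  Finset.univ.filter fun s => NewStep (walk a b) s.1

lemma newSteps_le_edges (hσ : ∀ t, a (σ t) = a t ∧ b (σ t) = b (finRotate q t)) :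
    (newSteps a b).card ≤ (Finset.univ.image fun t => (a t, b t)).card := by
  classical
  refine Finset.card_le_card_of_injOn (edgeOf a b σ) (fun r _ => ?_) fun r hr r' hr' h => ?_
  · refine Finset.mem_image.2 ?_
    unfold edgeOf
    split
    exacts [⟨_, Finset.mem_univ _, rfl⟩, ⟨_, Finset.mem_univ _, rfl⟩]
  · simp only [newSteps, Finset.mem_coe, Finset.mem_filter, Finset.mem_univ, true_and] at hr hr'
    refine Fin.ext ?_
    rcases edge_ends hσ r with ⟨e1, e2⟩ | ⟨e1, e2⟩ <;>
      rcases edge_ends hσ r' with ⟨f1, f2⟩ | ⟨f1, f2⟩ <;> rw [← h] at f1 f2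
    · exact newStep_unique hr hr' (e2.trans f2.symm)
    · rcases lt_trichotomy r.1 r'.1 with hlt | heq | hlt
      · exact absurd (e1.trans f2.symm) (hr' _ hlt.le)
      · exact heq
      · exact absurd (f1.trans e2.symm) (hr _ hlt.le)
    · rcases lt_trichotomy r.1 r'.1 with hlt | heq | hlt
      · exact absurd (e1.trans f2.symm) (hr' _ hlt.le)
      · exact heq
      · exact absurd (f1.trans e2.symm) (hr _ hlt.le)
    · exact newStep_unique hr hr' (e2.trans f2.symm)

lemma newSteps_le_back (hσ : ∀ t, a (σ t) = a t ∧ b (σ t) = b (finRotate q t)) :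
    ∀ [DecidablePred fun s : Fin (2 * q) => ¬ NewStep (walk a b) s.1 ∧ BackStep (walk a b) s.1],
      (newSteps a b).card ≤ (Finset.univ.filter fun s : Fin (2 * q) =>
        ¬ NewStep (walk a b) s.1 ∧ BackStep (walk a b) s.1).card := by
  classical
  intro _
  choose s hs1 hs2 using exists_reverse hσ
  have key : ∀ r ∈ newSteps a b, r.1 < (s r).1 ∧ ¬ NewStep (walk a b) (s r).1 := fun r hr => by
    simp only [newSteps, Finset.mem_filter, Finset.mem_univ, true_and] at hr
    have hlt : r.1 < (s r).1 := by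
      by_contra hle
      exact hr _ (not_lt.1 hle) (hs1 r)
    exact ⟨hlt, fun hn => hn _ hlt.le (hs2 r).symm⟩
  refine Finset.card_le_card_of_injOn s (fun r hr => ?_) fun r hr r' hr' h => ?_
  · have hr' := hr
    simp only [newSteps, Finset.mem_coe, Finset.mem_filter, Finset.mem_univ, true_and] at hr'
    simp only [Finset.mem_coe, Finset.mem_filter, Finset.mem_univ, true_and]
    exact ⟨(key r hr).2, r.1, (key r hr).1, (hs1 r).symm, hr', hs2 r⟩
  · simp only [newSteps, Finset.mem_coe, Finset.mem_filter, Finset.mem_univ, true_and] at hr hr'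
    refine Fin.ext (newStep_unique hr hr' ?_)
    rw [← hs1 r, h, hs1 r']

end Vale.Agent.P095.SC
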